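import Crest.Agent.N218.A.Defs

/-!
# Row 218, block A0 (helper84): calculus of the generating function `λ(x) (P(x,y) + ⟨y,θ⟩)`
-/

set_option autoImplicit false

open scoped ContDiff RealInnerProductSpace Topology
open Set Filter Real

namespace Crest.Agent.N218.A

theorem one_d {u u1 u2 : ℝ → ℝ} {K a c C s0 : ℝ} (hu : ∀ t, HasDerivAt u (u1 t) t)
    (hu1 : ∀ t, HasDerivAt u1 (u2 t) t) (hC : ∀ t ∈ Icc 0 s0, |u2 t| ≤ C) (h0 : u1 0 ≤ -c)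
    (hc : 0 < c) (hs : C * s0 ≤ c / 2) (hK : C < K * (c ^ 2 / 4)) (hK0 : 0 < K) {t : ℝ}
    (ht : t ∈ Icc 0 s0) :
    ∃ d, 0 < d ∧ HasDerivAt (fun t => exp (K * (u t + a)) * u1 t) d t := by
  have h1 : ‖u1 t - u1 0‖ ≤ C * (t - 0) :=
    norm_image_sub_le_of_norm_deriv_le_segment' (f' := u2)
      (fun x _ => (hu1 x).hasDerivWithinAt) (fun x hx => hC x ⟨hx.1, hx.2.le⟩) t ht
  have hC0 : 0 ≤ C := (abs_nonneg _).trans (hC t ht)
  have h2 : u1 t ≤ -(c / 2) := by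
    have := (abs_le.1 h1).2
    nlinarith [mul_le_mul_of_nonneg_left ht.2 hC0]
  refine ⟨_, ?_, (((hu t).add_const a).const_mul K).exp.mul (hu1 t)⟩
  have h3 : c ^ 2 / 4 ≤ u1 t ^ 2 := by nlinarith
  have h4 := (abs_le.1 (hC t ht)).1
  have h5 : 0 < K * u1 t * u1 t + u2 t := by nlinarith [mul_le_mul_of_nonneg_left h3 hK0.le]
  have := mul_pos (exp_pos (K * (u t + a))) h5
  nlinarith

theorem par_of_perp {k : ℕ} {θ z : Eu k} (hθ : ‖θ‖ = 1) (h : ∀ a, ⟪θ, a⟫ = 0 → ⟪z, a⟫ = 0) :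
    z = ⟪θ, z⟫ • θ := by
  have h1 : ⟪θ, θ⟫ = 1 := by rw [real_inner_self_eq_norm_sq, hθ]; norm_num
  have h2 : ⟪θ, z - ⟪θ, z⟫ • θ⟫ = 0 := by rw [inner_sub_right, inner_smul_right, h1]; ring
  rw [← sub_eq_zero, ← inner_self_eq_zero (𝕜 := ℝ), inner_sub_left, h _ h2, real_inner_smul_left, h2]
  ring

theorem has_line {E F : Type*} [NormedAddCommGroup E] [NormedSpace ℝ E] [NormedAddCommGroup F]
    [NormedSpace ℝ F] {f : E → F} (hf : Differentiable ℝ f) (p v : E) (t : ℝ) :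
    HasDerivAt (fun t : ℝ => f (p + t • v)) (fderiv ℝ f (p + t • v) v) t := by
  have := (hf (p + t • v)).hasFDerivAt.comp_hasDerivAt t
    (((hasDerivAt_id t).smul_const v).const_add p)
  simpa [Function.comp_def] using this

theorem has_line2 {E : Type*} [NormedAddCommGroup E] [NormedSpace ℝ E] {f : E → ℝ}
    (hf : ContDiff ℝ ∞ f) (p v η : E) (t : ℝ) :
    HasDerivAt (fun t : ℝ => fderiv ℝ f (p + t • v) η)
      (fderiv ℝ (fderiv ℝ f) (p + t • v) v η) t := by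
  have h : Differentiable ℝ (fderiv ℝ f) :=
    (hf.fderiv_right (m := ∞) (by simp)).differentiable (by simp)
  simpa using (has_line h p v t).clm_apply (hasDerivAt_const t η)

namespace Fam

variable (Φ : Fam)

/-- the fibre gradient of `ρ` -/
noncomputable def gr (z : Eu 11 × Eu 9) : Eu 9 :=
  (InnerProductSpace.toDual ℝ (Eu 9)).symm
    ((fderiv ℝ Φ.ρ z).comp (ContinuousLinearMap.inr ℝ (Eu 11) (Eu 9)))

theorem gr_inner (z : Eu 11 × Eu 9) (v : Eu 9) : ⟪Φ.gr z, v⟫ = fderiv ℝ Φ.ρ z (0, v) := by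
  simp [gr]

theorem dρ_smooth : ContDiff ℝ ∞ (fderiv ℝ Φ.ρ) := Φ.ρ_smooth.fderiv_right (m := ∞) (by simp)

theorem gr_smooth : ContDiff ℝ ∞ Φ.gr :=
  (InnerProductSpace.toDual ℝ (Eu 9)).symm.toContinuousLinearEquiv.contDiff.comp
    (Φ.dρ_smooth.clm_comp contDiff_const)

theorem ρ_diff : Differentiable ℝ Φ.ρ := Φ.ρ_smooth.differentiable (by simp)

/-- the exponential weight -/
noncomputable def Ex (K : ℝ) (z : Eu 11 × Eu 9) : ℝ := exp (K * (Φ.ρ z + Φ.w / 2))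

theorem Ex_pos (K : ℝ) (z : Eu 11 × Eu 9) : 0 < Φ.Ex K z := exp_pos _

theorem Ex_smooth (K : ℝ) : ContDiff ℝ ∞ (Φ.Ex K) :=
  (contDiff_const.mul (Φ.ρ_smooth.add contDiff_const)).exp

/-- the conformal factor -/
noncomputable def lam (ε : ℝ) (x : Eu 11) : ℝ := exp (⟪Φ.e, x⟫ / ε)

theorem lam_pos (ε : ℝ) (x : Eu 11) : 0 < Φ.lam ε x := exp_pos _

/-- the generating function before the cut-off -/
noncomputable def Gt (K ε : ℝ) (z : VQ × Eu 9) : ℝ :=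
  Φ.lam ε z.1.2 * (Φ.Ex K (z.1.2, z.2) / K + ⟪z.2, z.1.1⟫)

theorem Gt_smooth (K ε : ℝ) : ContDiff ℝ ∞ (Φ.Gt K ε) := by
  refine ContDiff.mul (ContDiff.exp (ContDiff.div_const ?_ _)) (ContDiff.add
    (((Φ.Ex_smooth K).comp (by fun_prop)).div_const _) ?_)
  · exact contDiff_const.inner ℝ (by fun_prop)
  · exact ContDiff.inner ℝ (by fun_prop) (by fun_prop)

theorem Gt_d {K : ℝ} (hK : K ≠ 0) (ε : ℝ) (θ y a η : Eu 9) (x b : Eu 11) :
    fderiv ℝ (Φ.Gt K ε) ((θ, x), y) ((a, b), η) =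
      Φ.lam ε x * (⟪Φ.e, b⟫ / ε * (Φ.Ex K (x, y) / K + ⟪y, θ⟫) +
        (Φ.Ex K (x, y) * fderiv ℝ Φ.ρ (x, y) (b, η) + ⟪η, θ⟫ + ⟪y, a⟫)) := by
  have h1 := has_line ((Φ.Gt_smooth K ε).differentiable (by simp)) ((θ, x), y) ((a, b), η) 0
  have h2 := has_line Φ.ρ_diff (x, y) (b, η) 0
  have l1 : ∀ {k : ℕ} (p v : Eu k), HasDerivAt (fun t : ℝ => p + t • v) v 0 := fun p v => by
    simpa using ((hasDerivAt_id (0 : ℝ)).smul_const v).const_add p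
  have h3 := ((((hasDerivAt_const (0 : ℝ) Φ.e).inner ℝ (l1 x b)).div_const ε).exp.mul
    (((((h2.add_const (Φ.w / 2)).const_mul K).exp).div_const K).add ((l1 y η).inner ℝ (l1 θ a))))
  have h4 := h1.unique (h3.congr_of_eventuallyEq (Eventually.of_forall fun t => by
    simp [Gt, lam, Ex]))
  simp only [zero_smul, add_zero] at h4
  rw [h4]
  simp only [lam, Ex, zero_smul, add_zero, inner_zero_left, Pi.add_apply]
  field_simp
  ring

theorem crit_iff {K : ℝ} (hK : K ≠ 0) (ε : ℝ) (θ y : Eu 9) (x : Eu 11) :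
    Crit (Φ.Gt K ε) ((θ, x), y) ↔ θ = -(Φ.Ex K (x, y) • Φ.gr (x, y)) := by
  have h : ∀ η, fderiv ℝ (Φ.Gt K ε) ((θ, x), y) (0, η) =
      Φ.lam ε x * ⟪θ + Φ.Ex K (x, y) • Φ.gr (x, y), η⟫ := fun η => by
    rw [show (0 : VQ) = (0, 0) from rfl, Φ.Gt_d hK, inner_add_left, real_inner_smul_left,
      gr_inner, real_inner_comm θ η]
    simp only [inner_zero_right]
    ring
  rw [eq_neg_iff_add_eq_zero]
  refine ⟨fun H => ?_, fun H η => by rw [h, H]; simp⟩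
  have := H (θ + Φ.Ex K (x, y) • Φ.gr (x, y))
  rw [h, mul_eq_zero, inner_self_eq_zero] at this
  exact this.resolve_left (Φ.lam_pos ε x).ne'

/-- logarithm of the regularised squared gradient -/
noncomputable def ψ (c : ℝ) (z : Eu 11 × Eu 9) : ℝ :=
  log (‖Φ.gr z‖ ^ 2 + expNegInvGlue (c ^ 2 - ‖Φ.gr z‖ ^ 2))

theorem kap_low {c : ℝ} (hc : 0 < c) : ∃ m, 0 < m ∧ ∀ s, 0 ≤ s → m ≤ s + expNegInvGlue (c ^ 2 - s) := by
  refine ⟨min (c ^ 2 / 2) (expNegInvGlue (c ^ 2 / 2)),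
    lt_min (by positivity) (expNegInvGlue.pos_of_pos (by positivity)), fun s hs => ?_⟩
  rcases le_total (c ^ 2 / 2) s with h | h
  · exact (min_le_left _ _).trans (by linarith [expNegInvGlue.nonneg (c ^ 2 - s)])
  · exact (min_le_right _ _).trans
      (by linarith [expNegInvGlue.monotone (show c ^ 2 / 2 ≤ c ^ 2 - s by linarith)])

theorem ψ_smooth {c : ℝ} (hc : 0 < c) : ContDiff ℝ ∞ (Φ.ψ c) := by
  obtain ⟨m, hm, h⟩ := kap_low hc
  have h1 : ContDiff ℝ ∞ fun z => ‖Φ.gr z‖ ^ 2 := Φ.gr_smooth.norm_sq ℝ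
  exact (h1.add (expNegInvGlue.contDiff.comp (contDiff_const.sub h1))).log
    fun z => (hm.trans_le (h _ (by positivity))).ne'

/-- the defining function of the critical set -/
noncomputable def Fn (c K : ℝ) (z : Eu 11 × Eu 9) : ℝ := Φ.ρ z + Φ.w / 2 + Φ.ψ c z / (2 * K)

theorem Fn_smooth {c : ℝ} (hc : 0 < c) (K : ℝ) : ContDiff ℝ ∞ (Φ.Fn c K) :=
  (Φ.ρ_smooth.add contDiff_const).add ((Φ.ψ_smooth hc).div_const _)

theorem Fn_d {c : ℝ} (hc : 0 < c) (K : ℝ) (z v : Eu 11 × Eu 9) :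
    fderiv ℝ (Φ.Fn c K) z v = fderiv ℝ Φ.ρ z v + fderiv ℝ (Φ.ψ c) z v / (2 * K) := by
  have h := (((Φ.ρ_diff z).hasFDerivAt.add_const (Φ.w / 2)).add
    ((((Φ.ψ_smooth hc).differentiable (by simp)) z).hasFDerivAt.mul_const (2 * K)⁻¹)).fderiv
  have e : Φ.Fn c K = (fun z => Φ.ρ z + Φ.w / 2) + fun z => Φ.ψ c z * (2 * K)⁻¹ := by
    ext z; simp only [Fn, Pi.add_apply, div_eq_mul_inv]
  rw [e, h]
  simp only [add_apply, smul_apply, smul_eq_mul]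
  ring

/-- the constants -/
structure Good (c M s0 K ε : ℝ) : Prop where
  c_pos : 0 < c
  M_pos : 0 < M
  K_pos : 0 < K
  ε_pos : 0 < ε
  s_pos : 0 < s0
  s_le : s0 ≤ 1
  reg : ∀ x y, ‖x‖ = 1 → |Φ.ρ (x, y)| ≤ Φ.w → c ≤ ‖Φ.gr (x, y)‖
  star : ∀ x y, ‖x‖ = 1 → 1 - Φ.κ ≤ |⟪Φ.e, x⟫| → Φ.δ ≤ ‖y‖ → Φ.ρ (x, y) ≤ 0 →
    c ≤ fderiv ℝ Φ.ρ (x, y) (0, y)
  d1 : ∀ x y, ‖x‖ = 1 → ‖y‖ ≤ Φ.R + 1 → ‖fderiv ℝ Φ.ρ (x, y)‖ ≤ M
  d2 : ∀ x y, ‖x‖ = 1 → ‖y‖ ≤ Φ.R + 1 → ‖fderiv ℝ (fderiv ℝ Φ.ρ) (x, y)‖ ≤ M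
  lo : ∀ z, -M ≤ Φ.ψ c z
  hi : ∀ x y, ‖x‖ = 1 → ‖y‖ ≤ Φ.R + 1 → Φ.ψ c (x, y) ≤ M
  dψ : ∀ x y, ‖x‖ = 1 → ‖y‖ ≤ Φ.R + 1 → ‖fderiv ℝ (Φ.ψ c) (x, y)‖ ≤ M
  k1 : M < K * Φ.w
  k2 : M < K * (c ^ 2 / 4)
  k3 : M < K * c
  k4 : M * Φ.R ≤ K * c
  k5 : Φ.C ≤ K * (Φ.w / 4)
  k6 : 2 ≤ K * (c * s0)
  s1 : M * s0 ≤ c / 2
  e1 : 4 * M * ε < Φ.κ * s0 * c

theorem R_pos : 0 < Φ.R := by
  simpa using Φ.bdd Φ.e 0 Φ.e_unit
    (by linarith [Φ.core Φ.e 0 Φ.e_unit (by simpa using Φ.δ_pos.le), Φ.w_pos])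

theorem good : ∃ c M s0 K ε, Φ.Good c M s0 K ε := by
  have hK : IsCompact (Metric.sphere (0 : Eu 11) 1 ×ˢ Metric.closedBall (0 : Eu 9) (Φ.R + 1)) :=
    (isCompact_sphere _ _).prod (isCompact_closedBall _ _)
  have hm : ∀ x y, ‖x‖ = 1 → ‖y‖ ≤ Φ.R + 1 → ((x, y) : Eu 11 × Eu 9) ∈
      Metric.sphere (0 : Eu 11) 1 ×ˢ Metric.closedBall (0 : Eu 9) (Φ.R + 1) :=
    fun x y hx hy => ⟨by simpa using hx, by simpa using hy⟩
  have hρ := Φ.ρ_smooth.continuous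
  have hd := Φ.dρ_smooth.continuous
  have hw := Φ.w_pos
  have hR := Φ.R_pos
  have hκ := Φ.κ_pos
  obtain ⟨c1, hc1, h1⟩ := (hK.inter_right (t := {z | |Φ.ρ z| ≤ Φ.w})
    (isClosed_le hρ.abs continuous_const)).exists_forall_le' (a := (0 : ℝ))
    Φ.gr_smooth.continuous.norm.continuousOn (fun z hz => by
      obtain ⟨v, hv⟩ := Φ.reg z.1 z.2 (by simpa using hz.1.1) hz.2
      rw [← gr_inner] at hv
      exact norm_pos_iff.2 fun h => hv (by rw [show (z.1, z.2) = z from rfl, h, inner_zero_left]))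
  obtain ⟨c2, hc2, h2⟩ := (hK.inter_right
    (t := {z | 1 - Φ.κ ≤ |⟪Φ.e, z.1⟫|} ∩ ({z | Φ.δ ≤ ‖z.2‖} ∩ {z | Φ.ρ z ≤ 0}))
    ((isClosed_le continuous_const (by fun_prop)).inter
      ((isClosed_le continuous_const (by fun_prop)).inter
        (isClosed_le hρ continuous_const)))).exists_forall_le' (a := (0 : ℝ))
    (f := fun z => fderiv ℝ Φ.ρ z (0, z.2)) (hd.clm_apply (by fun_prop)).continuousOn
    (fun z hz => Φ.cap_star z.1 z.2 (by simpa using hz.1.1) hz.2.1 hz.2.2.1 hz.2.2.2)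
  set c := min c1 c2
  have hc : 0 < c := lt_min hc1 hc2
  obtain ⟨m, hm0, hm1⟩ := kap_low hc
  obtain ⟨M1, b1⟩ := hK.exists_bound_of_continuousOn hd.continuousOn
  obtain ⟨M2, b2⟩ := hK.exists_bound_of_continuousOn
    (Φ.dρ_smooth.continuous_fderiv (by simp)).continuousOn
  obtain ⟨M3, b3⟩ := hK.exists_bound_of_continuousOn (Φ.ψ_smooth hc).continuous.continuousOn
  obtain ⟨M4, b4⟩ := hK.exists_bound_of_continuousOn
    ((Φ.ψ_smooth hc).continuous_fderiv (by simp)).continuousOn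
  set M := |M1| + |M2| + |M3| + |M4| + |log m| + 1 with hM
  have a1 := abs_nonneg M1
  have a2 := abs_nonneg M2
  have a3 := abs_nonneg M3
  have a4 := abs_nonneg M4
  have a5 := abs_nonneg (log m)
  have hM0 : 0 < M := by linarith
  set s0 := min 1 (c / 2 / M)
  have hs : 0 < s0 := lt_min one_pos (by positivity)
  have ev : ∀ (A : ℝ) {B : ℝ}, 0 < B → ∀ᶠ K in atTop, A < K * B := fun A B hB =>
    (tendsto_id.atTop_mul_const hB).eventually_gt_atTop A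
  obtain ⟨K, k0, k1, k2, k3, k4, k5, k6⟩ := ((eventually_gt_atTop (0 : ℝ)).and ((ev M hw).and
    ((ev M (show 0 < c ^ 2 / 4 by positivity)).and ((ev M hc).and ((ev (M * Φ.R) hc).and
      ((ev Φ.C (show 0 < Φ.w / 4 by positivity)).and
        (ev 2 (show 0 < c * s0 by positivity)))))))).exists
  refine ⟨c, M, s0, K, Φ.κ * s0 * c / (8 * M), hc, hM0, k0, by positivity, hs, min_le_left _ _,
    fun x y hx hy => ?_, fun x y hx h3 h4 h5 => ?_, fun x y hx hy => ?_, fun x y hx hy => ?_,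
    fun z => ?_, fun x y hx hy => ?_, fun x y hx hy => ?_, k1, k2, k3, k4.le, k5.le, k6.le, ?_, ?_⟩
  · exact (min_le_left _ _).trans (h1 _ ⟨hm x y hx
      (by linarith [Φ.bdd x y hx (abs_le.1 hy).2]), hy⟩)
  · exact (min_le_right _ _).trans (h2 (x, y) ⟨hm x y hx
      (by linarith [Φ.bdd x y hx (by linarith)]), h3, h4, h5⟩)
  · linarith [b1 _ (hm x y hx hy), le_abs_self M1]
  · linarith [b2 _ (hm x y hx hy), le_abs_self M2]
  · have : log m ≤ Φ.ψ c z := log_le_log hm0 (hm1 _ (by positivity))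
    linarith [neg_abs_le (log m)]
  · have := b3 _ (hm x y hx hy)
    rw [Real.norm_eq_abs] at this
    linarith [le_abs_self M3, le_abs_self (Φ.ψ c (x, y))]
  · linarith [b4 _ (hm x y hx hy), le_abs_self M4]
  · have : s0 ≤ c / 2 / M := min_le_right _ _
    rw [le_div_iff₀ hM0] at this
    linarith
  · have : 0 < Φ.κ * s0 * c := by positivity
    have e : 4 * M * (Φ.κ * s0 * c / (8 * M)) = Φ.κ * s0 * c / 2 := by field_simp; ring
    linarith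

end Fam

end Crest.Agent.N218.A
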