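import Mathlib

/-! One-dimensional corrugation for immersions with a spare normal column (helper3). -/

set_option autoImplicit false
open Set Function
open scoped ContDiff

namespace Crest.Agent.N218.Cr

theorem unif {T Z X : Type*} [TopologicalSpace T] [NormedAddCommGroup Z] [NormedSpace ℝ Z]
    [FiniteDimensional ℝ Z] [NormedAddCommGroup X] [NormedSpace ℝ X] {K : Set T}
    (hK : IsCompact K) (G : T → Z →L[ℝ] X) (hc : ContinuousOn G K)
    (hi : ∀ t ∈ K, Injective (G t)) : ∃ c > 0, ∀ t ∈ K, ∀ z, c * ‖z‖ ≤ ‖G t z‖ := by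
  have h1 : IsCompact (K ×ˢ Metric.sphere (0 : Z) 1) := hK.prod (isCompact_sphere _ _)
  have h2 : ContinuousOn (fun x : T × Z => ‖G x.1 x.2‖) (K ×ˢ Metric.sphere (0 : Z) 1) :=
    ((hc.comp continuousOn_fst (fun x hx => hx.1)).clm_apply continuousOn_snd).norm
  obtain ⟨c, hc0, hc1⟩ := h1.exists_forall_le' h2 (a := 0) (by
    rintro ⟨t, z⟩ ⟨ht, hz⟩
    refine norm_pos_iff.2 fun h => ?_
    have : z = 0 := hi t ht (by simpa using h)
    simp [this] at hz)
  refine ⟨c, hc0, fun t ht z => ?_⟩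
  rcases eq_or_ne z 0 with rfl | hz
  · simp
  have hn : 0 < ‖z‖ := norm_pos_iff.2 hz
  have := hc1 (t, ‖z‖⁻¹ • z) ⟨ht, by simp [norm_smul, hn.ne']⟩
  simp only [map_smul, norm_smul, norm_inv, norm_norm] at this
  calc c * ‖z‖ ≤ (‖z‖⁻¹ * ‖G t z‖) * ‖z‖ := by gcongr
    _ = _ := by field_simp

theorem det_pos {s q R α β C : ℝ} (hs : s ∈ Icc (0:ℝ) 1) (hR : 0 ≤ R)
    (h : (α = 1 ∧ β = 0) ∨ (|α - 1| ≤ C ∧ |β| ≤ C ∧ 4 * C ≤ R)) :
    0 < (1 + s * (α - 1 + R * (1 - 2 * q ^ 2))) * (1 + s * (R * (1 - 2 * q ^ 2)))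
      + (s * (R * q)) * (s * (β + R * q)) := by
  obtain ⟨ρ, hρ⟩ : ∃ ρ, ρ = s * R := ⟨_, rfl⟩
  have hρ0 : 0 ≤ ρ := hρ ▸ mul_nonneg hs.1 hR
  obtain ⟨u, hu⟩ : ∃ u, u = 1 + ρ * (1 - 2 * q ^ 2) := ⟨_, rfl⟩
  obtain ⟨v, hv⟩ : ∃ v, v = ρ * q := ⟨_, rfl⟩
  have e : (1 + s * (α - 1 + R * (1 - 2 * q ^ 2))) * (1 + s * (R * (1 - 2 * q ^ 2)))
      + (s * (R * q)) * (s * (β + R * q)) = u ^ 2 + v ^ 2 + (s * (α - 1) * u + s * β * v) := by
    rw [hu, hv, hρ]; ring
  rw [e]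
  have hD : ρ ^ 2 / 4 ≤ u ^ 2 + v ^ 2 ∧ 0 < u ^ 2 + v ^ 2 := by
    by_cases ht : 1 / 4 ≤ q ^ 2
    · have h1 : ρ ^ 2 / 4 ≤ v ^ 2 := by rw [hv, mul_pow]; nlinarith [sq_nonneg ρ]
      refine ⟨by nlinarith [sq_nonneg u], ?_⟩
      rcases hρ0.eq_or_lt with h0 | h0
      · have : u = 1 := by rw [hu, ← h0]; ring
        rw [this]; positivity
      · nlinarith [sq_nonneg u, sq_pos_of_pos h0]
    · push Not at ht
      have h1 : 1 + ρ / 2 ≤ u := by rw [hu]; nlinarith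
      constructor <;> nlinarith [sq_nonneg v]
  rcases h with ⟨rfl, rfl⟩ | ⟨h1, h2, h3⟩
  · simpa using hD.2
  have hC : 0 ≤ C := (abs_nonneg _).trans h1
  have a1 : (α - 1) ^ 2 ≤ C ^ 2 := sq_le_sq' (abs_le.1 h1).1 (abs_le.1 h1).2
  have a2 : β ^ 2 ≤ C ^ 2 := sq_le_sq' (abs_le.1 h2).1 (abs_le.1 h2).2
  have a3 : 16 * C ^ 2 ≤ R ^ 2 := by nlinarith
  have a4 : 16 * (s ^ 2 * C ^ 2) ≤ ρ ^ 2 := by rw [hρ, mul_pow]; nlinarith [sq_nonneg s]
  have a5 : s ^ 2 * (α - 1) ^ 2 ≤ s ^ 2 * C ^ 2 := by gcongr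
  have a6 : s ^ 2 * β ^ 2 ≤ s ^ 2 * C ^ 2 := by gcongr
  nlinarith [sq_nonneg (u / 2 + s * (α - 1)), sq_nonneg (v / 2 + s * β)]

section
variable {Z X : Type*} [NormedAddCommGroup Z] [NormedSpace ℝ Z] [NormedAddCommGroup X]
  [NormedSpace ℝ X]

/-- the corrugated frame -/
noncomputable def Dm (G : Z →L[ℝ] X) (y : X) (ej en : Z) (φj φn : Z →L[ℝ] ℝ) (R q : ℝ) :
    Z →L[ℝ] X :=
  φj.smulRight (y - G ej + ((1 - 2 * q ^ 2) • R • G ej + q • R • G en))
    + φn.smulRight (-q • R • G ej + (1 - 2 * q ^ 2) • R • G en)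

theorem inj_Dm {G : Z →L[ℝ] X} (hG : Injective G) {a ej en : Z} {φj φn : Z →L[ℝ] ℝ}
    (h1 : φj ej = 1) (h2 : φj en = 0) (h3 : φn ej = 0) (h4 : φn en = 1) {s q R C : ℝ}
    (hs : s ∈ Icc (0:ℝ) 1) (hR : 0 ≤ R)
    (h : (φj a = 1 ∧ φn a = 0) ∨ (|φj a - 1| ≤ C ∧ |φn a| ≤ C ∧ 4 * C ≤ R)) :
    Injective (G + s • Dm G (G a) ej en φj φn R q) := by
  refine (injective_iff_map_eq_zero _).2 fun z hz => ?_
  have hw : z + (s * φj z) • (a - ej + ((1 - 2 * q ^ 2) • R • ej + q • R • en))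
      + (s * φn z) • (-q • R • ej + (1 - 2 * q ^ 2) • R • en) = 0 := by
    apply hG
    rw [map_zero, ← hz]
    simp only [Dm, add_apply, smul_apply,
      ContinuousLinearMap.smulRight_apply, map_add, map_smul, map_sub]
    module
  have e1 := congrArg φj hw
  have e2 := congrArg φn hw
  simp only [map_add, map_smul, map_sub, h1, h2, h3, h4, smul_eq_mul, map_zero] at e1 e2
  have hd := det_pos (q := q) hs hR h
  have x0 : φj z = 0 := by
    apply (mul_eq_zero.1 _).resolve_left hd.ne'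
    linear_combination (1 + s * (R * (1 - 2 * q ^ 2))) * e1 + (s * (R * q)) * e2
  have y0 : φn z = 0 := by
    apply (mul_eq_zero.1 _).resolve_left hd.ne'
    linear_combination (-(s * (φn a + R * q))) * e1
      + (1 + s * (φj a - 1 + R * (1 - 2 * q ^ 2))) * e2
  simpa [x0, y0] using hw

theorem inj_add {A B : Z →L[ℝ] X} {c : ℝ} (hA : ∀ z, c * ‖z‖ ≤ ‖A z‖) (hB : ‖B‖ < c) :
    Injective (A + B) := by
  refine (injective_iff_map_eq_zero _).2 fun z hz => ?_
  have h1 : A z = -B z := eq_neg_of_add_eq_zero_left (by simpa using hz)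
  have h2 := hA z
  rw [h1, norm_neg] at h2
  have h3 := B.le_opNorm z
  by_contra h
  have : 0 < ‖z‖ := norm_pos_iff.2 h
  nlinarith

end

variable {P Q X : Type*} [NormedAddCommGroup P] [NormedSpace ℝ P] [FiniteDimensional ℝ P]
  [NormedAddCommGroup Q] [NormedSpace ℝ Q] [FiniteDimensional ℝ Q]
  [NormedAddCommGroup X] [NormedSpace ℝ X] [FiniteDimensional ℝ X]

/-- compactly supported homotopy of frames -/
def Hm (G G' : P → (P × ℝ × Q) →L[ℝ] X) : Prop :=
  ∃ K : Set P, IsCompact K ∧ ∃ Γ : ℝ × P → (P × ℝ × Q) →L[ℝ] X, Continuous Γ ∧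
    (∀ p, Γ (0, p) = G p) ∧ (∀ p, Γ (1, p) = G' p) ∧
    (∀ s ∈ Icc (0:ℝ) 1, ∀ p, Injective (Γ (s, p))) ∧ ∀ s p, p ∉ K → Γ (s, p) = G p

/-- formal immersion, holonomic in the first `j` directions -/
structure St {d : ℕ} (b : Module.Basis (Fin d) ℝ P) (f0 : P → X)
    (G0 : P → (P × ℝ × Q) →L[ℝ] X) (j : ℕ) (f : P → X) (G : P → (P × ℝ × Q) →L[ℝ] X) :
    Prop where
  sf : ContDiff ℝ ∞ f
  sG : ContDiff ℝ ∞ G
  inj : ∀ p, Injective (G p)
  hol : ∀ i : Fin d, (i : ℕ) < j → ∀ p, G p (b i, 0) = fderiv ℝ f p (b i)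
  out : ∃ K : Set P, IsCompact K ∧ ∀ p ∉ K, f p = f0 p ∧ G p = G0 p ∧
    ∀ v, G p (v, 0) = fderiv ℝ f p v

set_option maxHeartbeats 2000000 in
theorem step (hd : Module.finrank ℝ (P × ℝ × Q) = Module.finrank ℝ X) {d : ℕ}
    {b : Module.Basis (Fin d) ℝ P} {f0 : P → X} {G0 : P → (P × ℝ × Q) →L[ℝ] X} (j : Fin d)
    {f : P → X} {G : P → (P × ℝ × Q) →L[ℝ] X} (h : St b f0 G0 j f G) :
    ∃ f' G', St b f0 G0 (j + 1) f' G' ∧ Hm G G' := by
  obtain ⟨K, hK, hout⟩ := h.out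
  obtain ⟨r, hr0, hr⟩ := hK.isBounded.subset_closedBall_lt 0 (0 : P)
  let χ : ContDiffBump (0 : P) := ⟨r, r + 1, hr0, by linarith⟩
  set K' := Metric.closedBall (0 : P) (r + 1) with hK'
  have cK' : IsCompact K' := isCompact_closedBall _ _
  have hKK : K ⊆ K' := hr.trans (Metric.closedBall_subset_closedBall (by linarith))
  let xj : P →L[ℝ] ℝ := LinearMap.toContinuousLinearMap (b.coord j)
  let φj : (P × ℝ × Q) →L[ℝ] ℝ := xj ∘L ContinuousLinearMap.fst ℝ _ _
  let φn : (P × ℝ × Q) →L[ℝ] ℝ := ContinuousLinearMap.fst ℝ _ _ ∘L ContinuousLinearMap.snd ℝ _ _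
  let ej : P × ℝ × Q := (b j, 0)
  let en : P × ℝ × Q := (0, 1, 0)
  have xb : ∀ i, xj (b i) = if i = j then 1 else 0 := fun i => by
    simp [xj, Finsupp.single_apply]
  have h1 : φj ej = 1 := by simp [φj, ej, xb]
  have h2 : φj en = 0 := by simp [φj, en]
  have h3 : φn ej = 0 := by simp [φn, ej]
  have h4 : φn en = 1 := by simp [φn, en]
  let y : P → X := fun p => fderiv ℝ f p (b j)
  have sy : ContDiff ℝ ∞ y := (h.sf.fderiv_right (m := ∞) (by simp)).clm_apply contDiff_const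
  have sur : ∀ p, Surjective (G p) := fun p =>
    (LinearMap.injective_iff_surjective_of_finrank_eq_finrank hd (f := (G p).toLinearMap)).1
      (h.inj p)
  choose a ha using fun p => sur p (y p)
  obtain ⟨c0, hc0, hc0'⟩ := unif cK' G h.sG.continuous.continuousOn (fun p _ => h.inj p)
  obtain ⟨C0, hC0⟩ := cK'.exists_bound_of_continuousOn sy.continuous.continuousOn
  obtain ⟨C, hC, hCa⟩ : ∃ C, 0 ≤ C ∧ ∀ p ∈ K', |φj (a p) - 1| ≤ C ∧ |φn (a p)| ≤ C := by
    have hC00 : 0 ≤ C0 := (norm_nonneg _).trans (hC0 0 (by simp [hK']; linarith))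
    refine ⟨(‖φj‖ + ‖φn‖) * (C0 / c0) + 1, by positivity, fun p hp => ?_⟩
    have e1 : ‖a p‖ ≤ C0 / c0 := by
      rw [le_div_iff₀ hc0, mul_comm]
      exact (hc0' p hp _).trans (by rw [ha]; exact hC0 p hp)
    have e2 : |φj (a p)| ≤ ‖φj‖ * (C0 / c0) :=
      (φj.le_opNorm _).trans (by gcongr)
    have e3 : |φn (a p)| ≤ ‖φn‖ * (C0 / c0) :=
      (φn.le_opNorm _).trans (by gcongr)
    have e4 : 0 ≤ ‖φj‖ * (C0 / c0) := by positivity
    have e5 : 0 ≤ ‖φn‖ * (C0 / c0) := by positivity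
    have e6 := abs_sub (φj (a p)) 1
    rw [abs_one] at e6
    constructor <;> nlinarith
  let R : P → ℝ := fun p => 4 * C * χ p
  have sR : ContDiff ℝ ∞ R := contDiff_const.mul χ.contDiff
  have R0 : ∀ p, 0 ≤ R p := fun p => mul_nonneg (by positivity) χ.nonneg
  have Rz : ∀ p ∉ K', R p = 0 := fun p hp => by
    have : χ p = 0 := χ.zero_of_le_dist (by
      simp only [hK', Metric.mem_closedBall, not_le] at hp; exact hp.le)
    simp [R, this]
  let D : P → ℝ → (P × ℝ × Q) →L[ℝ] X := fun p q => Dm (G p) (y p) ej en φj φn (R p) q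
  have sD : ContDiff ℝ ∞ (fun z : P × ℝ => D z.1 z.2) := by
    have g1 : ContDiff ℝ ∞ (fun z : P × ℝ => G z.1 ej) :=
      (h.sG.comp contDiff_fst).clm_apply contDiff_const
    have g2 : ContDiff ℝ ∞ (fun z : P × ℝ => G z.1 en) :=
      (h.sG.comp contDiff_fst).clm_apply contDiff_const
    have g3 : ContDiff ℝ ∞ (fun z : P × ℝ => y z.1) := sy.comp contDiff_fst
    have g4 : ContDiff ℝ ∞ (fun z : P × ℝ => R z.1) := sR.comp contDiff_fst
    have g5 : ContDiff ℝ ∞ (fun z : P × ℝ => 1 - 2 * z.2 ^ 2) := by fun_prop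
    exact (contDiff_const.smulRight ((g3.sub g1).add ((g5.smul (g4.smul g1)).add
      (contDiff_snd.smul (g4.smul g2))))).add (contDiff_const.smulRight
      ((contDiff_snd.neg.smul (g4.smul g1)).add (g5.smul (g4.smul g2))))
  have iD : ∀ s ∈ Icc (0:ℝ) 1, ∀ p ∈ K', ∀ q, Injective (G p + s • D p q) := by
    intro s hs p hp q
    have := inj_Dm (h.inj p) (a := a p) h1 h2 h3 h4 (q := q) (C := C) hs (R0 p) (by
      by_cases hpK : p ∈ K
      · refine Or.inr ⟨(hCa p hp).1, (hCa p hp).2, ?_⟩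
        have : χ p = 1 := χ.one_of_mem_closedBall (hr hpK)
        simp [R, this]
      · have : a p = ej := h.inj p (by rw [ha]; exact ((hout p hpK).2.2 _).symm)
        exact Or.inl (by rw [this]; exact ⟨h1, h3⟩))
    rwa [ha] at this
  have Dz : ∀ p ∉ K', ∀ q, D p q = 0 := fun p hp q => by
    have : y p = G p ej := ((hout p (fun h => hp (hKK h))).2.2 _).symm
    refine ContinuousLinearMap.ext fun z => ?_
    simp [D, Dm, Rz p hp, this]
  obtain ⟨c, hc, hc'⟩ := unif (K := Icc (0:ℝ) 1 ×ˢ K' ×ˢ Icc (-1:ℝ) 1)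
    (isCompact_Icc.prod (cK'.prod isCompact_Icc))
    (fun z : ℝ × P × ℝ => G z.2.1 + z.1 • D z.2.1 z.2.2)
    (((h.sG.continuous.comp (continuous_fst.comp continuous_snd)).add
      (continuous_fst.smul (sD.continuous.comp continuous_snd))).continuousOn)
    (fun z hz => iD _ hz.1 _ hz.2.1 _)
  let U : P → X := fun p => R p • G p ej
  let V : P → X := fun p => R p • G p en
  have sU : ContDiff ℝ ∞ U := sR.smul (h.sG.clm_apply contDiff_const)
  have sV : ContDiff ℝ ∞ V := sR.smul (h.sG.clm_apply contDiff_const)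
  have sU' : ContDiff ℝ ∞ (fderiv ℝ U) := sU.fderiv_right (m := ∞) (by simp)
  have sV' : ContDiff ℝ ∞ (fderiv ℝ V) := sV.fderiv_right (m := ∞) (by simp)
  have dz : ∀ W : P → X, (∀ p ∉ K', W p = 0) → ∀ p ∉ K', fderiv ℝ W p = 0 := fun W hW p hp => by
    have : W =ᶠ[nhds p] fun _ => 0 :=
      Filter.mem_of_superset (cK'.isClosed.isOpen_compl.mem_nhds hp) hW
    rw [this.fderiv_eq]; simp
  have Uz : ∀ p ∉ K', U p = 0 := fun p hp => by simp [U, Rz p hp]
  have Vz : ∀ p ∉ K', V p = 0 := fun p hp => by simp [V, Rz p hp]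
  obtain ⟨CU, hCU⟩ := cK'.exists_bound_of_continuousOn sU'.continuous.continuousOn
  obtain ⟨CV, hCV⟩ := cK'.exists_bound_of_continuousOn sV'.continuous.continuousOn
  obtain ⟨N, hN0, hN⟩ : ∃ N : ℝ, 0 < N ∧ (|CU| + |CV|) / N < c := by
    refine ⟨(|CU| + |CV|) / c + 1, by positivity, ?_⟩
    rw [div_lt_iff₀ (by positivity), mul_add, mul_div_cancel₀ _ hc.ne']
    linarith
  let α : P → ℝ := fun p => Real.sin (2 * (N * xj p)) / (2 * N)
  let β : P → ℝ := fun p => -Real.cos (N * xj p) / N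
  have sα : ContDiff ℝ ∞ α := by
    have := xj.contDiff (n := ∞)
    fun_prop
  have sβ : ContDiff ℝ ∞ β := by
    have := xj.contDiff (n := ∞)
    fun_prop
  have dα : ∀ p, HasFDerivAt α ((1 - 2 * Real.sin (N * xj p) ^ 2) • xj) p := fun p => by
    have e1 : HasDerivAt (fun t : ℝ => Real.sin (2 * (N * t)) / (2 * N))
        (1 - 2 * Real.sin (N * xj p) ^ 2) (xj p) := by
      have := ((((hasDerivAt_id (xj p)).const_mul N).const_mul 2).sin).div_const (2 * N)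
      refine this.congr_deriv ?_
      rw [id, Real.cos_two_mul, Real.cos_sq']
      field_simp
      ring
    exact e1.comp_hasFDerivAt p xj.hasFDerivAt
  have dβ : ∀ p, HasFDerivAt β (Real.sin (N * xj p) • xj) p := fun p => by
    have e1 : HasDerivAt (fun t : ℝ => -Real.cos (N * t) / N) (Real.sin (N * xj p)) (xj p) := by
      have := ((((hasDerivAt_id (xj p)).const_mul N).cos).neg).div_const N
      refine this.congr_deriv ?_
      rw [id]
      field_simp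
    exact e1.comp_hasFDerivAt p xj.hasFDerivAt
  let f' : P → X := fun p => f p + (α p • U p + β p • V p)
  let E : P → (P × ℝ × Q) →L[ℝ] X := fun p =>
    (α p • fderiv ℝ U p + β p • fderiv ℝ V p) ∘L ContinuousLinearMap.fst ℝ _ _
  have sE : ContDiff ℝ ∞ E := ((sα.smul sU').add (sβ.smul sV')).clm_comp contDiff_const
  have df' : ∀ p v, fderiv ℝ f' p v = fderiv ℝ f p v + xj v •
      ((1 - 2 * Real.sin (N * xj p) ^ 2) • U p + Real.sin (N * xj p) • V p) + E p (v, 0) := by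
    intro p v
    have := (h.sf.differentiable (by simp) p).hasFDerivAt.add
      (((dα p).smul (sU.differentiable (by simp) p).hasFDerivAt).add
        ((dβ p).smul (sV.differentiable (by simp) p).hasFDerivAt))
    rw [show fderiv ℝ f' p = _ from this.fderiv]
    simp only [E, add_apply, smul_apply,
      ContinuousLinearMap.smulRight_apply, ContinuousLinearMap.comp_apply,
      ContinuousLinearMap.coe_fst', smul_eq_mul]
    module
  have Ez : ∀ p ∉ K', E p = 0 := fun p hp => by simp [E, dz U Uz p hp, dz V Vz p hp]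
  have En : ∀ p ∈ K', ‖E p‖ < c := fun p hp => by
    have e1 : |α p| ≤ 1 / N := by
      simp only [α, abs_div, abs_of_pos (show 0 < 2 * N by positivity)]
      rw [div_le_div_iff₀ (by positivity) hN0]
      nlinarith [Real.abs_sin_le_one (2 * (N * xj p))]
    have e2 : |β p| ≤ 1 / N := by
      simp only [β, abs_div, abs_neg, abs_of_pos hN0]
      gcongr
      exact Real.abs_cos_le_one _
    calc ‖E p‖ ≤ ‖α p • fderiv ℝ U p + β p • fderiv ℝ V p‖ * 1 :=
          (ContinuousLinearMap.opNorm_comp_le _ _).trans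
            (by gcongr; exact ContinuousLinearMap.norm_fst_le _ _ _)
      _ ≤ (1 / N) * |CU| + (1 / N) * |CV| := by
          rw [mul_one]
          refine (norm_add_le _ _).trans (add_le_add ?_ ?_)
          · rw [norm_smul, Real.norm_eq_abs]
            gcongr
            exact (hCU p hp).trans (le_abs_self _)
          · rw [norm_smul, Real.norm_eq_abs]
            gcongr
            exact (hCV p hp).trans (le_abs_self _)
      _ = (|CU| + |CV|) / N := by ring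
      _ < c := hN
  let q : P → ℝ := fun p => Real.sin (N * xj p)
  have sq : ContDiff ℝ ∞ q := by
    have := xj.contDiff (n := ∞)
    fun_prop
  have sDq : ContDiff ℝ ∞ (fun p => D p (q p)) := sD.comp (contDiff_id.prodMk sq)
  let Γ : ℝ × P → (P × ℝ × Q) →L[ℝ] X := fun z => G z.2 + z.1 • D z.2 (q z.2) + z.1 • E z.2
  have iΓ : ∀ s ∈ Icc (0:ℝ) 1, ∀ p, Injective (Γ (s, p)) := by
    intro s hs p
    by_cases hp : p ∈ K'
    · refine inj_add (hc' (s, p, q p) ⟨hs, hp, Real.neg_one_le_sin _, Real.sin_le_one _⟩) ?_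
      rw [norm_smul, Real.norm_eq_abs, abs_of_nonneg hs.1]
      nlinarith [En p hp, norm_nonneg (E p), hs.1, hs.2]
    · simpa [Γ, Dz p hp, Ez p hp] using h.inj p
  refine ⟨f', fun p => Γ (1, p), ⟨h.sf.add ((sα.smul sU).add (sβ.smul sV)),
    (h.sG.add (sDq.const_smul (1:ℝ))).add (sE.const_smul (1:ℝ)),
    iΓ 1 ⟨zero_le_one, le_rfl⟩, ?_, K', cK', ?_⟩, K', cK', Γ,
    ((h.sG.continuous.comp continuous_snd).add (continuous_fst.smul
      (sDq.continuous.comp continuous_snd))).add (continuous_fst.smul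
      (sE.continuous.comp continuous_snd)), fun p => by simp [Γ], fun p => rfl, iΓ,
    fun s p hp => by simp [Γ, Dz p hp, Ez p hp]⟩
  · intro i hi p
    rw [df']
    have t1 : φj (b i, 0) = xj (b i) := rfl
    have t2 : φn (b i, 0) = 0 := rfl
    simp only [Γ, D, Dm, one_smul, add_apply,
      ContinuousLinearMap.smulRight_apply, t1, t2, zero_smul, add_zero, xb]
    by_cases hij : i = j
    · subst hij
      simp only [if_true, one_smul, y, ej, U, V, q]
      abel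
    · have : (i : ℕ) < j := lt_of_le_of_ne (Nat.lt_succ_iff.1 hi) (fun e => hij (Fin.ext e))
      simp [hij, h.hol i this p]
  · intro p hp
    have hpK : p ∉ K := fun h => hp (hKK h)
    refine ⟨by simp [f', Uz p hp, Vz p hp, (hout p hpK).1],
      by simp [Γ, Dz p hp, Ez p hp, (hout p hpK).2.1], fun v => ?_⟩
    rw [df']
    simp [Γ, Dz p hp, Ez p hp, Uz p hp, Vz p hp, (hout p hpK).2.2 v]

/-- the local h-principle -/
theorem corr (hd : Module.finrank ℝ (P × ℝ × Q) = Module.finrank ℝ X) {f0 : P → X}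
    {G0 : P → (P × ℝ × Q) →L[ℝ] X} (sf : ContDiff ℝ ∞ f0) (sG : ContDiff ℝ ∞ G0)
    (inj : ∀ p, Injective (G0 p))
    (out : ∃ K : Set P, IsCompact K ∧ ∀ p ∉ K, ∀ v, G0 p (v, 0) = fderiv ℝ f0 p v) :
    ∃ (f : P → X) (G : P → (P × ℝ × Q) →L[ℝ] X), ContDiff ℝ ∞ f ∧ ContDiff ℝ ∞ G ∧ (∀ p, Injective (G p)) ∧
      (∀ p v, G p (v, 0) = fderiv ℝ f p v) ∧
      (∃ K : Set P, IsCompact K ∧ ∀ p ∉ K, f p = f0 p ∧ G p = G0 p) ∧
      Relation.ReflTransGen Hm G0 G := by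
  let b := Module.finBasis ℝ P
  have key : ∀ j ≤ Module.finrank ℝ P, ∃ f G, St b f0 G0 j f G ∧
      Relation.ReflTransGen Hm G0 G := by
    intro j
    induction j with
    | zero =>
      obtain ⟨K, hK, h⟩ := out
      exact fun _ => ⟨f0, G0, ⟨sf, sG, inj, fun i hi => absurd hi (by simp),
        K, hK, fun p hp => ⟨rfl, rfl, h p hp⟩⟩, .refl⟩
    | succ j ih =>
      intro hj
      obtain ⟨f, G, h, hr⟩ := ih (by omega)
      obtain ⟨f', G', h', hm⟩ := step hd (⟨j, hj⟩ : Fin _) h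
      exact ⟨f', G', h', hr.tail hm⟩
  obtain ⟨f, G, h, hr⟩ := key _ le_rfl
  obtain ⟨K, hK, ho⟩ := h.out
  refine ⟨f, G, h.sf, h.sG, h.inj, fun p v => ?_, ⟨K, hK, fun p hp => ⟨(ho p hp).1, (ho p hp).2.1⟩⟩,
    hr⟩
  have : (G p ∘L ContinuousLinearMap.inl ℝ P (ℝ × Q)).toLinearMap = (fderiv ℝ f p).toLinearMap :=
    b.ext fun i => h.hol i i.2 p
  exact LinearMap.congr_fun this v

end Crest.Agent.N218.Cr
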