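import Crest.Prelude.Def_CotangentSpheres

/-!
# Row 218, block A (helper84): families of domains and tangential generating functions
-/

set_option autoImplicit false

open scoped ContDiff RealInnerProductSpace
open Crest.GeometryTopology.CotangentSpheres

namespace Crest.Agent.N218.A

/-- Euclidean `(k+1)`-space. -/
abbrev Eu (k : ℕ) := EuclideanSpace ℝ (Fin (k + 1))

/-- the ambient space of `Q = S⁹ × S¹¹`; `q = (θ, x)` -/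
abbrev VQ := Eu 9 × Eu 11

/-- `q ∈ S⁹ × S¹¹` -/
def UnitQ (q : VQ) : Prop := ‖q.1‖ = 1 ∧ ‖q.2‖ = 1

/-- `v` is tangent to `Q` at `q` -/
def Tan (q v : VQ) : Prop := ⟪q.1, v.1⟫ = 0 ∧ ⟪q.2, v.2⟫ = 0

/-- fibrewise critical point -/
def Crit (G : VQ × Eu 9 → ℝ) (z : VQ × Eu 9) : Prop := ∀ e, fderiv ℝ G z (0, e) = 0

/-- the covector `p` is the tangential part of `d_q G` at `z = (q, y)` -/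
def Cov (G : VQ × Eu 9 → ℝ) (z : VQ × Eu 9) (p : VQ) : Prop :=
  ∀ v, Tan z.1 v → fderiv ℝ G z (v, 0) = ⟪p.1, v.1⟫ + ⟪p.2, v.2⟫

/-- uniqueness of the critical point with a given tangential derivative -/
def Un (G : VQ × Eu 9 → ℝ) (D : Set (VQ × Eu 9)) : Prop :=
  ∀ q y y', UnitQ q → (q, y) ∈ D → (q, y') ∈ D → Crit G (q, y) → Crit G (q, y') →
    (∀ v, Tan q v → fderiv ℝ G (q, y) (v, 0) = fderiv ℝ G (q, y') (v, 0)) → y = y'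

/-- non-degeneracy -/
def Ndg (G : VQ × Eu 9 → ℝ) (D : Set (VQ × Eu 9)) : Prop :=
  ∀ q y z, UnitQ q → (q, y) ∈ D → Crit G (q, y) →
    (∀ v e, Tan q v → fderiv ℝ (fderiv ℝ G) (q, y) (0, z) (v, e) = 0) → z = 0

/-- `G` restricted to `D` generates the set `L ⊆ T^*Q` (tangential form, unit `q` only). -/
structure TGen (G : VQ × Eu 9 → ℝ) (D : Set (VQ × Eu 9)) (L : Set (Amb 11)) : Prop where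
  mem : ∀ q y, UnitQ q → (q, y) ∈ D → Crit G (q, y) → ∃ p, (q, p) ∈ L ∧ Cov G (q, y) p
  ex : ∀ q p, (q, p) ∈ L → ∃ y, (q, y) ∈ D ∧ Crit G (q, y) ∧ Cov G (q, y) p
  un : Un G D
  ndg : Ndg G D

/-- A smooth family of domains `U_x = {ρ (x, ·) ≤ 0} ⊆ ℝ¹⁰` over `S¹¹`, convex over two polar caps,
with an inward map `r`. Only unit `x` are constrained. -/
structure Fam where
  ρ : Eu 11 × Eu 9 → ℝ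
  r : Eu 11 × Eu 9 → Eu 9
  e : Eu 11
  w : ℝ
  δ : ℝ
  R : ℝ
  κ : ℝ
  C : ℝ
  ρ_smooth : ContDiff ℝ ∞ ρ
  r_smooth : ContDiff ℝ ∞ r
  e_unit : ‖e‖ = 1
  w_pos : 0 < w
  δ_pos : 0 < δ
  κ_pos : 0 < κ
  reg : ∀ x y, ‖x‖ = 1 → |ρ (x, y)| ≤ w → ∃ v, fderiv ℝ ρ (x, y) (0, v) ≠ 0
  bdd : ∀ x y, ‖x‖ = 1 → ρ (x, y) ≤ w → ‖y‖ < R
  core : ∀ x y, ‖x‖ = 1 → ‖y‖ ≤ δ → ρ (x, y) < -w
  cap_conv : ∀ x, ‖x‖ = 1 → 1 - κ ≤ |⟪e, x⟫| → ConvexOn ℝ Set.univ fun y => ρ (x, y)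
  cap_star : ∀ x y, ‖x‖ = 1 → 1 - κ ≤ |⟪e, x⟫| → δ ≤ ‖y‖ → ρ (x, y) ≤ 0 →
    0 < fderiv ℝ ρ (x, y) (0, y)
  r_id : ∀ x y, ‖x‖ = 1 → ρ (x, y) ≤ 0 → r (x, y) = y
  r_lt : ∀ x y, ‖x‖ = 1 → 0 < ρ (x, y) → ρ (x, y) ≤ w → ρ (x, r (x, y)) < ρ (x, y)
  r_low : ∀ x y, ‖x‖ = 1 → 0 < ρ (x, y) → ρ (x, y) ≤ w → -(w / 4) ≤ ρ (x, r (x, y))
  r_lip : ∀ x y, ‖x‖ = 1 → 0 < ρ (x, y) → ρ (x, y) ≤ w →
    ‖r (x, y) - y‖ ≤ C * (ρ (x, y) - ρ (x, r (x, y)))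
  r_in : ∀ x y, ‖x‖ = 1 → ρ (x, r (x, y)) ≤ w / 2
  r_bdd : ∀ z, ‖r z‖ ≤ R

/-- the open set on which `G₀` generates -/
def Fam.D (Φ : Fam) : Set (VQ × Eu 9) := {z | Φ.ρ (z.1.2, z.2) < Φ.w}

/-- What block A0 delivers to block C. -/
structure Fam.Out (Φ : Fam) (ι : Sph 9 × Sph 11 → Amb 11) (G : VQ × Eu 9 → ℝ) : Prop where
  emb : IsExactLagEmbedding 11 ι
  smooth : ContDiff ℝ ∞ G
  supp : ∀ q y, Φ.R + 2 ≤ ‖y‖ → G (q, y) = 0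
  gen : TGen G Φ.D (Set.range ι)
  int : ∀ q y, UnitQ q → (q, y) ∈ Φ.D → Crit G (q, y) → Φ.ρ (q.2, y) < 0
  mono : ∀ q y, UnitQ q → Φ.ρ (q.2, y) ≤ Φ.w → G (q, Φ.r (q.2, y)) ≤ G (q, y)

/-- block A0 -/
def A0 : Prop := ∀ Φ : Fam, ∃ ι G, Φ.Out ι G

/-- leaf LAG: a parametrised critical set gives an exact Lagrangian embedding -/
def LAG : Prop := ∀ (G : VQ × Eu 9 → ℝ) (D : Set (VQ × Eu 9)) (σ : VQ → VQ × Eu 9)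
  (τ : VQ × Eu 9 → VQ), ContDiff ℝ ∞ G → Un G D → Ndg G D → ContDiff ℝ ∞ σ → ContDiff ℝ ∞ τ →
  (∀ l, UnitQ l → UnitQ (σ l).1 ∧ σ l ∈ D ∧ Crit G (σ l) ∧ τ (σ l) = l) →
  (∀ z, UnitQ z.1 → z ∈ D → Crit G z → ∃ l, UnitQ l ∧ σ l = z) →
  ∃ ι, IsExactLagEmbedding 11 ι ∧ TGen G D (Set.range ι)

/-- leaf PAR (helper69, `N218/A/Par`) -/
def PAR : Prop := ∀ (F : Eu 11 × Eu 9 → ℝ) (e : Eu 11) (δ κ R : ℝ), ContDiff ℝ ∞ F → ‖e‖ = 1 →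
  0 < δ → 0 < κ →
  (∀ x y, ‖x‖ = 1 → F (x, y) = 0 → ∃ v, fderiv ℝ F (x, y) (0, v) ≠ 0) →
  (∀ x y, ‖x‖ = 1 → ‖y‖ ≤ δ → F (x, y) < 0) → (∀ x y, ‖x‖ = 1 → R ≤ ‖y‖ → 0 < F (x, y)) →
  (∀ x y, ‖x‖ = 1 → 1 - κ ≤ |⟪e, x⟫| → δ ≤ ‖y‖ → F (x, y) ≤ 0 → 0 ≤ fderiv ℝ F (x, y) (0, y)) →
  ∃ Ψ Ψ' : Eu 11 × Eu 9 → Eu 11 × Eu 9, ContDiff ℝ ∞ Ψ ∧ ContDiff ℝ ∞ Ψ' ∧
    (∀ z, Ψ' (Ψ z) = z) ∧ (∀ z, Ψ (Ψ' z) = z) ∧ (∀ z, ‖(Ψ z).1‖ = ‖z.1‖) ∧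
    ∀ x y, ‖x‖ = 1 → (‖y‖ = δ ↔ F (Ψ (x, y)) = 0)

end Crest.Agent.N218.A
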