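import Crest.Agent.N218.A.Iso

/-!
# Row 218, block A (helper69): equivariant isotopy extension for a regular path of functions
-/

set_option autoImplicit false
set_option linter.unusedSectionVars false

open Set Filter Topology
open scoped ContDiff InnerProductSpace

noncomputable section

namespace Crest.Agent.N218.Par

/-- uniqueness of integral curves of a bounded smooth field -/
theorem flow_unique {E : Type} [NormedAddCommGroup E] [NormedSpace ℝ E] [FiniteDimensional ℝ E]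
    {v : E → E} (hv : ContDiff ℝ ∞ v) {c c' : ℝ → E} (hc : ∀ s, HasDerivAt c (v (c s)) s)
    (hc' : ∀ s, HasDerivAt c' (v (c' s)) s) (h0 : c 0 = c' 0) (s : ℝ) : c s = c' s := by
  have hv1 : ContDiffOn ℝ 1 v univ := (hv.of_le (by simp)).contDiffOn
  have h1 := (Lib.ODEFlow.flow_of_integralCurve' isOpen_univ hv1 (c := c) (l := s) rfl
    (fun _ _ => mem_univ _) fun r _ => hc r).2
  have h2 := (Lib.ODEFlow.flow_of_integralCurve' isOpen_univ hv1 (c := c') (l := s) h0.symm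
    (fun _ _ => mem_univ _) fun r _ => hc' r).2
  rw [← h1, h2]

/-- a function whose derivative vanishes while its value lies in `[-w, w]` -/
theorem stay {f f' : ℝ → ℝ} (hf : ∀ s, HasDerivAt f (f' s) s) {w : ℝ}
    (h : ∀ s, |f s| ≤ 2 * w → f' s = 0) (hw : 0 < w) {a : ℝ} (ha : |f a| ≤ w) (b : ℝ) :
    f b = f a := by
  have hc : Continuous f := continuous_iff_continuousAt.2 fun s => (hf s).continuousAt
  have hcl : IsClopen {s | f s = f a} := by
    refine ⟨isClosed_eq hc continuous_const, isOpen_iff_mem_nhds.2 fun s hs => ?_⟩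
    have h1 : ∀ᶠ r in 𝓝 s, |f r| < 2 * w :=
      hc.abs.continuousAt.eventually_lt continuousAt_const (by
        show |f s| < 2 * w
        rw [show f s = f a from hs]; linarith)
    obtain ⟨ε, hε, hb⟩ := Metric.eventually_nhds_iff_ball.1 h1
    refine mem_of_superset (Metric.ball_mem_nhds s hε) fun r hr => ?_
    have := (convex_ball s ε).norm_image_sub_le_of_norm_hasDerivWithin_le (C := 0) (f := f)
      (f' := f') (fun r _ => (hf r).hasDerivWithinAt) (fun r hr => by simp [h r (hb r hr).le])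
      (Metric.mem_ball_self hε) hr
    have h2 : f r - f s = 0 := by simpa using this
    show f r = f a
    rw [← show f s = f a from hs]; linarith
  have := hcl.eq_univ ⟨a, rfl⟩
  exact (this ▸ mem_univ b : b ∈ {s | f s = f a})

theorem stay_gt {f f' : ℝ → ℝ} (hf : ∀ s, HasDerivAt f (f' s) s) {w : ℝ}
    (h : ∀ s, |f s| ≤ 2 * w → f' s = 0) (hw : 0 < w) {a : ℝ} (ha : w < f a) (b : ℝ) :
    w < f b := by
  have hc : Continuous f := continuous_iff_continuousAt.2 fun s => (hf s).continuousAt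
  by_contra hb
  obtain ⟨s, hs⟩ := mem_range_of_exists_le_of_exists_ge hc ⟨b, not_lt.1 hb⟩ ⟨a, ha.le⟩
  have := stay hf h hw (a := s) (by rw [hs, abs_of_pos hw]) a
  linarith

variable {Z : Type} [NormedAddCommGroup Z] [InnerProductSpace ℝ Z] [FiniteDimensional ℝ Z]

/-- the vertical gradient -/
def vg (F : ℝ × Z → ℝ) (p : ℝ × Z) : Z :=
  ∑ i, fderiv ℝ F p (0, stdOrthonormalBasis ℝ Z i) • stdOrthonormalBasis ℝ Z i

theorem inner_vg (F : ℝ × Z → ℝ) (p : ℝ × Z) (w : Z) : ⟪vg F p, w⟫_ℝ = fderiv ℝ F p (0, w) := by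
  have e : (((0 : ℝ), w) : ℝ × Z) =
      ∑ i, ⟪stdOrthonormalBasis ℝ Z i, w⟫_ℝ • ((0 : ℝ), stdOrthonormalBasis ℝ Z i) := by
    refine Prod.ext (by simp [Prod.fst_sum]) ?_
    simp [Prod.snd_sum, (stdOrthonormalBasis ℝ Z).sum_repr']
  rw [e, map_sum, vg, sum_inner]
  refine Finset.sum_congr rfl fun i _ => ?_
  rw [map_smul, real_inner_smul_left, smul_eq_mul, mul_comm]

theorem vg_smooth {F : ℝ × Z → ℝ} (hF : ContDiff ℝ ∞ F) : ContDiff ℝ ∞ (vg F) :=
  ContDiff.sum fun _ _ =>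
    ((hF.fderiv_right (m := ∞) (by simp)).clm_apply contDiff_const).smul contDiff_const

theorem dt_zero {F : ℝ × Z → ℝ} (hF : ContDiff ℝ ∞ F) {p : ℝ × Z} {s : Set ℝ}
    (hs : UniqueDiffWithinAt ℝ s p.1) (hp : p.1 ∈ s) {c : ℝ} (h : ∀ t ∈ s, F (t, p.2) = c) :
    fderiv ℝ F p (1, 0) = 0 := by
  have h1 : HasDerivAt (fun t : ℝ => ((t, p.2) : ℝ × Z)) (1, 0) p.1 :=
    (hasDerivAt_id p.1).prodMk (hasDerivAt_const _ _)
  have h2 := ((hF.differentiable (by simp) p).hasFDerivAt.comp_hasDerivAt_of_eq p.1 h1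
    rfl).hasDerivWithinAt (s := s)
  have h3 : HasDerivWithinAt (F ∘ fun t : ℝ => ((t, p.2) : ℝ × Z)) 0 s p.1 :=
    (hasDerivWithinAt_const p.1 s c).congr (fun t ht => h t ht) (h _ hp)
  exact hs.eq_deriv _ h2 h3

theorem isoT {F : ℝ × Z → ℝ} (hF : ContDiff ℝ ∞ F) {a : ℝ}
    (hout : ∀ t z, a ≤ ‖z‖ → F (t, z) = F (0, z)) (h0 : ∀ t z, t ≤ 0 → F (t, z) = F (0, z))
    (h1 : ∀ t z, 1 ≤ t → F (t, z) = F (1, z))
    (reg : ∀ t z, ‖z‖ ≤ a → F (t, z) = 0 → ∃ w, fderiv ℝ F (t, z) (0, w) ≠ 0) :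
    ∃ w : ℝ, 0 < w ∧ ∃ D D' : ℝ × Z → Z, ContDiff ℝ ∞ D ∧ ContDiff ℝ ∞ D' ∧
      (∀ t z, D' (t, D (t, z)) = z) ∧ (∀ t z, D (t, D' (t, z)) = z) ∧
      (∀ t z, t ≤ 0 → D (t, z) = z) ∧ (∀ t z, a ≤ ‖z‖ → D (t, z) = z) ∧
      (∀ t z, 1 ≤ t → D (t, z) = D (1, z)) ∧
      (∀ t z, |F (0, z)| ≤ w → F (t, D (t, z)) = F (0, z)) ∧
      (∀ t z, w < F (0, z) → w < F (t, D (t, z))) ∧
      (∀ t z, F (0, z) < -w → F (t, D (t, z)) < -w) ∧
      ∀ A : Z ≃ₗᵢ[ℝ] Z, (∀ t z, F (t, A z) = F (t, z)) → ∀ t z, D (t, A z) = A (D (t, z)) := by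
  have : ProperSpace Z := FiniteDimensional.proper ℝ Z
  have hD : ContDiff ℝ ∞ (fderiv ℝ F) := hF.fderiv_right (m := ∞) (by simp)
  have Fd := hF.differentiable (by simp)
  have gs := vg_smooth hF
  set h : ℝ × Z → ℝ := fun p => fderiv ℝ F p (1, 0) with hh
  have hs : ContDiff ℝ ∞ h := hD.clm_apply contDiff_const
  set K : Set (ℝ × Z) := Icc 0 1 ×ˢ Metric.closedBall 0 a with hK
  have Kc : IsCompact K := isCompact_Icc.prod (isCompact_closedBall _ _)
  have hz1 : ∀ p : ℝ × Z, a ≤ ‖p.2‖ → h p = 0 := fun p hp =>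
    dt_zero hF uniqueDiffWithinAt_univ (mem_univ _) fun t _ => hout t _ hp
  have hz2 : ∀ p : ℝ × Z, p.1 ≤ 0 → h p = 0 := fun p hp =>
    dt_zero hF (uniqueDiffOn_Iic 0 _ hp) hp fun t ht => h0 t _ ht
  have hz3 : ∀ p : ℝ × Z, 1 ≤ p.1 → h p = 0 := fun p hp =>
    dt_zero hF (uniqueDiffOn_Ici 1 _ hp) hp fun t ht => h1 t _ ht
  have hz : ∀ p ∉ K, h p = 0 := fun p hp => by
    by_contra hne
    exact hp ⟨⟨le_of_not_ge fun h => hne (hz2 p h), le_of_not_ge fun h => hne (hz3 p h)⟩,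
      mem_closedBall_zero_iff.2 (le_of_not_ge fun h => hne (hz1 p h))⟩
  -- the width
  obtain ⟨w, hw, hwK⟩ : ∃ w > 0, ∀ p ∈ K, vg F p = 0 → 2 * w < |F p| := by
    have hc : IsCompact (K ∩ {p | vg F p = 0}) :=
      Kc.inter_right (isClosed_eq gs.continuous continuous_const)
    obtain ⟨m, hm, hm'⟩ := hc.exists_forall_le' (f := fun p => |F p|) (a := 0)
      hF.continuous.abs.continuousOn fun p hp => abs_pos.2 fun h0 => by
        obtain ⟨u, hu⟩ := reg p.1 p.2 (mem_closedBall_zero_iff.1 hp.1.2) h0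
        exact hu (by rw [← inner_vg, show vg F (p.1, p.2) = 0 from hp.2, inner_zero_left])
    exact ⟨m / 3, by positivity, fun p hp h0 => by linarith [hm' p ⟨hp, h0⟩]⟩
  set n : ℝ × Z → ℝ := fun p => ⟪vg F p, vg F p⟫_ℝ + expNegInvGlue (F p ^ 2 - (2 * w) ^ 2) with hn
  have ns : ContDiff ℝ ∞ n :=
    (gs.inner ℝ gs).add (expNegInvGlue.contDiff.comp ((hF.pow 2).sub contDiff_const))
  have npos : ∀ p ∈ K, n p ≠ 0 := fun p hp => by
    by_cases hg : vg F p = 0
    · have := hwK p hp hg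
      have h2 : 0 < F p ^ 2 - (2 * w) ^ 2 := by rw [← sq_abs (F p)]; nlinarith
      exact (add_pos_of_nonneg_of_pos real_inner_self_nonneg (expNegInvGlue.pos_of_pos h2)).ne'
    · exact (add_pos_of_pos_of_nonneg (real_inner_self_pos.2 hg) (expNegInvGlue.nonneg _)).ne'
  set c : ℝ × Z → ℝ := fun p => h p / n p with hc
  have c0 : ∀ p, h p = 0 → c p = 0 := fun p hp => by simp [hc, hp]
  have cs : ContDiff ℝ ∞ c := by
    refine contDiff_iff_contDiffAt.2 fun p => ?_
    by_cases hp : p ∈ K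
    · exact hs.contDiffAt.div ns.contDiffAt (npos p hp)
    · refine (contDiffAt_const (c := (0 : ℝ))).congr_of_eventuallyEq ?_
      filter_upwards [Kc.isClosed.isOpen_compl.mem_nhds hp] with q hq using c0 q (hz q hq)
  set u : ℝ × Z → Z := fun p => -(c p) • vg F p with hu
  have us : ContDiff ℝ ∞ u := cs.neg.smul gs
  have u0 : ∀ p, h p = 0 → u p = 0 := fun p hp => by simp [hu, c0 p hp]
  obtain ⟨C, hC⟩ := Kc.exists_bound_of_continuousOn us.continuous.continuousOn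
  set v : ℝ × Z → ℝ × Z := fun p => (1, u p) with hv
  have vs : ContDiff ℝ ∞ v := contDiff_const.prodMk us
  have vb : ∀ p, ‖v p‖ ≤ max 1 C := fun p => by
    rw [Prod.norm_def]
    refine max_le (by simp [hv]) ?_
    by_cases hp : p ∈ K
    · exact (hC p hp).trans (le_max_right _ _)
    · simp [hv, u0 p (hz p hp)]
  obtain ⟨Φ, Φs, Φ0, Φd, Φa⟩ := exists_flow vs vb
  have Φ1 : ∀ p s, (Φ (p, s)).1 = p.1 + s := by
    intro p s
    have := const_of_deriv (f := fun s => (Φ (p, s)).1 - s)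
      (fun s => by
        have h2 : HasDerivAt (fun s => (Φ (p, s)).1) 1 s :=
          (ContinuousLinearMap.fst ℝ ℝ Z).hasFDerivAt.comp_hasDerivAt s (Φd p s)
        have h3 := h2.fun_sub (hasDerivAt_id' s)
        rwa [sub_self] at h3) s 0
    simp only [Φ0, sub_zero] at this
    linarith
  have e1 : ∀ t z, Φ ((0, z), t) = (t, (Φ ((0, z), t)).2) := fun t z =>
    Prod.ext (by simp [Φ1]) rfl
  have e2 : ∀ t z, Φ ((t, z), -t) = (0, (Φ ((t, z), -t)).2) := fun t z =>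
    Prod.ext (by simp [Φ1]) rfl
  have Φ2 : ∀ p s, HasDerivAt (fun s => (Φ (p, s)).2) (u (Φ (p, s))) s := fun p s =>
    (ContinuousLinearMap.snd ℝ ℝ Z).hasFDerivAt.comp_hasDerivAt s (Φd p s)
  have cst : ∀ (p : ℝ × Z) (x y : ℝ), x ≤ y → (∀ s ∈ Icc x y, h (Φ (p, s)) = 0) →
      (Φ (p, y)).2 = (Φ (p, x)).2 := fun p x y hxy hs => by
    have := (convex_Icc x y).norm_image_sub_le_of_norm_hasDerivWithin_le (C := 0)
      (f := fun s => (Φ (p, s)).2) (fun r _ => (Φ2 p r).hasDerivWithinAt)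
      (fun r hr => by simp [u0 _ (hs r hr)]) (left_mem_Icc.2 hxy) (right_mem_Icc.2 hxy)
    simpa [sub_eq_zero] using this
  have hd : ∀ z s, HasDerivAt (fun s => F (Φ ((0, z), s)))
      (fderiv ℝ F (Φ ((0, z), s)) (v (Φ ((0, z), s)))) s := fun z s =>
    (Fd _).hasFDerivAt.comp_hasDerivAt s (Φd _ s)
  have hd0 : ∀ q, |F q| ≤ 2 * w → fderiv ℝ F q (v q) = 0 := fun q hq => by
    have : v q = (1, 0) + (-(c q)) • ((0 : ℝ), vg F q) := by simp [hv, hu]
    rw [this, map_add, map_smul, ← inner_vg]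
    show h q + -(h q / n q) * ⟪vg F q, vg F q⟫_ℝ = 0
    by_cases hp : q ∈ K
    · have h2 : n q = ⟪vg F q, vg F q⟫_ℝ := by
        simp only [hn]
        rw [expNegInvGlue.zero_of_nonpos, add_zero]
        rw [← sq_abs (F q)]; nlinarith [abs_nonneg (F q)]
      rw [← h2]
      field_simp [npos q hp]
      ring
    · simp [hz q hp]
  refine ⟨w, hw, fun p => (Φ ((0, p.2), p.1)).2, fun p => (Φ (p, -p.1)).2,
    (Φs.comp ((contDiff_const.prodMk contDiff_snd).prodMk contDiff_fst)).snd,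
    (Φs.comp (contDiff_id.prodMk contDiff_fst.neg)).snd, fun t z => ?_, fun t z => ?_,
    fun t z ht => ?_, fun t z hz => ?_, fun t z ht => ?_, fun t z hz => ?_, fun t z hz => ?_,
    fun t z hz => ?_, fun A hA t z => ?_⟩
  · show (Φ ((t, (Φ ((0, z), t)).2), -t)).2 = z
    rw [← e1, ← Φa, add_neg_cancel, Φ0]
  · show (Φ ((0, (Φ ((t, z), -t)).2), t)).2 = z
    rw [← e2, ← Φa, neg_add_cancel, Φ0]
  · have := cst (0, z) t 0 ht fun s hs => hz2 _ (by simpa [Φ1] using hs.2)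
    rw [Φ0] at this
    exact this.symm
  · have := flow_unique vs (Φd (0, z)) (c' := fun s => (s, z)) (fun s => by
      have h2 : v (s, z) = (1, 0) := by simp [hv, u0 _ (hz1 (s, z) hz)]
      rw [h2]
      exact (hasDerivAt_id s).prodMk (hasDerivAt_const _ _)) (Φ0 _) t
    exact congrArg Prod.snd this
  · exact cst (0, z) 1 t ht fun s hs => hz3 _ (by simpa [Φ1] using hs.1)
  · have := stay (hd z) (fun s hs => hd0 _ hs) hw (a := 0) (by simpa only [Φ0] using hz) t
    rw [e1] at this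
    simpa only [Φ0] using this
  · have := stay_gt (hd z) (fun s hs => hd0 _ hs) hw (a := 0) (by simpa only [Φ0] using hz) t
    rwa [e1] at this
  · have := stay_gt (fun s => (hd z s).fun_neg) (fun s hs => by
      rw [hd0 _ (by simpa using hs), neg_zero]) hw (a := 0)
      (by simp only [Φ0]; linarith) t
    rw [e1] at this
    show F (t, (Φ ((0, z), t)).2) < -w
    linarith
  · set L : ℝ × Z →L[ℝ] ℝ × Z :=
      (ContinuousLinearMap.id ℝ ℝ).prodMap (A.toContinuousLinearEquiv : Z →L[ℝ] Z) with hL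
    have FL : ∀ p x, fderiv ℝ F (L p) (L x) = fderiv ℝ F p x := fun p x => by
      have h2 : F ∘ L = F := funext fun q => hA q.1 q.2
      have h3 := ((Fd (L p)).hasFDerivAt.comp p L.hasFDerivAt).fderiv
      rw [h2] at h3
      rw [h3]; rfl
    have gL : ∀ p, vg F (L p) = A (vg F p) := fun p => by
      refine ext_inner_right ℝ fun y => ?_
      obtain ⟨x, rfl⟩ := A.surjective y
      rw [A.inner_map_map, inner_vg, inner_vg, ← FL p (0, x)]
      rfl
    have vL : ∀ p, v (L p) = L (v p) := fun p => by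
      have h2 : h (L p) = h p := by
        simp only [hh]
        rw [← FL p (1, 0)]
        simp [hL]
      have h3 : n (L p) = n p := by
        simp only [hn]
        rw [gL, A.inner_map_map, show F (L p) = F p from hA p.1 p.2]
      show ((1 : ℝ), -(h (L p) / n (L p)) • vg F (L p)) = L (1, -(h p / n p) • vg F p)
      rw [h2, h3, gL]
      simp [hL]
    have := flow_unique vs (Φd (0, A z)) (c' := fun s => L (Φ ((0, z), s))) (fun s => by
      rw [vL]
      exact L.hasFDerivAt.comp_hasDerivAt s (Φd _ s)) (by rw [Φ0, Φ0]; rfl) t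
    exact congrArg Prod.snd this

end Crest.Agent.N218.Par
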