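import Crest.Agent.N218.A.Ana

/-!
# Row 218, block A0 (helper84): uniqueness, non-degeneracy, the critical set, assembly
-/

set_option autoImplicit false

open scoped ContDiff RealInnerProductSpace Topology
open Set Filter Real
open Crest.GeometryTopology.CotangentSpheres

namespace Crest.Agent.N218.A

namespace Fam

variable {Φ : Fam} {c M s0 K ε : ℝ}

theorem Good.of_zero (g : Φ.Good c M s0 K ε) {x : Eu 11} {y : Eu 9} (_hx : ‖x‖ = 1)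
    (h : Φ.Fn c K (x, y) ≤ 0) : Φ.ρ (x, y) < 0 := by
  have hK := g.K_pos
  have h1 : -(Φ.w / 2) < Φ.ψ c (x, y) / (2 * K) := by
    rw [lt_div_iff₀ (by positivity)]; linarith [g.lo (x, y), g.k1]
  unfold Fn at h
  linarith

theorem Good.low (g : Φ.Good c M s0 K ε) {x : Eu 11} {y : Eu 9} (hx : ‖x‖ = 1)
    (hy : Φ.ρ (x, y) ≤ Φ.w) (h : 0 ≤ Φ.Fn c K (x, y)) : c ≤ ‖Φ.gr (x, y)‖ := by
  have hK := g.K_pos
  have h1 : Φ.ψ c (x, y) / (2 * K) < Φ.w / 2 := by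
    rw [div_lt_iff₀ (by positivity)]
    linarith [g.hi x y hx (by linarith [Φ.bdd x y hx hy]), g.k1]
  unfold Fn at h
  exact g.reg x y hx (abs_le.2 ⟨by linarith, hy⟩)

theorem Good.exp_Fn (g : Φ.Good c M s0 K ε) (z : Eu 11 × Eu 9) : exp (2 * K * Φ.Fn c K z) =
    Φ.Ex K z ^ 2 * (‖Φ.gr z‖ ^ 2 + expNegInvGlue (c ^ 2 - ‖Φ.gr z‖ ^ 2)) := by
  obtain ⟨m, hm, h⟩ := kap_low g.c_pos
  have hK := g.K_pos.ne'
  rw [← exp_log (hm.trans_le (h (‖Φ.gr z‖ ^ 2) (by positivity))), Ex, sq (exp _), ← exp_add,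
    ← exp_add]
  congr 1
  simp only [Fn, ψ]
  field_simp
  ring

theorem Good.zero_iff (g : Φ.Good c M s0 K ε) {x : Eu 11} {y : Eu 9} (hx : ‖x‖ = 1) :
    Φ.Fn c K (x, y) = 0 ↔ Φ.ρ (x, y) < Φ.w ∧ Φ.Ex K (x, y) * ‖Φ.gr (x, y)‖ = 1 := by
  have hK := g.K_pos
  have hc := g.c_pos
  have he := g.exp_Fn (x, y)
  have hE := Φ.Ex_pos K (x, y)
  have z : c ≤ ‖Φ.gr (x, y)‖ → expNegInvGlue (c ^ 2 - ‖Φ.gr (x, y)‖ ^ 2) = 0 := fun h =>
    expNegInvGlue.zero_of_nonpos (by nlinarith)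
  constructor
  · intro h
    have h1 : Φ.ρ (x, y) < Φ.w := (g.of_zero hx h.le).trans Φ.w_pos
    rw [h, z (g.low hx h1.le h.ge), mul_zero, exp_zero, add_zero, ← mul_pow] at he
    exact ⟨h1, (pow_eq_one_iff_of_nonneg (by positivity) two_ne_zero).1 he.symm⟩
  · rintro ⟨h1, h2⟩
    have h3 : Φ.Ex K (x, y) ^ 2 * ‖Φ.gr (x, y)‖ ^ 2 = 1 := by rw [← mul_pow, h2]; norm_num
    have h4 : 0 ≤ Φ.Fn c K (x, y) := by
      have : 1 ≤ exp (2 * K * Φ.Fn c K (x, y)) := by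
        rw [he, mul_add, h3]
        have := expNegInvGlue.nonneg (c ^ 2 - ‖Φ.gr (x, y)‖ ^ 2)
        exact le_add_of_nonneg_right (by positivity)
      exact nonneg_of_mul_nonneg_right (one_le_exp_iff.1 this) (by positivity)
    rw [z (g.low hx h1.le h4), add_zero, h3, exp_eq_one_iff] at he
    exact (mul_eq_zero.1 he).resolve_left (by positivity)

/-- facts at a critical point -/
theorem Good.crit (g : Φ.Good c M s0 K ε) {θ y : Eu 9} {x : Eu 11} (hθ : ‖θ‖ = 1) (hx : ‖x‖ = 1)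
    (hD : Φ.ρ (x, y) < Φ.w) (h : Crit (Φ.Gt K ε) ((θ, x), y)) :
    Φ.Fn c K (x, y) = 0 ∧ Φ.Ex K (x, y) * c ≤ 1 ∧ fderiv ℝ Φ.ρ (x, y) (0, θ) ≤ -c ∧
      Φ.Ex K (x, y) * fderiv ℝ Φ.ρ (x, y) (0, θ) = -1 := by
  have hE := Φ.Ex_pos K (x, y)
  rw [Φ.crit_iff g.K_pos.ne'] at h
  have h1 : Φ.Ex K (x, y) * ‖Φ.gr (x, y)‖ = 1 := by
    rw [h, norm_neg, norm_smul, Real.norm_of_nonneg hE.le] at hθ; exact hθ
  have h2 := (g.zero_iff hx).2 ⟨hD, h1⟩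
  have h3 := g.low hx hD.le h2.ge
  have h4 : fderiv ℝ Φ.ρ (x, y) (0, θ) = -‖Φ.gr (x, y)‖ := by
    rw [← gr_inner, h, inner_neg_right, inner_smul_right, real_inner_self_eq_norm_sq, sq,
      ← mul_assoc, h1, one_mul]
  exact ⟨h2, by nlinarith, by linarith, by rw [h4]; linarith⟩

theorem line (Φ : Fam) (θ y : Eu 9) (x : Eu 11) (t : ℝ) :
    HasDerivAt (fun t : ℝ => Φ.ρ (x, y + t • θ)) (fderiv ℝ Φ.ρ (x, y + t • θ) (0, θ)) t ∧
    HasDerivAt (fun t : ℝ => fderiv ℝ Φ.ρ (x, y + t • θ) (0, θ))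
      (fderiv ℝ (fderiv ℝ Φ.ρ) (x, y + t • θ) (0, θ) (0, θ)) t := by
  constructor
  · simpa using has_line Φ.ρ_diff (x, y) (0, θ) t
  · simpa using has_line2 Φ.ρ_smooth (x, y) (0, θ) (0, θ) t

theorem Good.conv (g : Φ.Good c M s0 K ε) {θ y : Eu 9} {x : Eu 11} (hθ : ‖θ‖ = 1) (hx : ‖x‖ = 1)
    (hD : Φ.ρ (x, y) < Φ.w) (h : Crit (Φ.Gt K ε) ((θ, x), y)) {t : ℝ} (ht : t ∈ Icc 0 s0) :
    ∃ d, 0 < d ∧ HasDerivAt
      (fun t : ℝ => Φ.Ex K (x, y + t • θ) * fderiv ℝ Φ.ρ (x, y + t • θ) (0, θ)) d t := by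
  refine one_d (fun t => (Φ.line θ y x t).1) (fun t => (Φ.line θ y x t).2) (C := M)
    (fun t ht => ?_) (by simpa using (g.crit hθ hx hD h).2.2.1) g.c_pos g.s1 g.k2 g.K_pos ht
  have h1 : ‖y + t • θ‖ ≤ Φ.R + 1 := by
    have := norm_add_le y (t • θ)
    rw [norm_smul, hθ, Real.norm_of_nonneg ht.1] at this
    linarith [Φ.bdd x y hx hD.le, ht.2, g.s_le]
  have h2 : ‖((0, θ) : Eu 11 × Eu 9)‖ = 1 := by simp [hθ]
  have := (fderiv ℝ (fderiv ℝ Φ.ρ) (x, y + t • θ)).le_opNorm₂ (0, θ) (0, θ)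
  rw [h2, mul_one, mul_one] at this
  exact this.trans (g.d2 _ _ hx h1)

theorem Good.ndg (g : Φ.Good c M s0 K ε) : Ndg (Φ.Gt K ε) Φ.D := by
  rintro ⟨θ, x⟩ y z ⟨hθ, hx⟩ hD h H
  have hK := g.K_pos.ne'
  have hl := (Φ.lam_pos ε x).ne'
  have k : ∀ η, HasDerivAt (fun t : ℝ => fderiv ℝ (Φ.Gt K ε) ((θ, x), y + t • z) η)
      (fderiv ℝ (fderiv ℝ (Φ.Gt K ε)) ((θ, x), y) (0, z) η) 0 := fun η => by
    simpa using has_line2 (Φ.Gt_smooth K ε) ((θ, x), y) (0, z) η 0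
  have h1 : z = ⟪θ, z⟫ • θ := par_of_perp hθ fun a ha => by
    have h2 := k ((a, 0), 0)
    rw [H (a, 0) 0 ⟨ha, by simp⟩] at h2
    simp only [Φ.Gt_d hK, inner_zero_right, inner_zero_left, zero_div, zero_mul, zero_add,
      Prod.mk_zero_zero, map_zero, mul_zero, inner_add_left, real_inner_smul_left] at h2
    have h3 := (((hasDerivAt_id (0 : ℝ)).mul_const ⟪z, a⟫).const_add ⟪y, a⟫).const_mul (Φ.lam ε x)
    simpa [hl] using h3.unique h2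
  obtain ⟨d, hd, h4⟩ := g.conv hθ hx hD h (left_mem_Icc.2 g.s_pos.le)
  have h2 := k ((0, 0), θ)
  rw [H (0, 0) θ ⟨by simp, by simp⟩] at h2
  simp only [Φ.Gt_d hK, inner_zero_right, zero_div, zero_mul, zero_add, add_zero] at h2
  have h5 := (((h4.comp_of_eq (0 : ℝ) ((hasDerivAt_id (0 : ℝ)).mul_const ⟪θ, z⟫)
    (by simp)).add_const ⟪θ, θ⟫).const_mul (Φ.lam ε x)).unique
      (h2.congr_of_eventuallyEq (Eventually.of_forall fun t => by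
        simp only [Function.comp, id, mul_smul, ← h1]))
  have h6 : ⟪θ, z⟫ = 0 := by simpa [hl, hd.ne'] using h5
  rw [h1, h6, zero_smul]

theorem Good.no_chord (g : Φ.Good c M s0 K ε) {θ y : Eu 9} {x : Eu 11} (hθ : ‖θ‖ = 1)
    (hx : ‖x‖ = 1) {s : ℝ} (hs : 0 < s) (hD : Φ.ρ (x, y) < Φ.w) (hD' : Φ.ρ (x, y + s • θ) < Φ.w)
    (h : Crit (Φ.Gt K ε) ((θ, x), y)) (h' : Crit (Φ.Gt K ε) ((θ, x), y + s • θ))
    (H : ∀ b, ⟪x, b⟫ = 0 → fderiv ℝ (Φ.Gt K ε) ((θ, x), y) ((0, b), 0) =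
      fderiv ℝ (Φ.Gt K ε) ((θ, x), y + s • θ) ((0, b), 0)) : False := by
  obtain ⟨-, a2, a3, a4⟩ := g.crit hθ hx hD h
  obtain ⟨-, b2, b3, b4⟩ := g.crit hθ hx hD' h'
  have hE := Φ.Ex_pos K (x, y)
  have hE' := Φ.Ex_pos K (x, y + s • θ)
  have hc := g.c_pos
  have hK := g.K_pos
  by_cases hcap : 1 - Φ.κ ≤ |⟪Φ.e, x⟫|
  · have cv : ConvexOn ℝ univ fun t : ℝ => Φ.ρ (x, y + t • θ) := by
      simpa [Function.comp_def, AffineMap.lineMap_apply, add_comm] using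
        (Φ.cap_conv x hx hcap).comp_affineMap (AffineMap.lineMap y (y + θ))
    have s1 := cv.le_slope_of_hasDerivAt (mem_univ 0) (mem_univ s) hs (Φ.line θ y x 0).1
    have s2 := cv.slope_le_of_hasDerivAt (mem_univ 0) (mem_univ s) hs (Φ.line θ y x s).1
    have s3 := s1.trans s2
    simp only [slope_def_field, zero_smul, add_zero, sub_zero] at s2 s3
    rw [div_le_iff₀ hs] at s2
    have s4 : Φ.Ex K (x, y + s • θ) < Φ.Ex K (x, y) :=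
      exp_lt_exp.2 (mul_lt_mul_of_pos_left (by nlinarith) hK)
    nlinarith
  · have hs0 : s0 < s := by
      by_contra hh
      have mono : StrictMonoOn (fun t : ℝ => Φ.Ex K (x, y + t • θ) *
          fderiv ℝ Φ.ρ (x, y + t • θ) (0, θ)) (Icc 0 s0) :=
        strictMonoOn_of_deriv_pos (convex_Icc _ _) (fun t ht => by
          obtain ⟨d, -, hd⟩ := g.conv hθ hx hD h ht
          exact hd.continuousAt.continuousWithinAt) fun t ht => by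
          obtain ⟨d, h0, hd⟩ := g.conv hθ hx hD h (interior_subset ht)
          rwa [hd.deriv]
      have := mono (left_mem_Icc.2 g.s_pos.le) ⟨hs.le, not_lt.1 hh⟩ hs
      simp only [zero_smul, add_zero] at this
      linarith
    set τ := ⟪Φ.e, x⟫ with hτ
    have xx : ⟪x, x⟫ = 1 := by rw [real_inner_self_eq_norm_sq, hx]; norm_num
    have ee : ⟪Φ.e, Φ.e⟫ = 1 := by rw [real_inner_self_eq_norm_sq, Φ.e_unit]; norm_num
    have tt : ⟪θ, θ⟫ = 1 := by rw [real_inner_self_eq_norm_sq, hθ]; norm_num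
    set b := Φ.e - τ • x with hb
    have e1 : ⟪x, b⟫ = 0 := by
      rw [hb, inner_sub_right, inner_smul_right, xx, real_inner_comm, ← hτ]; ring
    have e2 : ⟪Φ.e, b⟫ = 1 - τ ^ 2 := by rw [hb, inner_sub_right, inner_smul_right, ee, ← hτ]; ring
    have e3 : ‖((b, 0) : Eu 11 × Eu 9)‖ ≤ 1 := by
      have : ‖b‖ ^ 2 = 1 - τ ^ 2 := by
        rw [← real_inner_self_eq_norm_sq]
        nth_rewrite 1 [hb]
        rw [inner_sub_left, real_inner_smul_left, e1, e2]; ring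
      simpa using (by nlinarith [norm_nonneg b] : ‖b‖ ≤ 1)
    have e4 : Φ.κ ≤ 1 - τ ^ 2 := by
      have := abs_nonneg τ
      have hκ := Φ.κ_pos
      rw [← sq_abs]
      nlinarith [not_le.1 hcap]
    have bd : ∀ y', Φ.ρ (x, y') < Φ.w → |fderiv ℝ Φ.ρ (x, y') (b, 0)| ≤ M := fun y' hy' =>
      ((fderiv ℝ Φ.ρ (x, y')).le_of_opNorm_le (g.d1 x y' hx
        (by linarith [Φ.bdd x y' hx hy'.le])) _).trans (by nlinarith [g.M_pos])
    have H1 := H b e1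
    rw [Φ.Gt_d hK.ne', Φ.Gt_d hK.ne', mul_right_inj' (Φ.lam_pos ε x).ne', e2, inner_add_left,
      real_inner_smul_left, tt] at H1
    simp only [inner_zero_left, inner_zero_right, add_zero] at H1
    have c1 := abs_le.1 (bd y hD)
    have c2 := abs_le.1 (bd _ hD')
    have hε := g.ε_pos
    have hM := g.M_pos
    have p1 : Φ.Ex K (x, y) / K ≤ s0 / 2 := by
      rw [div_le_iff₀ hK]
      refine le_of_mul_le_mul_right ?_ hc
      nlinarith [g.k6]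
    have p2 : 0 < Φ.Ex K (x, y + s • θ) / K := by positivity
    have p3 : Φ.κ / ε * (s0 / 2) ≤ (1 - τ ^ 2) / ε *
        (Φ.Ex K (x, y + s • θ) / K + s - Φ.Ex K (x, y) / K) :=
      mul_le_mul (div_le_div_of_nonneg_right e4 hε.le) (by linarith) (by linarith [g.s_pos])
        (div_nonneg (by linarith [Φ.κ_pos]) hε.le)
    have p4 : Φ.κ / ε * (s0 / 2) ≤ (Φ.Ex K (x, y) + Φ.Ex K (x, y + s • θ)) * M := by nlinarith
    have p5 : Φ.κ / ε * (s0 / 2) * c ≤ 2 * M := by nlinarith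
    rw [div_mul_eq_mul_div, div_mul_eq_mul_div, div_le_iff₀ hε] at p5
    nlinarith [g.e1]

theorem Good.un (g : Φ.Good c M s0 K ε) : Un (Φ.Gt K ε) Φ.D := by
  rintro ⟨θ, x⟩ y y' ⟨hθ, hx⟩ hD hD' h h' H
  have hK := g.K_pos.ne'
  have h1 : y' - y = ⟪θ, y' - y⟫ • θ := par_of_perp hθ fun a ha => by
    have := H (a, 0) ⟨ha, by simp⟩
    simp only [Φ.Gt_d hK, inner_zero_right, inner_zero_left, zero_div, zero_mul, zero_add,
      Prod.mk_zero_zero, map_zero, mul_zero, mul_right_inj' (Φ.lam_pos ε x).ne'] at this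
    rw [inner_sub_left, this, sub_self]
  generalize ⟪θ, y' - y⟫ = s at h1
  rcases lt_trichotomy s 0 with hs | hs | hs
  · obtain rfl : y = y' + (-s) • θ := by rw [neg_smul, ← h1]; abel
    exact (g.no_chord hθ hx (neg_pos.2 hs) hD' hD h' h fun b hb =>
      (H (0, b) ⟨by simp, hb⟩).symm).elim
  · rw [hs, zero_smul, sub_eq_zero] at h1; exact h1.symm
  · obtain rfl : y' = y + s • θ := by rw [← h1]; abel
    exact (g.no_chord hθ hx hs hD hD' h h' fun b hb => H (0, b) ⟨by simp, hb⟩).elim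

theorem Good.uni (g : Φ.Good c M s0 K ε) {q : VQ} {y y' : Eu 9} (hq : UnitQ q)
    (h1 : Φ.ρ (q.2, y') ≤ Φ.ρ (q.2, y)) (h2 : -(Φ.w / 4) ≤ Φ.ρ (q.2, y'))
    (h3 : ‖y' - y‖ ≤ Φ.C * (Φ.ρ (q.2, y) - Φ.ρ (q.2, y'))) :
    Φ.Gt K ε (q, y') ≤ Φ.Gt K ε (q, y) := by
  refine mul_le_mul_of_nonneg_left ?_ (Φ.lam_pos _ _).le
  have hK := g.K_pos
  have h4 := real_inner_le_norm (y' - y) q.1
  rw [hq.1, mul_one, inner_sub_left] at h4
  set a := Φ.ρ (q.2, y)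
  set b := Φ.ρ (q.2, y')
  have h5 : Φ.C ≤ exp (K * (b + Φ.w / 2)) := by
    nlinarith [add_one_le_exp (K * (b + Φ.w / 2)), g.k5]
  have h6 : exp (K * (b + Φ.w / 2)) * (K * (a - b) + 1) ≤ exp (K * (a + Φ.w / 2)) := by
    rw [show K * (a + Φ.w / 2) = K * (b + Φ.w / 2) + K * (a - b) by ring, exp_add]
    exact mul_le_mul_of_nonneg_left (add_one_le_exp _) (exp_pos _).le
  have h7 : exp (K * (b + Φ.w / 2)) / K + exp (K * (b + Φ.w / 2)) * (a - b) ≤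
      exp (K * (a + Φ.w / 2)) / K := by
    rw [le_div_iff₀ hK, add_mul, div_mul_cancel₀ _ hK.ne']; linarith
  have h8 := mul_le_mul_of_nonneg_right h5 (sub_nonneg.2 h1)
  change exp (K * (b + Φ.w / 2)) / K + ⟪y', q.1⟫ ≤ exp (K * (a + Φ.w / 2)) / K + ⟪y, q.1⟫
  linarith

theorem gradient_eq (Φ : Fam) (x : Eu 11) (y : Eu 9) :
    gradient (fun y => Φ.ρ (x, y)) y = Φ.gr (x, y) := by
  have := ((Φ.ρ_diff (x, y)).hasFDerivAt.comp y (hasFDerivAt_prodMk_right x y)).fderiv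
  rw [gradient, gr, ← this]
  rfl

theorem Good.col (g : Φ.Good c M s0 K ε) {q : VQ} {y : Eu 9} (hq : UnitQ q)
    (h0 : 0 ≤ Φ.ρ (q.2, y)) (hy : Φ.ρ (q.2, y) ≤ Φ.w) :
    0 ≤ fderiv ℝ (Φ.Gt K ε) (q, y) (0, Φ.gr (q.2, y)) := by
  obtain ⟨θ, x⟩ := q
  have hK := g.K_pos
  have hc := g.c_pos
  have hE := Φ.Ex_pos K (x, y)
  have h1 : 0 < Φ.Fn c K (x, y) := not_le.1 fun h => (g.of_zero hq.2 h).not_ge h0
  have h2 := g.low hq.2 hy h1.le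
  have h3 := g.exp_Fn (x, y)
  rw [expNegInvGlue.zero_of_nonpos (by nlinarith), add_zero, ← mul_pow] at h3
  have h4 : 1 ≤ Φ.Ex K (x, y) * ‖Φ.gr (x, y)‖ :=
    (one_le_sq_iff₀ (by positivity)).1 (h3 ▸ one_le_exp (by positivity))
  have h5 := (abs_le.1 (abs_real_inner_le_norm (Φ.gr (x, y)) θ)).1
  rw [show ‖θ‖ = 1 from hq.1] at h5
  rw [show (0 : VQ) = (0, 0) from rfl, Φ.Gt_d hK.ne', ← gr_inner, real_inner_self_eq_norm_sq]
  refine mul_nonneg (Φ.lam_pos _ _).le ?_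
  simp only [inner_zero_right, zero_div, zero_mul]
  nlinarith [mul_le_mul_of_nonneg_right h4 (norm_nonneg (Φ.gr (x, y)))]

/-- universal monotonicity of the generating function -/
def Mon (Φ : Fam) (G : VQ × Eu 9 → ℝ) : Prop :=
  ∀ q y y', UnitQ q → Φ.ρ (q.2, y) ≤ Φ.w → Φ.ρ (q.2, y') ≤ Φ.ρ (q.2, y) →
    -(Φ.w / 4) ≤ Φ.ρ (q.2, y') → ‖y' - y‖ ≤ Φ.C * (Φ.ρ (q.2, y) - Φ.ρ (q.2, y')) →
      G (q, y') ≤ G (q, y)

/-- the generating function increases along `∇ρ` on the collar -/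
def Col (Φ : Fam) (G : VQ × Eu 9 → ℝ) : Prop :=
  ∀ q y, UnitQ q → 0 ≤ Φ.ρ (q.2, y) → Φ.ρ (q.2, y) ≤ Φ.w →
    0 ≤ fderiv ℝ G (q, y) (0, gradient (fun y => Φ.ρ (q.2, y)) y)

theorem Good.par (g : Φ.Good c M s0 K ε) (hP : PAR) :
    ∃ Ψ Ψ' : Eu 11 × Eu 9 → Eu 11 × Eu 9, ContDiff ℝ ∞ Ψ ∧ ContDiff ℝ ∞ Ψ' ∧
      (∀ z, Ψ' (Ψ z) = z) ∧ (∀ z, Ψ (Ψ' z) = z) ∧ (∀ z, ‖(Ψ z).1‖ = ‖z.1‖) ∧
      ∀ x y, ‖x‖ = 1 → (‖y‖ = Φ.δ ↔ Φ.Fn c K (Ψ (x, y)) = 0) := by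
  have hK := g.K_pos
  have hc := g.c_pos
  have hw := Φ.w_pos
  have bd : ∀ x y v, ‖x‖ = 1 → Φ.ρ (x, y) ≤ Φ.w →
      -(M * ‖v‖) ≤ fderiv ℝ (Φ.ψ c) (x, y) (0, v) := fun x y v hx hy => by
    have := (fderiv ℝ (Φ.ψ c) (x, y)).le_of_opNorm_le (g.dψ x y hx
      (by linarith [Φ.bdd x y hx hy])) (0, v)
    simpa using (abs_le.1 this).1
  refine hP _ Φ.e Φ.δ Φ.κ Φ.R (Φ.Fn_smooth hc K) Φ.e_unit Φ.δ_pos Φ.κ_pos
    (fun x y hx h => ⟨Φ.gr (x, y), ne_of_gt ?_⟩) (fun x y hx h => ?_) (fun x y hx h => ?_)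
    fun x y hx h1 h2 h3 => ?_
  · have h1 : Φ.ρ (x, y) ≤ Φ.w := by linarith [g.of_zero hx h.le]
    have h2 := g.low hx h1 h.ge
    have h3 := bd x y (Φ.gr (x, y)) hx h1
    rw [Φ.Fn_d hc, ← gr_inner, real_inner_self_eq_norm_sq, ← neg_lt_iff_pos_add',
      lt_div_iff₀ (by positivity)]
    have h4 : M * ‖Φ.gr (x, y)‖ < K * c * ‖Φ.gr (x, y)‖ :=
      mul_lt_mul_of_pos_right g.k3 (hc.trans_le h2)
    nlinarith [mul_le_mul_of_nonneg_left h2 (mul_nonneg hK.le (norm_nonneg (Φ.gr (x, y)))),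
      mul_nonneg hK.le (sq_nonneg ‖Φ.gr (x, y)‖)]
  · by_contra hh
    have h1 := Φ.core x y hx h
    have h2 : Φ.ψ c (x, y) / (2 * K) < Φ.w / 2 := by
      rw [div_lt_iff₀ (by positivity)]
      linarith [g.hi x y hx (by linarith [Φ.bdd x y hx (by linarith)]), g.k1]
    unfold Fn at hh
    linarith
  · by_contra hh
    linarith [Φ.bdd x y hx (by linarith [g.of_zero hx (not_lt.1 hh)])]
  · have h4 := (g.of_zero hx h3).le
    have h5 := g.star x y hx h1 h2 h4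
    have h6 := bd x y y hx (by linarith)
    have h7 := Φ.bdd x y hx (by linarith)
    rw [Φ.Fn_d hc, ← neg_le_iff_add_nonneg', le_div_iff₀ (by positivity)]
    nlinarith [mul_le_mul_of_nonneg_left h5 hK.le, mul_le_mul_of_nonneg_left h7.le g.M_pos.le,
      g.k4, mul_pos hK hc]

end Fam

/-- block A0 from its two leaves -/
theorem a0x_of (hL : LAG) (hP : PAR) (Φ : Fam) : ∃ ι G, Φ.Out ι G ∧ Φ.Mon G ∧ Φ.Col G := by
  obtain ⟨c, M, s0, K, ε, g⟩ := Φ.good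
  obtain ⟨Ψ, Ψ', s1, s2, i1, i2, hn, hz⟩ := g.par hP
  have hK := g.K_pos.ne'
  have hδ := Φ.δ_pos
  have hR := Φ.R_pos
  let χ : ContDiffBump (0 : Eu 9) := ⟨Φ.R + 1, Φ.R + 2, by linarith, by linarith⟩
  set G : VQ × Eu 9 → ℝ := fun z => χ z.2 * Φ.Gt K ε z with hG
  have one : ∀ z : VQ × Eu 9, ‖z.2‖ < Φ.R + 1 → G z = Φ.Gt K ε z := fun z hz => by
    simp only [hG, χ.one_of_mem_closedBall (show z.2 ∈ _ by simpa [χ] using hz.le), one_mul]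
  have ev' : ∀ q y, UnitQ q → Φ.ρ (q.2, y) ≤ Φ.w → G =ᶠ[𝓝 (q, y)] Φ.Gt K ε := fun q y hq hD =>
    ((isOpen_lt (by fun_prop) continuous_const).eventually_mem
      (show (q, y) ∈ {z : VQ × Eu 9 | ‖z.2‖ < Φ.R + 1} from
        (Φ.bdd _ _ hq.2 hD).trans (lt_add_one _))).mono one
  have ev : ∀ q y, UnitQ q → (q, y) ∈ Φ.D → G =ᶠ[𝓝 (q, y)] Φ.Gt K ε := fun q y hq hD =>
    ev' q y hq (le_of_lt hD)
  have mon : Φ.Mon G := fun q y y' hq hy h1 h2 h3 => by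
    rw [(ev' q y hq hy).self_of_nhds, (ev' q y' hq (h1.trans hy)).self_of_nhds]
    exact g.uni hq h1 h2 h3
  have cr : ∀ q y, UnitQ q → (q, y) ∈ Φ.D → (Crit G (q, y) ↔ Crit (Φ.Gt K ε) (q, y)) :=
    fun q y hq hD => by simp only [Crit, (ev q y hq hD).fderiv_eq]
  have sm : ContDiff ℝ ∞ G := (χ.contDiff.comp contDiff_snd).mul (Φ.Gt_smooth K ε)
  have sP : ContDiff ℝ ∞ fun l : VQ => Ψ (l.2, Φ.δ • l.1) := s1.comp (by fun_prop)
  have sQ : ContDiff ℝ ∞ fun z : VQ × Eu 9 => Ψ' (z.1.2, z.2) := s2.comp (by fun_prop)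
  obtain ⟨ι, h1, h2⟩ := hL G Φ.D
    (fun l => ((-(Φ.Ex K (Ψ (l.2, Φ.δ • l.1)) • Φ.gr (Ψ (l.2, Φ.δ • l.1))),
      (Ψ (l.2, Φ.δ • l.1)).1), (Ψ (l.2, Φ.δ • l.1)).2))
    (fun z => (Φ.δ⁻¹ • (Ψ' (z.1.2, z.2)).2, (Ψ' (z.1.2, z.2)).1)) sm
    (fun q y y' hq hD hD' h h' H => g.un q y y' hq hD hD' ((cr q y hq hD).1 h)
      ((cr q y' hq hD').1 h') fun v hv => by
        rw [← (ev q y hq hD).fderiv_eq, ← (ev q y' hq hD').fderiv_eq, H v hv])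
    (fun q y z hq hD h H => g.ndg q y z hq hD ((cr q y hq hD).1 h) fun v e hv => by
      rw [← (ev q y hq hD).fderiv.fderiv_eq, H v e hv])
    ((((((Φ.Ex_smooth K).comp sP).smul (Φ.gr_smooth.comp sP)).neg).prodMk sP.fst).prodMk sP.snd)
    ((sQ.snd.const_smul _).prodMk sQ.fst)
    (fun l hl => by
      have a1 : ‖(Ψ (l.2, Φ.δ • l.1)).1‖ = 1 := (hn _).trans hl.2
      obtain ⟨a2, a3⟩ := (g.zero_iff (y := (Ψ (l.2, Φ.δ • l.1)).2) a1).1 ((hz _ _ hl.2).1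
        (by rw [norm_smul, hl.1, mul_one, Real.norm_of_nonneg hδ.le]))
      have a4 : UnitQ (-(Φ.Ex K (Ψ (l.2, Φ.δ • l.1)) • Φ.gr (Ψ (l.2, Φ.δ • l.1))),
          (Ψ (l.2, Φ.δ • l.1)).1) :=
        ⟨by rw [norm_neg, norm_smul, Real.norm_of_nonneg (Φ.Ex_pos _ _).le]; exact a3, a1⟩
      exact ⟨a4, a2, (cr _ _ a4 a2).2 ((Φ.crit_iff hK ε _ _ _).2 rfl), by simp [i1, hδ.ne']⟩)
    (by
      rintro ⟨⟨θ, x⟩, y⟩ hq hD h
      have h' := (cr _ _ hq hD).1 h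
      have a1 : ‖(Ψ' (x, y)).1‖ = 1 := by rw [← hn, i2]; exact hq.2
      have a2 : ‖(Ψ' (x, y)).2‖ = Φ.δ :=
        (hz _ _ a1).2 (by rw [Prod.mk.eta, i2]; exact (g.crit hq.1 hq.2 hD h').1)
      refine ⟨(Φ.δ⁻¹ • (Ψ' (x, y)).2, (Ψ' (x, y)).1),
        ⟨by rw [norm_smul, a2, norm_inv, Real.norm_of_nonneg hδ.le, inv_mul_cancel₀ hδ.ne'], a1⟩, ?_⟩
      simp only [smul_inv_smul₀ hδ.ne', Prod.mk.eta, i2]
      rw [← (Φ.crit_iff hK ε θ y x).1 h'])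
  refine ⟨ι, G, ⟨h1, sm, fun q y hy => ?_, h2, fun q y hq hD h => ?_, fun q y hq hy => ?_⟩, mon,
    fun q y hq h0 hy => ?_⟩
  · simp only [hG, χ.zero_of_le_dist (show χ.rOut ≤ dist y 0 by simpa [χ] using hy), zero_mul]
  · exact g.of_zero hq.2 (g.crit hq.1 hq.2 hD ((cr q y hq hD).1 h)).1.le
  · rcases le_or_gt (Φ.ρ (q.2, y)) 0 with h | h
    · rw [Φ.r_id _ _ hq.2 h]
    · exact mon q y _ hq hy (Φ.r_lt _ _ hq.2 h hy).le (Φ.r_low _ _ hq.2 h hy)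
        (Φ.r_lip _ _ hq.2 h hy)
  · rw [(ev' q y hq hy).fderiv_eq, Φ.gradient_eq]
    exact g.col hq h0 hy

theorem a0_of (hL : LAG) (hP : PAR) : A0 := fun Φ =>
  let ⟨ι, G, h, _⟩ := a0x_of hL hP Φ
  ⟨ι, G, h⟩

end Crest.Agent.N218.A
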