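import Mathlib
import Crest.Agent.Lib.ODEFlow

/-!
# Row 218, block A (helper69): global flows of bounded fields, isotopies of regular zero sets
-/

set_option autoImplicit false

open Set Filter Topology
open scoped ContDiff Manifold

noncomputable section

namespace Crest.Agent.N218.Par

open Crest.Agent.Lib.ODEFlow

section flow
variable {E : Type} [NormedAddCommGroup E] [NormedSpace ℝ E] [FiniteDimensional ℝ E]

theorem dom_nonneg {v : E → E} (hv : ContDiff ℝ ∞ v) {C : ℝ} (hC : ∀ x, ‖v x‖ ≤ C) (x : E)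
    {T : ℝ} (hT : 0 ≤ T) : (x, T) ∈ dom v univ := by
  have hv1 : ContDiffOn ℝ 1 v univ := (hv.of_le (by simp)).contDiffOn
  have : ProperSpace E := FiniteDimensional.proper ℝ E
  have hC0 : 0 ≤ C := (norm_nonneg _).trans (hC x)
  refine mem_dom_of_compact isOpen_univ hv1 (isCompact_closedBall x (C * T)) (subset_univ _)
    (mem_univ x) (fun t ht hd => ?_) hT
  have h := (convex_Icc (0 : ℝ) t).norm_image_sub_le_of_norm_hasDerivWithin_le (C := C)
    (f := fun s => flow v univ (x, s)) (f' := fun s => v (flow v univ (x, s)))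
    (fun s hs => (hasDerivAt_flow isOpen_univ hv1
      (mem_dom_of_uIcc hd (by rwa [uIcc_of_le ht.1]))).hasDerivWithinAt)
    (fun s _ => hC _) (left_mem_Icc.2 ht.1) (right_mem_Icc.2 ht.1)
  rw [flow_zero isOpen_univ hv1 (mem_univ x), sub_zero, Real.norm_of_nonneg ht.1] at h
  rw [mem_closedBall_iff_norm]
  exact h.trans (mul_le_mul_of_nonneg_left ht.2.le hC0)

theorem dom_all {v : E → E} (hv : ContDiff ℝ ∞ v) {C : ℝ} (hC : ∀ x, ‖v x‖ ≤ C) (p : E × ℝ) :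
    p ∈ dom v univ := by
  obtain ⟨x, T⟩ := p
  rcases le_total 0 T with h | h
  · exact dom_nonneg hv hC x h
  · exact neg_mem_dom_iff.1
      (dom_nonneg hv.neg (C := C) (fun x => by simpa using hC x) x (neg_nonneg.2 h))

/-- the global flow of a bounded smooth field -/
theorem exists_flow {v : E → E} (hv : ContDiff ℝ ∞ v) {C : ℝ} (hC : ∀ x, ‖v x‖ ≤ C) :
    ∃ Φ : E × ℝ → E, ContDiff ℝ ∞ Φ ∧ (∀ x, Φ (x, 0) = x) ∧
      (∀ x s, HasDerivAt (fun s => Φ (x, s)) (v (Φ (x, s))) s) ∧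
      (∀ x s t, Φ (x, s + t) = Φ (Φ (x, s), t)) := by
  have hv1 : ContDiffOn ℝ 1 v univ := (hv.of_le (by simp)).contDiffOn
  refine ⟨flow v univ, ?_, fun x => flow_zero isOpen_univ hv1 (mem_univ x),
    fun x s => hasDerivAt_flow isOpen_univ hv1 (dom_all hv hC _),
    fun x s t => (flow_add isOpen_univ hv1 (dom_all hv hC _) (dom_all hv hC _)).2⟩
  have h := contDiffOn_flow (n := ⊤) le_top isOpen_univ (v := v) hv.contDiffOn
  rw [eq_univ_of_forall (dom_all hv hC)] at h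
  exact contDiffOn_univ.1 h

end flow

theorem const_of_deriv {F : Type} [NormedAddCommGroup F] [NormedSpace ℝ F] {f : ℝ → F}
    (hf : ∀ s, HasDerivAt f 0 s) (a b : ℝ) : f a = f b :=
  is_const_of_deriv_eq_zero (fun s => (hf s).differentiableAt) (fun s => (hf s).deriv) a b

theorem zero_iff {f f' : ℝ → ℝ} (hf : ∀ s, HasDerivAt f (f' s) s)
    (h : ∀ s ∈ Icc (0 : ℝ) 1, f s = 0 → ∀ᶠ r in 𝓝 s, f' r = 0) : f 0 = 0 ↔ f 1 = 0 := by
  have hc : Continuous f := continuous_iff_continuousAt.2 fun s => (hf s).continuousAt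
  have hA : ∀ s ∈ Icc (0 : ℝ) 1, f s = 0 → s ∈ interior {s | f s = 0} := by
    intro s hs h0
    obtain ⟨ε, hε, hb⟩ := Metric.eventually_nhds_iff_ball.1 (h s hs h0)
    refine mem_interior_iff_mem_nhds.2 (mem_of_superset (Metric.ball_mem_nhds s hε) fun r hr => ?_)
    have := (convex_ball s ε).norm_image_sub_le_of_norm_hasDerivWithin_le (C := 0) (f := f)
      (f' := f') (fun r _ => (hf r).hasDerivWithinAt) (fun r hr => by simp [hb r hr])
      (Metric.mem_ball_self hε) hr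
    simpa [h0] using this
  have key : ∀ a ∈ Icc (0 : ℝ) 1, ∀ b ∈ Icc (0 : ℝ) 1, f a = 0 → f b = 0 := by
    intro a ha b hb h0
    by_contra hne
    obtain ⟨r, -, hr1, hr2⟩ := isPreconnected_Icc (a := (0 : ℝ)) (b := 1) _ {s | f s = 0}ᶜ
      isOpen_interior (isClosed_eq hc continuous_const).isOpen_compl
      (fun s hs => by
        by_cases h1 : f s = 0
        · exact Or.inl (hA s hs h1)
        · exact Or.inr h1) ⟨a, ha, hA a ha h0⟩ ⟨b, hb, hne⟩
    exact hr2 (interior_subset hr1)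
  exact ⟨key 0 (by simp) 1 (by simp), key 1 (by simp) 0 (by simp)⟩

variable {Z : Type} [NormedAddCommGroup Z] [NormedSpace ℝ Z] [FiniteDimensional ℝ Z]

/-- isotopy of regular zero sets inside a level set of `c` -/
theorem iso {F : ℝ × Z → ℝ} (hF : ContDiff ℝ ∞ F) {Y : ℝ × Z → Z} (hY : ContDiff ℝ ∞ Y)
    {c : Z → ℝ} (hc : Differentiable ℝ c) (hcY : ∀ p, fderiv ℝ c p.2 (Y p) = 0) {c0 : ℝ}
    (hK : IsCompact {p : ℝ × Z | p.1 ∈ Icc (0 : ℝ) 1 ∧ c p.2 = c0 ∧ F p = 0})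
    (hr : ∀ p : ℝ × Z, p.1 ∈ Icc (0 : ℝ) 1 → c p.2 = c0 → F p = 0 → fderiv ℝ F p (0, Y p) ≠ 0) :
    ∃ Ψ Ψ' : Z → Z, ContDiff ℝ ∞ Ψ ∧ ContDiff ℝ ∞ Ψ' ∧ (∀ z, Ψ' (Ψ z) = z) ∧ (∀ z, Ψ (Ψ' z) = z) ∧
      (∀ z, c (Ψ z) = c z) ∧ ∀ z, c z = c0 → (F (0, z) = 0 ↔ F (1, Ψ z) = 0) := by
  set K := {p : ℝ × Z | p.1 ∈ Icc (0 : ℝ) 1 ∧ c p.2 = c0 ∧ F p = 0} with hKd
  have hD : ContDiff ℝ ∞ (fderiv ℝ F) := hF.fderiv_right (m := ∞) (by simp)
  set g : ℝ × Z → ℝ := fun p => fderiv ℝ F p (0, Y p) with hg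
  set h : ℝ × Z → ℝ := fun p => fderiv ℝ F p (1, 0) with hh
  have gs : ContDiff ℝ ∞ g := hD.clm_apply (contDiff_const.prodMk hY)
  have hs : ContDiff ℝ ∞ h := hD.clm_apply contDiff_const
  have hU : IsOpen {p | g p ≠ 0} := isOpen_ne_fun gs.continuous continuous_const
  obtain ⟨t, ht, hKt, htU⟩ := exists_compact_between hK hU fun p hp => hr p hp.1 hp.2.1 hp.2.2
  obtain ⟨χ, h1, h0, -⟩ := exists_contMDiffMap_one_nhds_of_subset_interior (n := ⊤)
    𝓘(ℝ, ℝ × Z) hK.isClosed hKt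
  have χs : ContDiff ℝ ∞ χ := χ.contMDiff.contDiff
  set a : ℝ × Z → ℝ := fun p => χ p * h p / g p with ha
  have a0 : ∀ p ∉ t, a p = 0 := fun p hp => by simp [ha, h0 p hp]
  have as : ContDiff ℝ ∞ a := by
    refine contDiff_iff_contDiffAt.2 fun p => ?_
    by_cases hp : p ∈ t
    · exact (χs.mul hs).contDiffAt.div gs.contDiffAt (htU hp)
    · refine (contDiffAt_const (c := (0 : ℝ))).congr_of_eventuallyEq ?_
      filter_upwards [ht.isClosed.isOpen_compl.mem_nhds hp] with q hq using a0 q hq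
  set w : ℝ × Z → Z := fun p => -(a p) • Y p with hw
  have ws : ContDiff ℝ ∞ w := as.neg.smul hY
  obtain ⟨C, hC⟩ := ht.exists_bound_of_continuousOn ws.continuous.continuousOn
  set v : ℝ × Z → ℝ × Z := fun p => (1, w p) with hv
  have vs : ContDiff ℝ ∞ v := contDiff_const.prodMk ws
  have vb : ∀ p, ‖v p‖ ≤ max 1 C := fun p => by
    rw [Prod.norm_def]
    refine max_le (by simp [hv]) ?_
    by_cases hp : p ∈ t
    · exact (hC p hp).trans (le_max_right _ _)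
    · simp [hv, hw, a0 p hp]
  obtain ⟨Φ, Φs, Φ0, Φd, Φa⟩ := exists_flow vs vb
  have Φ1 : ∀ p s, (Φ (p, s)).1 = p.1 + s := by
    intro p s
    have := const_of_deriv (f := fun s => (Φ (p, s)).1 - s)
      (fun s => by
        have h2 : HasDerivAt (fun s => (Φ (p, s)).1) 1 s :=
          (ContinuousLinearMap.fst ℝ ℝ Z).hasFDerivAt.comp_hasDerivAt s (Φd p s)
        have h3 := h2.fun_sub (hasDerivAt_id' s)
        rwa [sub_self] at h3) s 0
    simp only [Φ0, sub_zero] at this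
    linarith
  have Φc : ∀ p s, c (Φ (p, s)).2 = c p.2 := by
    intro p s
    have := const_of_deriv (f := fun s => c (Φ (p, s)).2) (fun s => by
      have h1 : HasDerivAt (fun s => (Φ (p, s)).2) (v (Φ (p, s))).2 s :=
        (ContinuousLinearMap.snd ℝ ℝ Z).hasFDerivAt.comp_hasDerivAt s (Φd p s)
      have h2 := (hc _).hasFDerivAt.comp_hasDerivAt s h1
      have h3 : fderiv ℝ c (Φ (p, s)).2 (v (Φ (p, s))).2 = 0 := by
        simp [hv, hw, hcY]
      rwa [h3] at h2) s 0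
    simpa only [Φ0] using this
  have e1 : ∀ z, Φ ((0, z), 1) = (1, (Φ ((0, z), 1)).2) := fun z =>
    Prod.ext (by simp [Φ1]) rfl
  have e2 : ∀ z, Φ ((1, z), -1) = (0, (Φ ((1, z), -1)).2) := fun z =>
    Prod.ext (by simp [Φ1]) rfl
  refine ⟨fun z => (Φ ((0, z), 1)).2, fun z => (Φ ((1, z), -1)).2, ?_, ?_, fun z => ?_,
    fun z => ?_, fun z => Φc _ _, fun z hz => ?_⟩
  · exact (Φs.comp ((contDiff_const.prodMk contDiff_id).prodMk contDiff_const)).snd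
  · exact (Φs.comp ((contDiff_const.prodMk contDiff_id).prodMk contDiff_const)).snd
  · show (Φ ((1, (Φ ((0, z), 1)).2), -1)).2 = z
    rw [← e1, ← Φa, add_neg_cancel, Φ0]
  · show (Φ ((0, (Φ ((1, z), -1)).2), 1)).2 = z
    rw [← e2, ← Φa, neg_add_cancel, Φ0]
  · show F (0, z) = 0 ↔ F (1, (Φ ((0, z), 1)).2) = 0
    rw [← e1]
    have hd : ∀ s, HasDerivAt (fun s => F (Φ ((0, z), s)))
        (fderiv ℝ F (Φ ((0, z), s)) (v (Φ ((0, z), s)))) s := fun s =>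
      ((hF.differentiable (by simp)) _).hasFDerivAt.comp_hasDerivAt s (Φd _ s)
    have := zero_iff hd fun s hs h0 => by
      have hm : Φ ((0, z), s) ∈ K := ⟨by simpa [Φ1] using hs, by rw [Φc, hz], h0⟩
      have hct : ContinuousAt (fun s => Φ ((0, z), s)) s := (Φd _ s).continuousAt
      have h2 : ∀ᶠ q in 𝓝 (Φ ((0, z), s)), χ q = 1 := h1.filter_mono (nhds_le_nhdsSet hm)
      have h3 : ∀ᶠ q in 𝓝 (Φ ((0, z), s)), g q ≠ 0 := hU.mem_nhds (hr _ hm.1 hm.2.1 hm.2.2)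
      filter_upwards [hct.eventually h2, hct.eventually h3] with r hr1 hr2
      set q := Φ ((0, z), r)
      have : v q = (1, 0) + (-(a q)) • ((0 : ℝ), Y q) := by simp [hv, hw]
      rw [this, map_add, map_smul]
      show h q + -(χ q * h q / g q) * g q = 0
      rw [hr1]
      field_simp
      ring
    simpa only [Φ0] using this

/-- the same with a finite family of fields -/
theorem iso' {ι : Type} [Fintype ι] {F : ℝ × Z → ℝ} (hF : ContDiff ℝ ∞ F) {W : ι → ℝ × Z → Z}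
    (hW : ∀ i, ContDiff ℝ ∞ (W i)) {c : Z → ℝ} (hc : Differentiable ℝ c)
    (hcW : ∀ i p, fderiv ℝ c p.2 (W i p) = 0) {c0 : ℝ}
    (hK : IsCompact {p : ℝ × Z | p.1 ∈ Icc (0 : ℝ) 1 ∧ c p.2 = c0 ∧ F p = 0})
    (hr : ∀ p : ℝ × Z, p.1 ∈ Icc (0 : ℝ) 1 → c p.2 = c0 → F p = 0 →
      ∃ i, fderiv ℝ F p (0, W i p) ≠ 0) :
    ∃ Ψ Ψ' : Z → Z, ContDiff ℝ ∞ Ψ ∧ ContDiff ℝ ∞ Ψ' ∧ (∀ z, Ψ' (Ψ z) = z) ∧ (∀ z, Ψ (Ψ' z) = z) ∧
      (∀ z, c (Ψ z) = c z) ∧ ∀ z, c z = c0 → (F (0, z) = 0 ↔ F (1, Ψ z) = 0) := by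
  have hD : ContDiff ℝ ∞ (fderiv ℝ F) := hF.fderiv_right (m := ∞) (by simp)
  refine iso hF (Y := fun p => ∑ i, fderiv ℝ F p (0, W i p) • W i p)
    (ContDiff.sum fun i _ => (hD.clm_apply (contDiff_const.prodMk (hW i))).smul (hW i)) hc
    (fun p => by simp [map_sum, hcW]) hK fun p h1 h2 h3 => ?_
  obtain ⟨i, hi⟩ := hr p h1 h2 h3
  have e : (((0 : ℝ), ∑ i, fderiv ℝ F p (0, W i p) • W i p) : ℝ × Z) =
      ∑ i, fderiv ℝ F p (0, W i p) • ((0 : ℝ), W i p) := by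
    ext
    · simp [Prod.fst_sum]
    · simp [Prod.snd_sum]
  rw [e, map_sum]
  simp only [map_smul, smul_eq_mul]
  refine ne_of_gt (Finset.sum_pos' (fun j _ => mul_self_nonneg _) ⟨i, Finset.mem_univ _, ?_⟩)
  exact mul_self_pos.2 hi

end Crest.Agent.N218.Par
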