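import Crest.Agent.N218.A.Iso

/-!
# Row 218, block A (helper69): the boundary of a family of domains that is round on the caps
is ambiently diffeomorphic to `S × δ S`
-/

set_option autoImplicit false
set_option linter.unusedSectionVars false

open Set Filter Topology
open scoped ContDiff InnerProductSpace

noncomputable section

namespace Crest.Agent.N218.Par

theorem exists_big {α : Type} [TopologicalSpace α] {K : Set α} (hK : IsCompact K) {P Q : α → ℝ}
    (hP : Continuous P) (hQ : Continuous Q) (h : ∀ k ∈ K, 0 < P k) :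
    ∃ M : ℝ, 0 < M ∧ ∀ k ∈ K, 0 < M * P k + Q k := by
  obtain ⟨C, hC⟩ := hK.exists_bound_of_continuousOn (f := fun k => Q k / P k)
    (hQ.continuousOn.div hP.continuousOn fun k hk => (h k hk).ne')
  refine ⟨|C| + 1, by positivity, fun k hk => ?_⟩
  have h1 := (abs_le.1 ((hC k hk).trans (le_abs_self C))).1
  rw [le_div_iff₀ (h k hk)] at h1
  nlinarith [h k hk]

/-- derivative of the glue function -/
def eg' (s : ℝ) : ℝ := s⁻¹ ^ 2 * expNegInvGlue s

theorem eg_d (s : ℝ) : HasDerivAt expNegInvGlue (eg' s) s := by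
  have h := expNegInvGlue.hasDerivAt_polynomial_eval_inv_mul 1 s
  simpa [eg'] using h

theorem eg'_nonneg (s : ℝ) : 0 ≤ eg' s := mul_nonneg (sq_nonneg _) (expNegInvGlue.nonneg s)

theorem eg'_pos {s : ℝ} (h : 0 < s) : 0 < eg' s :=
  mul_pos (by positivity) (expNegInvGlue.pos_of_pos h)

theorem eg'_cont : Continuous eg' := by
  have : eg' = deriv expNegInvGlue := funext fun s => (eg_d s).deriv.symm
  rw [this]
  exact (expNegInvGlue.contDiff (n := 1)).continuous_deriv le_rfl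

variable {X Y : Type} [NormedAddCommGroup X] [InnerProductSpace ℝ X] [FiniteDimensional ℝ X]
  [NormedAddCommGroup Y] [InnerProductSpace ℝ Y] [FiniteDimensional ℝ Y]

/-- the mixed function -/
def mx (F G : X × Y → ℝ) (e : X) (M : ℝ) (p : ℝ × X × Y) : ℝ :=
  expNegInvGlue (1 - (M * ⟪e, p.2.1⟫_ℝ + (M + 1 - p.1 * (2 * M + 1)))) * F p.2 +
    expNegInvGlue (M * ⟪e, p.2.1⟫_ℝ + (M + 1 - p.1 * (2 * M + 1))) * G p.2

theorem mx_smooth {F G : X × Y → ℝ} (hF : ContDiff ℝ ∞ F) (hG : ContDiff ℝ ∞ G) (e : X) (M : ℝ) :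
    ContDiff ℝ ∞ (mx F G e M) := by
  have h1 : ContDiff ℝ ∞ fun p : ℝ × X × Y =>
      M * ⟪e, p.2.1⟫_ℝ + (M + 1 - p.1 * (2 * M + 1)) :=
    (contDiff_const.mul (contDiff_const.inner ℝ contDiff_snd.fst)).add
      (contDiff_const.sub (contDiff_fst.mul contDiff_const))
  exact ((expNegInvGlue.contDiff.comp (contDiff_const.sub h1)).mul (hF.comp contDiff_snd)).add
    ((expNegInvGlue.contDiff.comp h1).mul (hG.comp contDiff_snd))

theorem mx_d {F G : X × Y → ℝ} (hF : ContDiff ℝ ∞ F) (hG : ContDiff ℝ ∞ G) (e : X) (M : ℝ)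
    (p : ℝ × X × Y) (w : X × Y) {s : ℝ}
    (hs : s = M * ⟪e, p.2.1⟫_ℝ + (M + 1 - p.1 * (2 * M + 1))) :
    fderiv ℝ (mx F G e M) p (0, w) =
      M * ⟪e, w.1⟫_ℝ * (-eg' (1 - s) * F p.2 + eg' s * G p.2) +
        (expNegInvGlue (1 - s) * fderiv ℝ F p.2 w + expNegInvGlue s * fderiv ℝ G p.2 w) := by
  have hl : HasDerivAt (fun r : ℝ => p + r • ((0 : ℝ), w)) ((0 : ℝ), w) 0 := by
    simpa using ((hasDerivAt_id (0 : ℝ)).smul_const ((0 : ℝ), w)).const_add p
  have h0 : p = p + (0 : ℝ) • ((0 : ℝ), w) := by simp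
  have h1 := ((mx_smooth hF hG e M).differentiable (by simp) p).hasFDerivAt.comp_hasDerivAt_of_eq
    (0 : ℝ) hl h0
  have hl2 : HasDerivAt (fun r : ℝ => p.2 + r • w) w 0 := by
    simpa using ((hasDerivAt_id (0 : ℝ)).smul_const w).const_add p.2
  have h02 : p.2 = p.2 + (0 : ℝ) • w := by simp
  have hF1 := (hF.differentiable (by simp) p.2).hasFDerivAt.comp_hasDerivAt_of_eq (0 : ℝ) hl2 h02
  have hG1 := (hG.differentiable (by simp) p.2).hasFDerivAt.comp_hasDerivAt_of_eq (0 : ℝ) hl2 h02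
  have hs1 : HasDerivAt (fun r : ℝ => s + r * (M * ⟪e, w.1⟫_ℝ)) (M * ⟪e, w.1⟫_ℝ) 0 := by
    simpa using ((hasDerivAt_id (0 : ℝ)).mul_const (M * ⟪e, w.1⟫_ℝ)).const_add s
  have ha := (eg_d (1 - s)).comp_of_eq (0 : ℝ) (hs1.const_sub 1) (by simp)
  have hb := (eg_d s).comp_of_eq (0 : ℝ) hs1 (by simp)
  have h2 := (ha.mul hF1).add (hb.mul hG1)
  have e1 : (mx F G e M ∘ fun r : ℝ => p + r • ((0 : ℝ), w)) =
      (expNegInvGlue ∘ fun r : ℝ => 1 - (s + r * (M * ⟪e, w.1⟫_ℝ))) * (F ∘ fun r : ℝ => p.2 + r • w) +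
      (expNegInvGlue ∘ fun r : ℝ => s + r * (M * ⟪e, w.1⟫_ℝ)) * (G ∘ fun r : ℝ => p.2 + r • w) := by
    funext r
    have : M * ⟪e, p.2.1 + r • w.1⟫_ℝ + (M + 1 - p.1 * (2 * M + 1)) =
        s + r * (M * ⟪e, w.1⟫_ℝ) := by
      rw [inner_add_right, inner_smul_right, hs]; ring
    simp [mx, this]
  rw [e1] at h1
  rw [h1.unique h2]
  simp
  ring

theorem par {F : X × Y → ℝ} (hF : ContDiff ℝ ∞ F) {e : X} (he : ‖e‖ = 1) {δ κ R : ℝ}
    (hδ : 0 < δ) (hκ : 0 < κ)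
    (hv : ∀ x y, ‖x‖ = 1 → F (x, y) = 0 → ∃ w, fderiv ℝ F (x, y) (0, w) ≠ 0)
    (hin : ∀ x y, ‖x‖ = 1 → ‖y‖ ≤ δ → F (x, y) < 0)
    (hout : ∀ x y, ‖x‖ = 1 → R ≤ ‖y‖ → 0 < F (x, y))
    (hcap : ∀ x y, ‖x‖ = 1 → 1 - κ ≤ |⟪e, x⟫_ℝ| → δ ≤ ‖y‖ → F (x, y) ≤ 0 →
      0 ≤ fderiv ℝ F (x, y) (0, y)) :
    ∃ Ψ Ψ' : X × Y → X × Y, ContDiff ℝ ∞ Ψ ∧ ContDiff ℝ ∞ Ψ' ∧ (∀ z, Ψ' (Ψ z) = z) ∧
      (∀ z, Ψ (Ψ' z) = z) ∧ (∀ z, ‖(Ψ z).1‖ = ‖z.1‖) ∧
      ∀ x y, ‖x‖ = 1 → (‖y‖ = δ ↔ F (Ψ (x, y)) = 0) := by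
  classical
  have : ProperSpace X := FiniteDimensional.proper ℝ X
  have : ProperSpace Y := FiniteDimensional.proper ℝ Y
  set G : X × Y → ℝ := fun z => ⟪z.2, z.2⟫_ℝ - δ ^ 2 with hG
  have Gs : ContDiff ℝ ∞ G := (contDiff_snd.inner ℝ contDiff_snd).sub contDiff_const
  have Gv : ∀ z : X × Y, G z = ‖z.2‖ ^ 2 - δ ^ 2 := fun z => by
    simp only [hG, real_inner_self_eq_norm_sq]
  have Gd : ∀ z w : X × Y, fderiv ℝ G z w = 2 * ⟪z.2, w.2⟫_ℝ := fun z w => by
    have h := ((hasFDerivAt_snd (𝕜 := ℝ) (p := z)).inner ℝ (hasFDerivAt_snd (p := z))).sub_const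
      (δ ^ 2)
    rw [h.fderiv]
    simp [real_inner_comm, two_mul]
  have DF : Continuous (fderiv ℝ F) := hF.continuous_fderiv (by simp)
  have egc : Continuous expNegInvGlue := (expNegInvGlue.contDiff (n := 0)).continuous
  -- signs at a zero of a combination
  have sg : ∀ (a b : ℝ) (z : X × Y), 0 ≤ a → 0 ≤ b → 0 < a + b → ‖z.1‖ = 1 →
      a * F z + b * G z = 0 → δ ≤ ‖z.2‖ ∧ ‖z.2‖ ≤ max R δ ∧
        (0 < a → F z ≤ 0) ∧ (0 < a → 0 < b → F z < 0 ∧ 0 < G z) := by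
    intro a b z ha hb hab hz h0
    have h1 : δ ≤ ‖z.2‖ := by
      by_contra hlt
      have f1 := hin z.1 z.2 hz (not_le.1 hlt).le
      have f2 : G z < 0 := by rw [Gv]; nlinarith [norm_nonneg z.2, not_le.1 hlt]
      rcases ha.eq_or_lt with rfl | ha'
      · nlinarith
      · nlinarith [mul_pos ha' (neg_pos.2 f1), mul_nonneg hb (neg_pos.2 f2).le]
    have g0 : 0 ≤ G z := by rw [Gv]; nlinarith
    refine ⟨h1, ?_, fun ha' => ?_, fun ha' hb' => ?_⟩
    · by_contra hlt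
      have hlt := not_le.1 hlt
      have f1 := hout z.1 z.2 hz ((le_max_left _ _).trans hlt.le)
      have f3 := (le_max_right _ _).trans_lt hlt
      have f2 : 0 < G z := by rw [Gv]; nlinarith
      rcases ha.eq_or_lt with rfl | ha'
      · nlinarith
      · nlinarith [mul_pos ha' f1, mul_nonneg hb f2.le]
    · by_contra hf
      nlinarith [mul_pos ha' (not_le.1 hf), mul_nonneg hb g0]
    · have g1 : 0 < G z := by
        refine g0.lt_of_ne fun hg => ?_
        have : ‖z.2‖ ≤ δ := by rw [Gv] at hg; nlinarith [norm_nonneg z.2]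
        have f1 := hin z.1 z.2 hz this
        rw [← hg] at h0
        nlinarith [mul_pos ha' (neg_pos.2 f1)]
      refine ⟨?_, g1⟩
      by_contra hf
      nlinarith [mul_nonneg ha (not_lt.1 hf), mul_pos hb' g1]
  have ab : ∀ s : ℝ, 0 < expNegInvGlue (1 - s) + expNegInvGlue s := fun s => by
    rcases lt_or_ge 0 s with h | h
    · linarith [expNegInvGlue.pos_of_pos h, expNegInvGlue.nonneg (1 - s)]
    · linarith [expNegInvGlue.pos_of_pos (show 0 < 1 - s by linarith), expNegInvGlue.nonneg s]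
  -- the ends
  have endF : ∀ (s : ℝ) (z : X × Y), s ≤ 0 → ‖z.1‖ = 1 →
      expNegInvGlue (1 - s) * F z + expNegInvGlue s * G z = 0 → ∃ w : Y,
      expNegInvGlue (1 - s) * fderiv ℝ F z (0, w) + expNegInvGlue s * fderiv ℝ G z (0, w) ≠ 0 := by
    intro s z hs hz h0
    have hp := expNegInvGlue.pos_of_pos (show 0 < 1 - s by linarith)
    rw [expNegInvGlue.zero_of_nonpos hs] at h0 ⊢
    obtain ⟨w, hw⟩ := hv z.1 z.2 hz (by simpa [hp.ne'] using h0)
    exact ⟨w, by simpa [hp.ne'] using hw⟩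
  have rad : ∀ (s : ℝ) (z : X × Y), 0 < s → ‖z.1‖ = 1 → (1 ≤ s ∨ 1 - κ ≤ |⟪e, z.1⟫_ℝ|) →
      expNegInvGlue (1 - s) * F z + expNegInvGlue s * G z = 0 →
      expNegInvGlue (1 - s) * fderiv ℝ F z (0, z.2) +
        expNegInvGlue s * fderiv ℝ G z (0, z.2) ≠ 0 := by
    intro s z hs hz hc h0
    obtain ⟨h1, -, h3, -⟩ := sg _ _ z (expNegInvGlue.nonneg _) (expNegInvGlue.nonneg _) (ab s) hz h0
    have h4 : 0 < expNegInvGlue s * fderiv ℝ G z (0, z.2) := by
      rw [Gd, real_inner_self_eq_norm_sq]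
      have : 0 < ‖z.2‖ := hδ.trans_le h1
      exact mul_pos (expNegInvGlue.pos_of_pos hs) (by positivity)
    have h5 : 0 ≤ expNegInvGlue (1 - s) * fderiv ℝ F z (0, z.2) := by
      rcases le_or_gt 1 s with h | h
      · rw [expNegInvGlue.zero_of_nonpos (by linarith), zero_mul]
      · have hp := expNegInvGlue.pos_of_pos (show 0 < 1 - s by linarith)
        exact mul_nonneg hp.le (hcap z.1 z.2 hz (hc.resolve_left (not_le.2 h)) h1 (h3 hp))
    linarith
  -- the bad set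
  set u : X → X := fun x => ⟪x, x⟫_ℝ • e - ⟪e, x⟫_ℝ • x with hu
  have us : ContDiff ℝ ∞ u := ((contDiff_id.inner ℝ contDiff_id).smul contDiff_const).sub
    ((contDiff_const.inner ℝ contDiff_id).smul contDiff_id)
  have ue : ∀ x, ‖x‖ = 1 → ⟪e, u x⟫_ℝ = 1 - ⟪e, x⟫_ℝ ^ 2 := fun x hx => by
    simp only [hu, inner_sub_right, inner_smul_right, real_inner_self_eq_norm_sq, hx, he]
    ring
  set B : Set (ℝ × X × Y) := (Icc 0 1 ×ˢ Metric.sphere 0 1 ×ˢ Metric.closedBall 0 (max R δ)) ∩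
    ({p | expNegInvGlue (1 - p.1) * F p.2 + expNegInvGlue p.1 * G p.2 = 0} ∩
      {p | |⟪e, p.2.1⟫_ℝ| ≤ 1 - κ} ∩ ⋂ w : Y, {p | expNegInvGlue (1 - p.1) * fderiv ℝ F p.2 (0, w) +
        expNegInvGlue p.1 * fderiv ℝ G p.2 (0, w) = 0}) with hB
  have Fc := hF.continuous
  have Gc := Gs.continuous
  have DG : Continuous (fderiv ℝ G) := Gs.continuous_fderiv (by simp)
  have Bc : IsCompact B := by
    refine (isCompact_Icc.prod ((isCompact_sphere _ _).prod (isCompact_closedBall _ _))).inter_right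
      (((isClosed_eq (by fun_prop) continuous_const).inter
        (isClosed_le (by fun_prop) continuous_const)).inter
        (isClosed_iInter fun w => isClosed_eq (by fun_prop) continuous_const))
  have ec := eg'_cont
  have uc := us.continuous
  obtain ⟨M, hM, hMB⟩ := exists_big Bc
    (P := fun p => (1 - ⟪e, p.2.1⟫_ℝ ^ 2) * (-eg' (1 - p.1) * F p.2 + eg' p.1 * G p.2))
    (Q := fun p => expNegInvGlue (1 - p.1) * fderiv ℝ F p.2 (u p.2.1, 0))
    (by fun_prop) (by fun_prop) (by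
      rintro ⟨s, z⟩ ⟨⟨hs, hz, -⟩, ⟨h0, hc⟩, hw⟩
      have hz : ‖z.1‖ = 1 := by simpa using hz
      have hw := mem_iInter.1 hw
      have s0 : 0 < s := by
        refine hs.1.lt_of_ne fun h => ?_
        obtain ⟨w, h1⟩ := endF s z h.ge hz h0
        exact h1 (hw w)
      have s1 : s < 1 := by
        refine hs.2.lt_of_ne fun h => ?_
        exact rad s z s0 hz (Or.inl h.ge) h0 (hw _)
      have s2 : 0 < 1 - s := by linarith
      obtain ⟨-, -, -, h4⟩ := sg _ _ z (expNegInvGlue.nonneg _) (expNegInvGlue.nonneg _) (ab s) hz h0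
      obtain ⟨h5, h6⟩ := h4 (expNegInvGlue.pos_of_pos s2) (expNegInvGlue.pos_of_pos s0)
      have hc : |⟪e, z.1⟫_ℝ| ≤ 1 - κ := hc
      have h7 : ⟪e, z.1⟫_ℝ ^ 2 < 1 := by
        rw [← sq_abs]; nlinarith [abs_nonneg ⟪e, z.1⟫_ℝ]
      refine mul_pos (by linarith) ?_
      show 0 < -eg' (1 - s) * F z + eg' s * G z
      nlinarith [mul_pos (eg'_pos s2) (neg_pos.2 h5), mul_pos (eg'_pos s0) h6])
  set b := Module.finBasis ℝ Y
  have nx : ∀ x : X, ⟪x, x⟫_ℝ = 1 ↔ ‖x‖ = 1 := fun x => by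
    rw [real_inner_self_eq_norm_sq, pow_eq_one_iff_of_nonneg (norm_nonneg x) two_ne_zero]
  obtain ⟨Ψ, Ψ', h1, h2, h3, h4, h5, h6⟩ := iso' (F := mx F G e M) (mx_smooth hF Gs e M)
    (W := fun (i : Option (Fin (Module.finrank ℝ Y))) p =>
      i.elim ((u p.2.1, 0) : X × Y) fun j => (0, b j))
    (fun i => by
      cases i
      · exact (us.comp contDiff_snd.fst).prodMk contDiff_const
      · exact contDiff_const)
    (c := fun z => ⟪z.1, z.1⟫_ℝ) (differentiable_fst.inner ℝ differentiable_fst)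
    (fun i p => by
      have h := (hasFDerivAt_fst (𝕜 := ℝ) (p := p.2)).inner ℝ (hasFDerivAt_fst (p := p.2))
      rw [h.fderiv]
      cases i
      · simp [hu, inner_sub_right, inner_sub_left, inner_smul_right, inner_smul_left,
          real_inner_comm, mul_comm]
      · simp) (c0 := 1)
    (by
      refine (isCompact_Icc.prod ((isCompact_sphere (0 : X) 1).prod
        (isCompact_closedBall (0 : Y) (max R δ)))).of_isClosed_subset
        ((isClosed_Icc.preimage continuous_fst).inter ((isClosed_eq (by fun_prop)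
          continuous_const).inter (isClosed_eq (mx_smooth hF Gs e M).continuous continuous_const)))
        fun p hp => ⟨hp.1, by simpa using (nx _).1 hp.2.1, ?_⟩
      simpa using (sg _ _ p.2 (expNegInvGlue.nonneg _) (expNegInvGlue.nonneg _) (ab _)
        ((nx _).1 hp.2.1) hp.2.2).2.1)
    (fun p _ hx h0 => by
      have hx := (nx _).1 hx
      obtain ⟨s, hs⟩ : ∃ s, s = M * ⟪e, p.2.1⟫_ℝ + (M + 1 - p.1 * (2 * M + 1)) := ⟨_, rfl⟩
      have h0 : expNegInvGlue (1 - s) * F p.2 + expNegInvGlue s * G p.2 = 0 := by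
        rw [hs]; exact h0
      by_contra hne
      push Not at hne
      have hw : ∀ w : Y, expNegInvGlue (1 - s) * fderiv ℝ F p.2 (0, w) +
          expNegInvGlue s * fderiv ℝ G p.2 (0, w) = 0 := by
        intro w
        have h7 : fderiv ℝ (mx F G e M) p (0, (0, w)) = 0 := by
          have h8 : (((0 : ℝ), ((0 : X), w)) : ℝ × X × Y) =
              ∑ j, b.repr w j • ((0 : ℝ), ((0 : X), b j)) := by
            refine Prod.ext (by simp [Prod.fst_sum]) (Prod.ext ?_ ?_)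
            · simp [Prod.fst_sum, Prod.snd_sum]
            · simp [Prod.snd_sum]
          rw [h8, map_sum]
          refine Finset.sum_eq_zero fun j _ => ?_
          rw [map_smul, show fderiv ℝ (mx F G e M) p (0, (0, b j)) = 0 from hne (some j), smul_zero]
        simpa using (mx_d hF Gs e M p (0, w) hs).symm.trans h7
      rcases le_or_gt s 0 with s0 | s0
      · obtain ⟨w, h⟩ := endF s p.2 s0 hx h0
        exact h (hw w)
      by_cases hc : 1 ≤ s ∨ 1 - κ ≤ |⟪e, p.2.1⟫_ℝ|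
      · exact rad s p.2 s0 hx hc h0 (hw _)
      push Not at hc
      have h9 := hMB (s, p.2) ⟨⟨⟨s0.le, hc.1.le⟩, by simpa using hx, by
        simpa using (sg _ _ p.2 (expNegInvGlue.nonneg _) (expNegInvGlue.nonneg _) (ab _)
          hx h0).2.1⟩, ⟨h0, hc.2.le⟩, mem_iInter.2 hw⟩
      have h10 := (mx_d hF Gs e M p (u p.2.1, 0) hs).symm.trans (hne none)
      rw [Gd, ue _ hx] at h10
      simp only [inner_zero_right, mul_zero, add_zero] at h10 h9
      linarith)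
  refine ⟨Ψ, Ψ', h1, h2, h3, h4, fun z => ?_, fun x y hx => ?_⟩
  · have := h5 z
    simp only [real_inner_self_eq_norm_sq] at this
    exact (sq_eq_sq₀ (norm_nonneg _) (norm_nonneg _)).1 this
  · have h7 := h6 (x, y) ((nx _).2 hx)
    have hb : ∀ x' : X, ‖x'‖ = 1 → |⟪e, x'⟫_ℝ| ≤ 1 := fun x' h => by
      simpa [he, h] using abs_real_inner_le_norm e x'
    have hx' : ‖(Ψ (x, y)).1‖ = 1 := (nx _).1 ((h5 _).trans ((nx _).2 hx))
    have a1 := abs_le.1 (hb x hx)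
    have a2 := abs_le.1 (hb _ hx')
    have b1 : 1 ≤ M * ⟪e, x⟫_ℝ + (M + 1 - 0 * (2 * M + 1)) := by nlinarith
    have b2 : M * ⟪e, (Ψ (x, y)).1⟫_ℝ + (M + 1 - 1 * (2 * M + 1)) ≤ 0 := by nlinarith
    simp only [mx] at h7
    have c1 := (expNegInvGlue.pos_of_pos (one_pos.trans_le b1)).ne'
    have c2 := (expNegInvGlue.pos_of_pos (show 0 < 1 - (M * ⟪e, (Ψ (x, y)).1⟫_ℝ +
      (M + 1 - 1 * (2 * M + 1))) by linarith)).ne'
    rw [expNegInvGlue.zero_of_nonpos (sub_nonpos.2 b1), expNegInvGlue.zero_of_nonpos b2,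
      zero_mul (F _), zero_mul (G _), zero_add, add_zero, mul_eq_zero_iff_left c1,
      mul_eq_zero_iff_left c2, Gv, sub_eq_zero, sq_eq_sq₀ (norm_nonneg _) hδ.le] at h7
    exact h7

end Crest.Agent.N218.Par
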