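import Crest.Agent.N218.A.Defs
import Crest.Agent.N218.A.Par

/-! # Row 218, block A (helper69): the leaf `PAR` -/

namespace Crest.Agent.N218.A

theorem par : PAR := fun _ _ _ _ _ hF he hδ hκ hv hin hout hcap =>
  Par.par hF he hδ hκ hv hin hout hcap

end Crest.Agent.N218.A
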