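import Crest.Agent.N218.A.Emb
import Crest.Agent.N218.A.ParI

/-!
# Row 218, block A0 (helper84): the exact Lagrangian embedding of a parametrised critical set
-/

set_option autoImplicit false

open scoped ContDiff RealInnerProductSpace Topology Manifold
open Set Filter Function
open Crest.GeometryTopology.CotangentSpheres

namespace Crest.Agent.N218.A

namespace Lg

/-- the inclusion of `Q` -/
def jq (l : Sph 9 × Sph 11) : VQ := (l.1, l.2)

theorem jq_unit (l : Sph 9 × Sph 11) : UnitQ (jq l) :=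
  ⟨mem_sphere_zero_iff_norm.1 l.1.2, mem_sphere_zero_iff_norm.1 l.2.2⟩

instance fact_eu (k : ℕ) : Fact (Module.finrank ℝ (Eu k) = k + 1) := ⟨by simp⟩

theorem jq_smooth : ContMDiff ((𝓡 9).prod (𝓡 11)) 𝓘(ℝ, VQ) ∞ jq :=
  (contMDiff_coe_sphere.comp contMDiff_fst).prodMk_space (contMDiff_coe_sphere.comp contMDiff_snd)

/-- its differential -/
noncomputable def dj (l : Sph 9 × Sph 11) (w : TangentSpace ((𝓡 9).prod (𝓡 11)) l) : VQ :=
  mfderiv ((𝓡 9).prod (𝓡 11)) 𝓘(ℝ, VQ) jq l w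

theorem mf {W : Type*} [NormedAddCommGroup W] [NormedSpace ℝ W] {f : VQ → W}
    (hf : Differentiable ℝ f) (l : Sph 9 × Sph 11) (w : TangentSpace ((𝓡 9).prod (𝓡 11)) l) :
    mfderiv ((𝓡 9).prod (𝓡 11)) 𝓘(ℝ, W) (fun l => f (jq l)) l w = fderiv ℝ f (jq l) (dj l w) := by
  have := mfderiv_comp l (hf (jq l)).mdifferentiableAt (jq_smooth.mdifferentiableAt (by simp))
  rw [mfderiv_eq_fderiv] at this
  exact DFunLike.congr_fun this w

theorem mf_eq {W : Type*} [NormedAddCommGroup W] [NormedSpace ℝ W] {f g : VQ → W}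
    (hf : Differentiable ℝ f) (hg : Differentiable ℝ g) (h : ∀ l, UnitQ l → f l = g l)
    (l : Sph 9 × Sph 11) (w : TangentSpace ((𝓡 9).prod (𝓡 11)) l) :
    fderiv ℝ f (jq l) (dj l w) = fderiv ℝ g (jq l) (dj l w) := by
  rw [← mf hf, ← mf hg, show (fun l => f (jq l)) = fun l => g (jq l) from
    funext fun l => h _ (jq_unit l)]
  rfl

theorem dj_zero {l : Sph 9 × Sph 11} {w : TangentSpace ((𝓡 9).prod (𝓡 11)) l}
    (h : dj l w = 0) : w = 0 := by
  have h1 := mf (f := Prod.fst) differentiable_fst l w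
  have h2 := mf (f := Prod.snd) differentiable_snd l w
  rw [h, map_zero] at h1 h2
  have k1 := mfderiv_comp (I := (𝓡 9).prod (𝓡 11)) l
    ((contMDiff_coe_sphere (E := Eu 9) (m := ∞) (n := 9)).mdifferentiableAt (x := l.1) (by simp))
    (mdifferentiableAt_fst (x := l))
  have k2 := mfderiv_comp (I := (𝓡 9).prod (𝓡 11)) l
    ((contMDiff_coe_sphere (E := Eu 11) (m := ∞) (n := 11)).mdifferentiableAt (x := l.2) (by simp))
    (mdifferentiableAt_snd (x := l))
  rw [mfderiv_fst] at k1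
  rw [mfderiv_snd] at k2
  refine Prod.ext (mfderiv_coe_sphere_injective (n := 9) l.1 ?_)
    (mfderiv_coe_sphere_injective (n := 11) l.2 ?_)
  · exact ((DFunLike.congr_fun k1 w).symm.trans h1).trans (map_zero _).symm
  · exact ((DFunLike.congr_fun k2 w).symm.trans h2).trans (map_zero _).symm

variable (G : VQ × Eu 9 → ℝ)

/-- the gradient in `θ` -/
noncomputable def g1 (z : VQ × Eu 9) : Eu 9 := (InnerProductSpace.toDual ℝ (Eu 9)).symm
  ((fderiv ℝ G z).comp ((ContinuousLinearMap.inl ℝ VQ (Eu 9)).comp (.inl ℝ (Eu 9) (Eu 11))))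

/-- the gradient in `x` -/
noncomputable def g2 (z : VQ × Eu 9) : Eu 11 := (InnerProductSpace.toDual ℝ (Eu 11)).symm
  ((fderiv ℝ G z).comp ((ContinuousLinearMap.inl ℝ VQ (Eu 9)).comp (.inr ℝ (Eu 9) (Eu 11))))

/-- the tangential gradient -/
noncomputable def tg (z : VQ × Eu 9) : VQ :=
  (g1 G z - ⟪z.1.1, g1 G z⟫ • z.1.1, g2 G z - ⟪z.1.2, g2 G z⟫ • z.1.2)

theorem tg_cov (z : VQ × Eu 9) : Cov G z (tg G z) := by
  rintro ⟨a, b⟩ ⟨ha, hb⟩
  simp only [tg, inner_sub_left, real_inner_smul_left] at ha hb ⊢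
  rw [ha, hb, show (((a, b), 0) : VQ × Eu 9) = ((a, 0), 0) + ((0, b), 0) by simp, map_add]
  simp [g1, g2]

theorem tg_mem {z : VQ × Eu 9} (h : UnitQ z.1) : InCotangent 11 (z.1, tg G z) := by
  refine ⟨h.1, h.2, ?_, ?_⟩
  · simp only [tg, inner_sub_right, inner_smul_right, real_inner_self_eq_norm_sq, h.1]; ring
  · simp only [tg, inner_sub_right, inner_smul_right, real_inner_self_eq_norm_sq, h.2]; ring

variable {G}

theorem tg_smooth (hG : ContDiff ℝ ∞ G) : ContDiff ℝ ∞ (tg G) := by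
  have hd : ContDiff ℝ ∞ (fderiv ℝ G) := hG.fderiv_right (m := ∞) (by simp)
  have h1 : ContDiff ℝ ∞ (g1 G) :=
    (InnerProductSpace.toDual ℝ (Eu 9)).symm.toContinuousLinearEquiv.contDiff.comp
      (hd.clm_comp contDiff_const)
  have h2 : ContDiff ℝ ∞ (g2 G) :=
    (InnerProductSpace.toDual ℝ (Eu 11)).symm.toContinuousLinearEquiv.contDiff.comp
      (hd.clm_comp contDiff_const)
  exact (h1.sub ((contDiff_fst.fst.inner ℝ h1).smul contDiff_fst.fst)).prodMk
    (h2.sub ((contDiff_fst.snd.inner ℝ h2).smul contDiff_fst.snd))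

theorem split {W : Type*} [NormedAddCommGroup W] [NormedSpace ℝ W] (A : VQ × Eu 9 →L[ℝ] W)
    (v : VQ) (e : Eu 9) : A (v, e) = A (v, 0) + A (0, e) := by
  rw [← map_add]; simp

theorem d2_tan (hG : ContDiff ℝ ∞ G) {q v : VQ} {y z : Eu 9} (hv : Tan q v)
    (h : fderiv ℝ (tg G) (q, y) (0, z) = 0) : fderiv ℝ (fderiv ℝ G) (q, y) (0, z) (v, 0) = 0 := by
  have h1 := has_line2 hG (q, y) (0, z) (v, 0) 0
  have h2 := has_line ((tg_smooth hG).differentiable (by simp)) (q, y) (0, z) 0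
  simp only [zero_smul, add_zero] at h1 h2
  rw [h] at h2
  have h3 := (((ContinuousLinearMap.fst ℝ (Eu 9) (Eu 11)).hasFDerivAt.comp_hasDerivAt 0 h2).inner ℝ
    (hasDerivAt_const 0 v.1)).add (((ContinuousLinearMap.snd ℝ (Eu 9) (Eu 11)).hasFDerivAt.comp_hasDerivAt
      0 h2).inner ℝ (hasDerivAt_const 0 v.2))
  simpa using h1.unique (h3.congr_of_eventuallyEq (Eventually.of_forall fun t =>
    tg_cov G _ v (by simpa using hv)))

end Lg

open Lg in
theorem lag : LAG := by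
  intro G D σ τ hG hU hN hσ hτ h1 h2
  have dG := hG.differentiable (by simp)
  have dσ := hσ.differentiable (by simp)
  have dτ := hτ.differentiable (by simp)
  have sΛ : ContDiff ℝ ∞ fun l => (((σ l).1, tg G (σ l)) : Amb 11) :=
    hσ.fst.prodMk ((tg_smooth hG).comp hσ)
  have d1 : ∀ l u, fderiv ℝ (fun l => (σ l).1.1) l u = (fderiv ℝ σ l u).1.1 := fun l u => by
    rw [(dσ l).hasFDerivAt.fst.fst.fderiv]; rfl
  have d2 : ∀ l u, fderiv ℝ (fun l => (σ l).1.2) l u = (fderiv ℝ σ l u).1.2 := fun l u => by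
    rw [(dσ l).hasFDerivAt.fst.snd.fderiv]; rfl
  have tan : ∀ l w, Tan (σ (jq l)).1 (fderiv ℝ σ (jq l) (dj l w)).1 := fun l w => by
    have a := mf_eq (dσ.fst.fst.norm_sq ℝ) (differentiable_const 1)
      (fun l hl => by rw [(h1 l hl).1.1]; norm_num) l w
    have b := mf_eq (dσ.fst.snd.norm_sq ℝ) (differentiable_const 1)
      (fun l hl => by rw [(h1 l hl).1.2]; norm_num) l w
    rw [(dσ _).hasFDerivAt.fst.fst.norm_sq.fderiv] at a
    rw [(dσ _).hasFDerivAt.fst.snd.norm_sq.fderiv] at b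
    exact ⟨by simpa using a, by simpa using b⟩
  refine ⟨fun l => ((σ (jq l)).1, tg G (σ (jq l))), ⟨sΛ.contMDiff.comp jq_smooth, fun l l' h => ?_,
    fun l => (injective_iff_map_eq_zero _).2 fun w hw => ?_,
    fun l => tg_mem G (h1 _ (jq_unit l)).1,
    fun l => G (σ (jq l)), (hG.comp hσ).contMDiff.comp jq_smooth, fun l w => ?_⟩,
    fun q y hq hD hc => ?_, ?_, hU, hN⟩
  · obtain ⟨a1, a2, a3, a4⟩ := h1 _ (jq_unit l)
    obtain ⟨b1, b2, b3, b4⟩ := h1 _ (jq_unit l')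
    obtain ⟨e1, e2⟩ : (σ (jq l)).1 = (σ (jq l')).1 ∧ tg G (σ (jq l)) = tg G (σ (jq l')) :=
      Prod.ext_iff.1 h
    have e0 : ((σ (jq l)).1, (σ (jq l')).2) = σ (jq l') := by rw [e1]
    have e3 : (σ (jq l)).2 = (σ (jq l')).2 := hU _ _ _ a1 a2 (e0 ▸ b2) a3 (e0 ▸ b3) fun v hv => by
      rw [e0, tg_cov G (σ (jq l)) v hv, tg_cov G (σ (jq l')) v (e1 ▸ hv), e2]
    have e4 : jq l = jq l' := by rw [← a4, ← b4, Prod.ext e1 e3]
    exact Prod.ext (Subtype.ext (congrArg Prod.fst e4)) (Subtype.ext (congrArg Prod.snd e4))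
  · obtain ⟨a1, a2, a3, -⟩ := h1 _ (jq_unit l)
    have dt := (tg_smooth hG).differentiable (by simp)
    have dd : Differentiable ℝ (fderiv ℝ G) :=
      (hG.fderiv_right (m := ∞) (by simp)).differentiable (by simp)
    have hw' := (DFunLike.congr_fun ((dσ (jq l)).hasFDerivAt.fst.prodMk
      ((dt _).hasFDerivAt.comp _ (dσ _).hasFDerivAt)).fderiv (dj l w)).symm.trans
        ((mf (sΛ.differentiable (by simp)) l w).symm.trans hw)
    have e1 : (fderiv ℝ σ (jq l) (dj l w)).1 = 0 := congrArg Prod.fst hw'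
    have e2 : fderiv ℝ (tg G) (σ (jq l)) (fderiv ℝ σ (jq l) (dj l w)) = 0 := congrArg Prod.snd hw'
    have e0 : fderiv ℝ σ (jq l) (dj l w) = (0, (fderiv ℝ σ (jq l) (dj l w)).2) := by rw [← e1]
    have e3 : (fderiv ℝ σ (jq l) (dj l w)).2 = 0 := hN _ _ _ a1 a2 a3 fun v e hv => by
      have a := mf_eq ((dd.comp dσ).clm_apply (differentiable_const (0, e)))
        (differentiable_const 0) (fun l hl => (h1 l hl).2.2.1 e) l w
      rw [(((dd _).hasFDerivAt.comp _ (dσ _).hasFDerivAt).clm_apply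
        (hasFDerivAt_const (0, e) _)).fderiv] at a
      rw [split, d2_tan hG hv (by rw [← e0]; exact e2), ← e0]
      simpa using a
    have a := mf_eq (dτ.comp dσ) differentiable_id (fun l hl => (h1 l hl).2.2.2) l w
    rw [fderiv_comp _ (dτ _) (dσ _), fderiv_id, ContinuousLinearMap.comp_apply, e0, e3] at a
    exact dj_zero (a.symm.trans (map_zero _))
  · have a := mf (dG.comp dσ) l w
    rw [fderiv_comp _ (dG _) (dσ _), ContinuousLinearMap.comp_apply, ← Prod.mk.eta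
      (p := fderiv ℝ σ (jq l) (dj l w)), split, (h1 _ (jq_unit l)).2.2.1, add_zero,
      tg_cov G _ _ (tan l w), ← d1, ← d2, ← mf dσ.fst.fst, ← mf dσ.fst.snd] at a
    exact a
  · obtain ⟨l, hl, e⟩ := h2 (q, y) hq hD hc
    refine ⟨tg G (q, y), ⟨(⟨l.1, mem_sphere_zero_iff_norm.2 hl.1⟩,
      ⟨l.2, mem_sphere_zero_iff_norm.2 hl.2⟩), ?_⟩, tg_cov G _⟩
    simp only [jq, Prod.mk.eta, e]
  · rintro q p ⟨l, hl⟩
    obtain ⟨rfl, rfl⟩ := Prod.ext_iff.1 hl
    exact ⟨(σ (jq l)).2, (h1 _ (jq_unit l)).2.1, (h1 _ (jq_unit l)).2.2.1, tg_cov G _⟩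

/-- **block A0** -/
theorem a0 : A0 := a0_of lag par

theorem a0x (Φ : Fam) : ∃ ι G, Φ.Out ι G ∧ Φ.Mon G ∧ Φ.Col G := a0x_of lag par Φ

end Crest.Agent.N218.A
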