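import Crest.Agent.N218.A.Sh

/-! Row 218, block A (helper69): a sheet from an injective local diffeomorphism. -/

set_option autoImplicit false
open Set Function Filter Topology
open scoped ContDiff

namespace Crest.Agent.N218.Sh

/-- an injective local diffeomorphism has open image and a smooth inverse -/
theorem inv_smooth {Z T : Type} [NormedAddCommGroup Z] [NormedSpace ℝ Z] [FiniteDimensional ℝ Z]
    [NormedAddCommGroup T] [NormedSpace ℝ T] [FiniteDimensional ℝ T] {D : Set Z} (hD : IsOpen D)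
    {Ξ : Z → T} (hs : ContDiffOn ℝ ∞ Ξ D) (hi : InjOn Ξ D)
    (hb : ∀ d ∈ D, Bijective (fderiv ℝ Ξ d)) :
    IsOpen (Ξ '' D) ∧ ContDiffOn ℝ ∞ (invFunOn Ξ D) (Ξ '' D) := by
  have : CompleteSpace Z := FiniteDimensional.complete ℝ Z
  have key : ∀ d ∈ D, Ξ '' D ∈ 𝓝 (Ξ d) ∧ ContDiffAt ℝ ∞ (invFunOn Ξ D) (Ξ d) := fun d hd => by
    have hc : ContDiffAt ℝ ∞ Ξ d := hs.contDiffAt (hD.mem_nhds hd)
    let e : Z ≃L[ℝ] T := (LinearEquiv.ofBijective (fderiv ℝ Ξ d : Z →ₗ[ℝ] T)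
      (hb d hd)).toContinuousLinearEquiv
    have hf : HasFDerivAt Ξ (e : Z →L[ℝ] T) d := (hc.differentiableAt (by simp)).hasFDerivAt
    have hn : (∞ : WithTop ℕ∞) ≠ 0 := by simp
    have hst := hc.hasStrictFDerivAt' hf hn
    refine ⟨hst.map_nhds_eq_of_equiv ▸ image_mem_map (hD.mem_nhds hd), ?_⟩
    refine (hc.to_localInverse hf hn).congr_of_eventuallyEq ?_
    have h1 : ∀ᶠ y in 𝓝 (Ξ d), hc.localInverse hf hn y ∈ D := by
      have := (hc.to_localInverse hf hn).continuousAt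
      rw [ContinuousAt, hc.localInverse_apply_image hf hn] at this
      exact this (hD.mem_nhds hd)
    filter_upwards [h1, hst.eventually_right_inverse] with y h2 h3
    have h4 : Ξ (hc.localInverse hf hn y) = y := h3
    rw [← h4, hi.leftInvOn_invFunOn h2, h4]
  refine ⟨isOpen_iff_mem_nhds.2 ?_, ?_⟩
  · rintro _ ⟨d, hd, rfl⟩; exact (key d hd).1
  · rintro _ ⟨d, hd, rfl⟩; exact (key d hd).2.contDiffWithinAt

theorem mk {X Y Lb Z : Type} [NormedAddCommGroup X] [NormedSpace ℝ X] [FiniteDimensional ℝ X]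
    [NormedAddCommGroup Y] [NormedSpace ℝ Y] [FiniteDimensional ℝ Y] [NormedAddCommGroup Lb]
    [NormedSpace ℝ Lb] [NormedAddCommGroup Z] [NormedSpace ℝ Z] [FiniteDimensional ℝ Z]
    (ν : Lb → ℝ) {D : Set Z} (hD : IsOpen D) {Ξ : Z → X × Y} (hs : ContDiffOn ℝ ∞ Ξ D)
    (hi : InjOn Ξ D) (hb : ∀ d ∈ D, Bijective (fderiv ℝ Ξ d)) {lab : Z → Lb} {η : Z → Y}
    (hl : ContDiffOn ℝ ∞ lab D) (he : ContDiffOn ℝ ∞ η D) {r : ℝ} (hr : 0 < r)
    (hbd : ∀ d ∈ D, ν (lab d) < r ∧ ‖η d‖ < r) (hpos : ∀ d ∈ D, ‖(Ξ d).2 - η d‖ ≤ 1)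
    (htr : ∀ d ∈ D, ∀ e, ‖e‖ < r → ∃ d' ∈ D, lab d' = lab d ∧ η d' = e ∧
      Ξ d' = ((Ξ d).1, (Ξ d).2 - η d + e))
    (hc : ∀ a < r, ∀ b < r, IsCompact {d | d ∈ D ∧ ν (lab d) ≤ a ∧ ‖η d‖ ≤ b}) :
    ∃ S : Sheet X Y Lb ν, S.r = r ∧ S.O = Ξ '' D ∧
      ∀ d ∈ D, S.W (Ξ d) = lab d ∧ S.H (Ξ d) = η d := by
  obtain ⟨ho, hm⟩ := inv_smooth hD hs hi hb
  have li : ∀ d ∈ D, invFunOn Ξ D (Ξ d) = d := fun d hd => hi.leftInvOn_invFunOn hd
  have mp : MapsTo (invFunOn Ξ D) (Ξ '' D) D := by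
    rintro _ ⟨d, hd, rfl⟩; rw [li d hd]; exact hd
  refine ⟨⟨Ξ '' D, fun z => lab (invFunOn Ξ D z), fun z => η (invFunOn Ξ D z), r, hr, ho,
    hl.comp hm mp, he.comp hm mp, ?_, ?_, ?_, fun a ha b hb' => ?_⟩, rfl, rfl, fun d hd => ?_⟩
  · rintro _ ⟨d, hd, rfl⟩; rw [li d hd]; exact hbd d hd
  · rintro _ ⟨d, hd, rfl⟩; rw [li d hd]; exact hpos d hd
  · rintro _ ⟨d, hd, rfl⟩ e he'
    obtain ⟨d', hd', h1, h2, h3⟩ := htr d hd e he'
    rw [li d hd, ← h3, li d' hd']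
    exact ⟨mem_image_of_mem _ hd', h1, h2⟩
  · have := (hc a ha b hb').image_of_continuousOn (hs.continuousOn.mono fun d hd => hd.1)
    refine (congrArg IsCompact (Set.ext fun z => ?_)).mp this
    constructor
    · rintro ⟨d, ⟨hd, h1⟩, rfl⟩
      refine ⟨mem_image_of_mem _ hd, ?_⟩
      rw [li d hd]; exact h1
    · rintro ⟨⟨d, hd, rfl⟩, h1⟩
      rw [li d hd] at h1
      exact ⟨d, ⟨hd, h1⟩, rfl⟩
  · simp only [li d hd, and_self]

end Crest.Agent.N218.Sh
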