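import Crest.Agent.N218.C.Nn

/-!
# Row 218 (helper86): the output of block A0 is the input of block C
-/

set_option autoImplicit false
open Set Filter Topology
open scoped ContDiff
open Crest.GeometryTopology.CotangentSpheres

namespace Crest.Agent.N218.A

open Tc

theorem Fam.ret (Φ : Fam) {R : ℝ} (hR : Φ.R ≤ R) : C.Ret Φ.ρ Φ.r Φ.w R := by
  refine ⟨Φ.ρ_smooth.continuous, Φ.r_smooth, Φ.w_pos, fun x y a b => (Φ.bdd x y a b).trans_le hR,
    Φ.r_id, fun x y a b => ?_, Φ.r_lt, Φ.r_in⟩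
  rcases b.eq_or_lt with e | e
  swap
  · exact subset_closure e
  obtain ⟨v, hv⟩ := Φ.reg x y a (by rw [e, abs_zero]; exact Φ.w_pos.le)
  refine mem_closure_iff_frequently.2 ?_
  by_contra c
  have m : IsLocalMin (fun y => Φ.ρ (x, y)) y :=
    (not_frequently.1 c).mono fun y hy => e.trans_le (not_lt.1 hy)
  exact hv (ContinuousLinearMap.ext_iff.1 (m.hasFDerivAt_eq_zero
    ((Φ.ρ_smooth.differentiable (by simp) (x, y)).hasFDerivAt.comp y
      (hasFDerivAt_prodMk_right x y))) v)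

/-- **block A0 feeds block C** -/
theorem Fam.Out.toC {Φ : Fam} {ι : Sph 9 × Sph 11 → Amb 11} {G : VQ × Eu 9 → ℝ}
    (h : Φ.Out ι G) : C.In ι Φ.ρ Φ.r Φ.w (Φ.R + 2) fun x => G (C.nn x.1, x.2) := by
  refine ⟨Φ.ret (by linarith), fun q y a => h.supp _ y a, gen_of h.gen h.smooth
    (isOpen_lt (Φ.ρ_smooth.continuous.comp (by fun_prop)) continuous_const) C.nn_smooth
    (fun q a => C.nn_nr a) fun q a P => C.mem_Lc' ?_ a P,
    fun q a y b => h.mono _ y (C.nn_norm a) b, fun q a y b c => h.int _ y (C.nn_norm a) b fun e => ?_⟩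
  · rintro _ ⟨l, rfl⟩; exact h.emb.mem l
  · simpa only [cmp_d1 h.smooth C.nn_smooth, map_zero] using c e

theorem toC (h : A0) (Φ : Fam) : ∃ ι G, IsExactLagEmbedding 11 ι ∧
    C.In ι Φ.ρ Φ.r Φ.w (Φ.R + 2) G :=
  let ⟨ι, _, k⟩ := h Φ; ⟨ι, _, k.emb, k.toC⟩

end Crest.Agent.N218.A
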