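import Crest.Agent.N218.A.Rs0
import Crest.Agent.N218.A.Emb
import Crest.Agent.N218.A.ToC
import Crest.Agent.N218.C.Df2

/-!
# Row 218 (helper86): the homotopies `k_s` (downward flow) and `r_s` (from the identity to `r`)
-/

set_option autoImplicit false
open Set Filter Topology
open scoped ContDiff RealInnerProductSpace
open Crest.GeometryTopology.CotangentSpheres

noncomputable section

namespace Crest.Agent.N218.A

namespace Rs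

variable {X Y : Type} [NormedAddCommGroup X] [NormedSpace ℝ X] [NormedAddCommGroup Y]
  [InnerProductSpace ℝ Y] [FiniteDimensional ℝ Y]

/-- flow down, then undo the flow under `r` -/
def rsOf (r : X × Y → Y) (k : ℝ × X × Y → Y) (z : ℝ × X × Y) : Y :=
  k (min (2 * z.1) 1, z.2) + (r (z.2.1, k (min (2 - 2 * z.1) 1, z.2)) - r (z.2.1, k (1, z.2)))

/-- a homotopy from the identity to `r` on `{ρ ≤ w}` -/
structure Ho (ρ : X × Y → ℝ) (r : X × Y → Y) (w : ℝ) (S : Set X) (h : ℝ × X × Y → Y) : Prop where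
  co : Continuous h
  ze : ∀ x y, h (0, x, y) = y
  on : ∀ x ∈ S, ∀ y, ρ (x, y) ≤ w → h (1, x, y) = r (x, y)
  id : ∀ s, ∀ x ∈ S, ∀ y, ρ (x, y) ≤ 0 → h (s, x, y) = y
  le : ∀ s ∈ Icc (0 : ℝ) 1, ∀ x ∈ S, ∀ y, ρ (x, y) ≤ w → ρ (x, h (s, x, y)) ≤ ρ (x, y)
  lt : ∀ s ∈ Ioc (0 : ℝ) 1, ∀ x ∈ S, ∀ y, 0 < ρ (x, y) → ρ (x, y) ≤ w →
    ρ (x, h (s, x, y)) < ρ (x, y)

variable {ρ : X × Y → ℝ} {r : X × Y → Y} {w C : ℝ} {S : Set X} {k : ℝ × X × Y → Y}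

theorem Dn.le (h : Dn ρ w S k C) {s : ℝ} (hs : s ∈ Icc (0 : ℝ) 1) {x : X} (hx : x ∈ S) {y : Y}
    (a : ρ (x, y) ≤ w) : ρ (x, k (s, x, y)) ≤ ρ (x, y) := by
  rw [h.ro s hs x hx y a]; exact sub_le_self _ (mul_nonneg hs.1 (le_max_right _ _))

theorem Dn.one (h : Dn ρ w S k C) {x : X} (hx : x ∈ S) {y : Y} (a : ρ (x, y) ≤ w) :
    ρ (x, k (1, x, y)) ≤ 0 := by
  rw [h.ro 1 (by simp) x hx y a, one_mul, sub_nonpos]; exact le_max_left _ _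

omit [NormedSpace ℝ X] [InnerProductSpace ℝ Y] [FiniteDimensional ℝ Y] [NormedAddCommGroup X] in
theorem rsOf_lo {s : ℝ} (hs : s ≤ 1 / 2) (x : X) (y : Y) : rsOf r k (s, x, y) = k (2 * s, x, y) := by
  simp only [rsOf]
  rw [min_eq_left (by linarith), min_eq_right (by linarith), sub_self, add_zero]

theorem Dn.hi (h : Dn ρ w S k C) (fix : ∀ x ∈ S, ∀ y, ρ (x, y) ≤ 0 → r (x, y) = y) {s : ℝ}
    (hs : 1 / 2 ≤ s) {x : X} (hx : x ∈ S) {y : Y} (a : ρ (x, y) ≤ w) :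
    rsOf r k (s, x, y) = r (x, k (2 - 2 * s, x, y)) := by
  simp only [rsOf]
  rw [min_eq_right (by linarith), min_eq_left (by linarith), fix x hx _ (h.one hx a)]
  abel

/-- every function that decreases under `k` and `r` decreases under `rsOf r k` -/
theorem Dn.mono_rs (h : Dn ρ w S k C) (fix : ∀ x ∈ S, ∀ y, ρ (x, y) ≤ 0 → r (x, y) = y) {x : X}
    (hx : x ∈ S) {G : Y → ℝ} (h1 : ∀ s ∈ Icc (0 : ℝ) 1, ∀ y, ρ (x, y) ≤ w → G (k (s, x, y)) ≤ G y)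
    (h2 : ∀ y, ρ (x, y) ≤ w → G (r (x, y)) ≤ G y) {s : ℝ} (hs : s ∈ Icc (0 : ℝ) 1) {y : Y}
    (a : ρ (x, y) ≤ w) : G (rsOf r k (s, x, y)) ≤ G y := by
  rcases le_total s (1 / 2) with b | b
  · rw [rsOf_lo b]; exact h1 _ ⟨by linarith [hs.1], by linarith⟩ y a
  have c : 2 - 2 * s ∈ Icc (0 : ℝ) 1 := ⟨by linarith [hs.2], by linarith⟩
  rw [h.hi fix b hx a]
  exact (h2 _ ((h.le c hx a).trans a)).trans (h1 _ c y a)

theorem Dn.ho (h : Dn ρ w S k C) (hr : Continuous r)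
    (fix : ∀ x ∈ S, ∀ y, ρ (x, y) ≤ 0 → r (x, y) = y)
    (dec : ∀ x ∈ S, ∀ y, 0 < ρ (x, y) → ρ (x, y) ≤ w → ρ (x, r (x, y)) < ρ (x, y)) :
    Ho ρ r w S (rsOf r k) := by
  have := h.co
  have rl : ∀ x ∈ S, ∀ y, ρ (x, y) ≤ w → ρ (x, r (x, y)) ≤ ρ (x, y) := fun x hx y a => by
    rcases le_or_gt (ρ (x, y)) 0 with b | b
    · rw [fix x hx y b]
    · exact (dec x hx y b a).le
  refine ⟨by unfold rsOf; fun_prop, fun x y => by rw [rsOf_lo (by norm_num), mul_zero, h.ze],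
    fun x hx y a => by rw [h.hi fix (by norm_num) hx a, mul_one, sub_self, h.ze],
    fun s x _ y a => by simp [rsOf, h.id _ x y a], fun s hs x hx y a =>
      h.mono_rs fix hx (G := fun y => ρ (x, y)) (fun s hs y a => h.le hs hx a) (rl x hx) hs a,
    fun s hs x hx y a b => ?_⟩
  rcases le_total s (1 / 2) with c | c
  · rw [rsOf_lo c, h.ro _ ⟨by linarith [hs.1], by linarith⟩ x hx y b, max_eq_left a.le]
    nlinarith [mul_pos hs.1 a]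
  have d : 2 - 2 * s ∈ Icc (0 : ℝ) 1 := ⟨by linarith [hs.2], by linarith⟩
  have e := h.le d hx b
  rw [h.hi fix c hx b]
  rcases le_or_gt (ρ (x, k (2 - 2 * s, x, y))) 0 with f | f
  · rw [fix x hx _ f]; exact f.trans_lt a
  · exact (dec x hx _ f (e.trans b)).trans_le e

/-- equivariance of `rsOf` -/
theorem Dn.eq_rs (h : Dn ρ w S k C) {x x' : X} (A : Y ≃ₗᵢ[ℝ] Y) (e : ∀ y, ρ (x', A y) = ρ (x, y))
    (e' : ∀ y, r (x', A y) = A (r (x, y))) (s : ℝ) (y : Y) :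
    rsOf r k (s, x', A y) = A (rsOf r k (s, x, y)) := by
  simp only [rsOf, h.eq x x' A e, e', map_add, map_sub]

end Rs

/-- `G0` decreases under the family `h` -/
def Dec (G0 : C.V × C.Y → ℝ) (ρ : C.X × C.Y → ℝ) (w : ℝ) (h : ℝ × C.X × C.Y → C.Y) : Prop :=
  ∀ s ∈ Icc (0 : ℝ) 1, ∀ q ∈ C.Us, ∀ y, ρ ((C.nn q).2, y) ≤ w →
    G0 (q, h (s, (C.nn q).2, y)) ≤ G0 (q, y)

/-- `γ` decreases under the family `h` -/
def DecG {Z : Type} (ρ : C.X × C.Y → ℝ) (w : ℝ) (ξ : C.X × Z → C.X) (γ : C.X × C.Fb Z → ℝ)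
    (h : ℝ × C.X × C.Y → C.Y) : Prop :=
  ∀ s ∈ Icc (0 : ℝ) 1, ∀ x z y, ‖x‖ = 1 → ρ (ξ (x, z), y) ≤ w →
    γ (x, WithLp.toLp 2 (h (s, ξ (x, z), y), z)) ≤ γ (x, WithLp.toLp 2 (y, z))

theorem Dec.uni {Z : Type} {G0 : C.V × C.Y → ℝ} {ρ : C.X × C.Y → ℝ} {w : ℝ}
    {h : ℝ × C.X × C.Y → C.Y} (d : Dec G0 ρ w h) {ξ : C.X × Z → C.X} {γ : C.X × C.Fb Z → ℝ}
    (u : C.Uni G0 ξ γ) : DecG ρ w ξ γ h :=
  fun s hs x z y hx a => u x z y _ hx fun q hq e => by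
    rw [← e] at a ⊢; exact d s hs q hq y a

theorem Fam.exists_dn (Φ : Fam) : ∃ k C, 0 ≤ C ∧ Rs.Dn Φ.ρ Φ.w (Metric.sphere 0 1) k C :=
  Rs.exists_dn Φ.ρ_smooth (isCompact_sphere _ _)
    (fun x hx y a b => Φ.reg x y (by simpa using hx) (by rwa [abs_of_nonneg a]))
    fun x hx y a => (Φ.bdd x y (by simpa using hx) a).le

theorem Fam.ho (Φ : Fam) {k : ℝ × Eu 11 × Eu 9 → Eu 9} {c : ℝ}
    (h : Rs.Dn Φ.ρ Φ.w (Metric.sphere 0 1) k c) :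
    Rs.Ho Φ.ρ Φ.r Φ.w (Metric.sphere 0 1) (Rs.rsOf Φ.r k) :=
  h.ho Φ.r_smooth.continuous (fun x hx y => Φ.r_id x y (by simpa using hx))
    fun x hx => (Φ.r_lt x · (by simpa using hx))

theorem Fam.dec {Φ : Fam} {ι : Sph 9 × Sph 11 → Amb 11} {G : VQ × Eu 9 → ℝ} (o : Φ.Out ι G)
    (l : Φ.Col G) {k : ℝ × Eu 11 × Eu 9 → Eu 9} {c : ℝ}
    (h : Rs.Dn Φ.ρ Φ.w (Metric.sphere 0 1) k c) :
    Dec (fun x => G (C.nn x.1, x.2)) Φ.ρ Φ.w k ∧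
      Dec (fun x => G (C.nn x.1, x.2)) Φ.ρ Φ.w (Rs.rsOf Φ.r k) := by
  have m : ∀ q ∈ C.Us, (C.nn q).2 ∈ Metric.sphere (0 : Eu 11) 1 := fun q hq => by
    simpa using (C.nn_norm hq).2
  have d := o.smooth.differentiable (by simp)
  have a : Dec (fun x => G (C.nn x.1, x.2)) Φ.ρ Φ.w k := fun s hs q hq y b =>
    h.mo _ (m q hq) (fun y => G (C.nn q, y)) (by fun_prop) (fun y i j => by
      rw [← Rs.vgr_eq Φ.ρ_smooth]
      exact (l _ y (C.nn_norm hq) i j).trans_eq (ContinuousLinearMap.ext_iff.1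
        ((d (C.nn q, y)).hasFDerivAt.comp y (hasFDerivAt_prodMk_right (C.nn q) y)).fderiv _).symm) s hs y b
  exact ⟨a, fun s hs q hq y b => h.mono_rs (fun x hx y => Φ.r_id x y (by simpa using hx)) (m q hq)
    (G := fun y => G (C.nn q, y)) (fun s hs => a s hs q hq) (o.mono _ · (C.nn_norm hq)) hs b⟩

/-- **blocks A0 and C together**: the embedding, and the dynamics of an isotopy -/
def AC : Prop := ∀ Φ : Fam, ∃ ι, IsExactLagEmbedding 11 ι ∧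
  ∀ F, C.Iso F → F 0 = zeroSection 11 → range (F 1) = range ι →
    ∃ (M : ℕ) (c : ℝ) (B : C.Eu M →L[ℝ] C.Eu M) (ξ : _) (γ : _) (gr : _) (zz : _)
      (k : ℝ × Eu 11 × Eu 9 → Eu 9) (c' : ℝ),
      C.Dyn Φ.ρ Φ.r Φ.w c B ξ γ gr zz ∧ (∀ x p, ‖x‖ = 1 → |γ (x, p)| ≤ c) ∧ 0 ≤ c' ∧
      Rs.Dn Φ.ρ Φ.w (Metric.sphere 0 1) k c' ∧ DecG Φ.ρ Φ.w ξ γ k ∧
      DecG Φ.ρ Φ.w ξ γ (Rs.rsOf Φ.r k)

theorem ac_of (hL : LAG) (hP : PAR) (hC : C.CM2) : AC := fun Φ => by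
  obtain ⟨ι, G, o, -, l⟩ := a0x_of hL hP Φ
  obtain ⟨k, c', h0, h⟩ := Φ.exists_dn
  refine ⟨ι, o.emb, fun F a b c => ?_⟩
  obtain ⟨M, c, B, ξ, γ, gr, zz, d, u, e⟩ := hC _ _ _ _ _ _ F o.toC a b c
  exact ⟨M, c, B, ξ, γ, gr, zz, k, c', d, e, h0, h, (Fam.dec o l h).1.uni u, (Fam.dec o l h).2.uni u⟩

end Crest.Agent.N218.A
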