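import Crest.Agent.N218.A.Dt

/-!
# Row 218 (helper86): the downward flow across the collar `0 ≤ ρ ≤ w`
-/

set_option autoImplicit false
open Set Filter Topology
open scoped ContDiff RealInnerProductSpace

noncomputable section

namespace Crest.Agent.N218.A.Rs

variable {X Y : Type} [NormedAddCommGroup X] [NormedSpace ℝ X] [NormedAddCommGroup Y]
  [InnerProductSpace ℝ Y] [FiniteDimensional ℝ Y]

/-- the vertical gradient -/
def vgr (ρ : X × Y → ℝ) (p : X × Y) : Y :=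
  ∑ i, fderiv ℝ ρ p (0, stdOrthonormalBasis ℝ Y i) • stdOrthonormalBasis ℝ Y i

theorem inner_vgr (ρ : X × Y → ℝ) (p : X × Y) (v : Y) : ⟪vgr ρ p, v⟫ = fderiv ℝ ρ p (0, v) := by
  have e : (((0 : X), v) : X × Y) =
      ∑ i, ⟪stdOrthonormalBasis ℝ Y i, v⟫ • ((0 : X), stdOrthonormalBasis ℝ Y i) := by
    refine Prod.ext (by simp [Prod.fst_sum]) ?_
    simp [Prod.snd_sum, (stdOrthonormalBasis ℝ Y).sum_repr']
  rw [e, map_sum, vgr, sum_inner]
  refine Finset.sum_congr rfl fun i _ => ?_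
  rw [map_smul, real_inner_smul_left, smul_eq_mul, mul_comm]

theorem vgr_smooth {ρ : X × Y → ℝ} (h : ContDiff ℝ ∞ ρ) : ContDiff ℝ ∞ (vgr ρ) :=
  ContDiff.sum fun _ _ =>
    ((h.fderiv_right (m := ∞) (by simp)).clm_apply contDiff_const).smul contDiff_const

theorem has_slice {ρ : X × Y → ℝ} (h : ContDiff ℝ ∞ ρ) (x : X) (y : Y) :
    HasFDerivAt (fun y => ρ (x, y)) (innerSL ℝ (vgr ρ (x, y))) y :=
  ((h.differentiable (by simp) (x, y)).hasFDerivAt.comp y
    (hasFDerivAt_prodMk_right x y)).congr_fderiv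
    (ContinuousLinearMap.ext fun v => (inner_vgr ρ (x, y) v).symm)

theorem vgr_eq [CompleteSpace Y] {ρ : X × Y → ℝ} (h : ContDiff ℝ ∞ ρ) (x : X) (y : Y) :
    gradient (fun y => ρ (x, y)) y = vgr ρ (x, y) :=
  (hasGradientAt_iff_hasFDerivAt.2 (has_slice h x y)).gradient

/-- `1 / t`, cut off below `m` -/
def iv (m t : ℝ) : ℝ := Real.smoothTransition (2 * t / m - 1) * t⁻¹

theorem iv_zero {m t : ℝ} (hm : 0 < m) (h : t ≤ m / 2) : iv m t = 0 := by
  rw [iv, Real.smoothTransition.zero_of_nonpos, zero_mul]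
  rw [sub_nonpos, div_le_one hm]; linarith

theorem iv_smooth {m : ℝ} (hm : 0 < m) : ContDiff ℝ ∞ (iv m) := by
  refine contDiff_iff_contDiffAt.2 fun t => ?_
  rcases lt_or_ge t (m / 2) with h | h
  · refine (contDiffAt_const (c := (0 : ℝ))).congr_of_eventuallyEq ?_
    filter_upwards [Iio_mem_nhds h] with s hs using iv_zero hm (le_of_lt hs)
  · exact (Real.smoothTransition.contDiff.comp (by fun_prop)).contDiffAt.mul
      (contDiffAt_id.inv (by simp only [id]; linarith : 0 < id t).ne')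

theorem iv_nonneg (m : ℝ) {t : ℝ} (h : 0 ≤ t) : 0 ≤ iv m t :=
  mul_nonneg (Real.smoothTransition.nonneg _) (inv_nonneg.2 h)

theorem iv_mul_le (m : ℝ) (t : ℝ) : iv m t * t ≤ 1 := by
  rcases eq_or_ne t 0 with rfl | h
  · simp
  rw [iv, mul_assoc, inv_mul_cancel₀ h, mul_one]; exact Real.smoothTransition.le_one _

theorem iv_mul {m t : ℝ} (hm : 0 < m) (h : m ≤ t) : iv m t * t = 1 := by
  rw [iv, mul_assoc, inv_mul_cancel₀ (by linarith), mul_one, Real.smoothTransition.one_of_one_le]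
  rw [le_sub_iff_add_le, le_div_iff₀ hm]; linarith

theorem iv_bd {m : ℝ} (hm : 0 < m) (a : ℝ) : iv m (a ^ 2) * a ≤ 1 + 2 / m := by
  have i := iv_mul_le m (a ^ 2)
  have j := iv_nonneg m (sq_nonneg a)
  have k : 0 < 2 / m := by positivity
  rcases le_total (a ^ 2) (m / 2) with l | l
  · rw [iv_zero hm l]; linarith
  have : iv m (a ^ 2) ≤ 2 / m := by
    rw [le_div_iff₀ hm]; nlinarith
  nlinarith [sq_nonneg (a - 1), mul_nonneg j (sq_nonneg (a - 1))]

/-- what the downward flow delivers -/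
structure Dn (ρ : X × Y → ℝ) (w : ℝ) (S : Set X) (k : ℝ × X × Y → Y) (C : ℝ) : Prop where
  co : Continuous k
  ze : ∀ x y, k (0, x, y) = y
  id : ∀ s x y, ρ (x, y) ≤ 0 → k (s, x, y) = y
  nr : ∀ s x y, ‖k (s, x, y) - y‖ ≤ C * (|s| * max (ρ (x, y)) 0)
  ro : ∀ s ∈ Icc (0 : ℝ) 1, ∀ x ∈ S, ∀ y, ρ (x, y) ≤ w →
    ρ (x, k (s, x, y)) = ρ (x, y) - s * max (ρ (x, y)) 0
  mo : ∀ x ∈ S, ∀ G : Y → ℝ, Differentiable ℝ G →
    (∀ y, 0 ≤ ρ (x, y) → ρ (x, y) ≤ w → 0 ≤ fderiv ℝ G y (vgr ρ (x, y))) →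
    ∀ s ∈ Icc (0 : ℝ) 1, ∀ y, ρ (x, y) ≤ w → G (k (s, x, y)) ≤ G y
  eq : ∀ (x x' : X) (A : Y ≃ₗᵢ[ℝ] Y), (∀ y, ρ (x', A y) = ρ (x, y)) →
    ∀ s y, k (s, x', A y) = A (k (s, x, y))

theorem vgr_eqv {ρ : X × Y → ℝ} (h : ContDiff ℝ ∞ ρ) {x x' : X} (A : Y ≃ₗᵢ[ℝ] Y)
    (e : ∀ y, ρ (x', A y) = ρ (x, y)) (y : Y) : vgr ρ (x', A y) = A (vgr ρ (x, y)) := by
  have a := ((has_slice h x' (A y)).comp y
    (A.toContinuousLinearEquiv : Y →L[ℝ] Y).hasFDerivAt).unique
    ((has_slice h x y).congr_of_eventuallyEq (Eventually.of_forall e))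
  refine ext_inner_right ℝ fun v => ?_
  obtain ⟨v, rfl⟩ := A.surjective v
  rw [A.inner_map_map]
  exact ContinuousLinearMap.ext_iff.1 a v

theorem exists_dn [FiniteDimensional ℝ X] {ρ : X × Y → ℝ} (h : ContDiff ℝ ∞ ρ) {w R : ℝ}
    {S : Set X} (hS : IsCompact S)
    (reg : ∀ x ∈ S, ∀ y, 0 ≤ ρ (x, y) → ρ (x, y) ≤ w → ∃ v, fderiv ℝ ρ (x, y) (0, v) ≠ 0)
    (bdd : ∀ x ∈ S, ∀ y, ρ (x, y) ≤ w → ‖y‖ ≤ R) : ∃ k C, 0 ≤ C ∧ Dn ρ w S k C := by
  have hg := vgr_smooth h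
  have hK : IsCompact ((S ×ˢ Metric.closedBall (0 : Y) R) ∩ ρ ⁻¹' Icc 0 w) :=
    (hS.prod (isCompact_closedBall _ _)).inter_right (isClosed_Icc.preimage h.continuous)
  obtain ⟨m, hm, lo⟩ := hK.exists_forall_le' (f := fun p => ‖vgr ρ p‖ ^ 2) (a := 0)
    (hg.continuous.norm.pow 2).continuousOn fun p hp => by
      obtain ⟨v, hv⟩ := reg p.1 hp.1.1 p.2 hp.2.1 hp.2.2
      refine sq_pos_of_pos (norm_pos_iff.2 fun e => hv ?_)
      rw [← inner_vgr, show vgr ρ (p.1, p.2) = 0 from e, inner_zero_left]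
  let u : X × Y → Y := fun p => -(iv m (‖vgr ρ p‖ ^ 2) • vgr ρ p)
  have us : ContDiff ℝ ∞ u := (((iv_smooth hm).comp (hg.norm_sq ℝ)).smul hg).neg
  have ub : ∀ p, ‖u p‖ ≤ 1 + 2 / m := fun p => by
    rw [norm_neg, norm_smul, Real.norm_of_nonneg (iv_nonneg _ (sq_nonneg _))]
    exact iv_bd hm _
  have vs : ContDiff ℝ ∞ fun p : X × Y => ((0 : X), u p) := contDiff_const.prodMk us
  obtain ⟨F, Fs, F0, Fd, -⟩ := Par.exists_flow vs (C := 1 + 2 / m) fun p => by
    rw [Prod.norm_mk, norm_zero, max_eq_right (norm_nonneg _)]; exact ub p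
  have F1 : ∀ p t, (F (p, t)).1 = p.1 := fun p t => by
    rw [Par.const_of_deriv (f := fun t => (F (p, t)).1) (fun t => (Fd p t).fst) t 0, F0]
  have Fe : ∀ x y t, F ((x, y), t) = (x, (F ((x, y), t)).2) := fun x y t => Prod.ext (F1 _ _) rfl
  have F2 : ∀ x y t, HasDerivAt (fun t => (F ((x, y), t)).2) (u (x, (F ((x, y), t)).2)) t :=
    fun x y t => by rw [← Fe]; exact (Fd _ t).snd
  have rd : ∀ x y t, HasDerivAt (fun t => ρ (x, (F ((x, y), t)).2))
      (-(iv m (‖vgr ρ (x, (F ((x, y), t)).2)‖ ^ 2) * ‖vgr ρ (x, (F ((x, y), t)).2)‖ ^ 2)) t :=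
    fun x y t => ((has_slice h x _).comp_hasDerivAt t (F2 x y t)).congr_deriv (by
      simp [u, inner_smul_right])
  have up : ∀ x y t, 0 ≤ t → ρ (x, (F ((x, y), t)).2) ≤ ρ (x, y) := fun x y t ht => by
    have := antitone_of_hasDerivAt_nonpos (rd x y) (fun t => neg_nonpos.2
      (mul_nonneg (iv_nonneg _ (sq_nonneg _)) (sq_nonneg _))) ht
    simpa [F0] using this
  have dn : ∀ x y t, 0 ≤ t → ρ (x, y) - t ≤ ρ (x, (F ((x, y), t)).2) := fun x y t ht => by
    have := monotone_of_hasDerivAt_nonneg (fun t => (rd x y t).add (hasDerivAt_id t))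
      (fun t => by simpa using iv_mul_le m _) ht
    simpa [F0] using this
  have tm : ∀ s ∈ Icc (0 : ℝ) 1, ∀ a : ℝ, 0 < a → s * max a 0 ∈ Icc 0 a := fun s hs a ha => by
    rw [max_eq_left ha.le]; exact ⟨mul_nonneg hs.1 ha.le, mul_le_of_le_one_left ha.le hs.2⟩
  have kid : ∀ (s : ℝ) x y, ρ (x, y) ≤ 0 → (F ((x, y), s * max (ρ (x, y)) 0)).2 = y :=
    fun s x y a => by rw [max_eq_right a, mul_zero, F0]
  refine ⟨fun z => (F (z.2, z.1 * max (ρ z.2) 0)).2, 1 + 2 / m, by positivity,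
    (Fs.continuous.comp (continuous_snd.prodMk (continuous_fst.mul
      ((h.continuous.comp continuous_snd).max continuous_const)))).snd,
    fun x y => by simp [F0], kid, fun s x y => ?_, fun s hs x hx y a => ?_,
    fun x hx G hG c s hs y a => ?_, fun x x' A e s y => ?_⟩
  · have := convex_univ.norm_image_sub_le_of_norm_hasDerivWithin_le (C := 1 + 2 / m)
      (fun t _ => (F2 x y t).hasDerivWithinAt) (fun t _ => ub _) (mem_univ 0)
      (mem_univ (s * max (ρ (x, y)) 0))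
    simpa [F0, abs_of_nonneg (le_max_right (ρ (x, y)) 0)] using this
  · rcases le_or_gt (ρ (x, y)) 0 with b | b
    · simp only [max_eq_right b, mul_zero, sub_zero, F0]
    have := (convex_Icc 0 (ρ (x, y))).norm_image_sub_le_of_norm_hasDerivWithin_le (C := 0)
      (fun t _ => ((rd x y t).add (hasDerivAt_id t)).hasDerivWithinAt) (fun t ht => by
        have i := (up x y t ht.1).trans a
        rw [iv_mul hm (lo (x, _) ⟨⟨hx, mem_closedBall_zero_iff.2 (bdd x hx _ i)⟩,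
          (sub_nonneg.2 ht.2).trans (dn x y t ht.1), i⟩)]
        simp) (left_mem_Icc.2 b.le) (tm s hs _ b)
    simp only [Pi.add_apply, F0, id, zero_mul, norm_le_zero_iff] at this
    linarith
  · rcases le_or_gt (ρ (x, y)) 0 with b | b
    · simp only [kid s x y b, le_refl]
    have d := fun t => (hG _).hasFDerivAt.comp_hasDerivAt t (F2 x y t)
    have := antitoneOn_of_hasDerivWithinAt_nonpos (convex_Icc 0 (ρ (x, y)))
      (fun t _ => (d t).continuousAt.continuousWithinAt) (fun t _ => (d t).hasDerivWithinAt)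
      (fun t ht => by
        have ht := interior_subset ht
        simp only [u, map_neg, map_smul, smul_eq_mul, neg_nonpos]
        exact mul_nonneg (iv_nonneg _ (sq_nonneg _))
          (c _ ((sub_nonneg.2 ht.2).trans (dn x y t ht.1)) ((up x y t ht.1).trans a)))
      (left_mem_Icc.2 b.le) (tm s hs _ b) (tm s hs _ b).1
    simpa [F0] using this
  · have := Par.flow_unique vs (Fd (x', A y)) (c' := fun t => (x', A (F ((x, y), t)).2))
      (fun t => ((hasDerivAt_const t x').prodMk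
        ((A.toContinuousLinearEquiv : Y →L[ℝ] Y).hasFDerivAt.comp_hasDerivAt t
          (F2 x y t))).congr_deriv (by simp [u, vgr_eqv h A e])) (by simp [F0])
    simp only [e, this]

end Crest.Agent.N218.A.Rs
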