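import Crest.Agent.N218.A.Sh

/-! Octonions and the linear model problems (helper3). -/

set_option autoImplicit false
open Set Function
open scoped ContDiff

namespace Crest.Agent.N218.Sh.Sg

noncomputable def o0 (a b : E 8) : E 8 := !₂[
  a 0 * b 0 - a 1 * b 1 - a 2 * b 2 - a 3 * b 3 - a 4 * b 4 - a 5 * b 5 - a 6 * b 6 - a 7 * b 7,
  a 0 * b 1 + a 1 * b 0 + a 2 * b 3 - a 3 * b 2 + a 4 * b 5 - a 5 * b 4 - a 6 * b 7 + a 7 * b 6,
  a 0 * b 2 - a 1 * b 3 + a 2 * b 0 + a 3 * b 1 + a 4 * b 6 + a 5 * b 7 - a 6 * b 4 - a 7 * b 5,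
  a 0 * b 3 + a 1 * b 2 - a 2 * b 1 + a 3 * b 0 + a 4 * b 7 - a 5 * b 6 + a 6 * b 5 - a 7 * b 4,
  a 0 * b 4 - a 1 * b 5 - a 2 * b 6 - a 3 * b 7 + a 4 * b 0 + a 5 * b 1 + a 6 * b 2 + a 7 * b 3,
  a 0 * b 5 + a 1 * b 4 - a 2 * b 7 + a 3 * b 6 - a 4 * b 1 + a 5 * b 0 - a 6 * b 3 + a 7 * b 2,
  a 0 * b 6 + a 1 * b 7 + a 2 * b 4 - a 3 * b 5 - a 4 * b 2 + a 5 * b 3 + a 6 * b 0 - a 7 * b 1,
  a 0 * b 7 - a 1 * b 6 + a 2 * b 5 + a 3 * b 4 - a 4 * b 3 - a 5 * b 2 + a 6 * b 1 + a 7 * b 0]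

noncomputable def oL : E 8 →ₗ[ℝ] E 8 →ₗ[ℝ] E 8 :=
  LinearMap.mk₂ ℝ o0
    (fun a a' b => by ext i; fin_cases i <;> simp [o0] <;> ring)
    (fun c a b => by ext i; fin_cases i <;> simp [o0] <;> ring)
    (fun a b b' => by ext i; fin_cases i <;> simp [o0] <;> ring)
    (fun c a b => by ext i; fin_cases i <;> simp [o0] <;> ring)

theorem oct : ∃ (n m : E 8 →L[ℝ] E 8 →L[ℝ] E 8) (e : E 8), ‖e‖ = 1 ∧ (∀ x, n (-e) x = x) ∧
    (∀ s x, ‖n s x‖ = ‖s‖ * ‖x‖) ∧ (∀ s x, ‖m s x‖ = ‖s‖ * ‖x‖) ∧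
    ∀ s x, ‖s‖ = 1 → n s (m s x) = -x := by
  let n : E 8 →L[ℝ] E 8 →L[ℝ] E 8 := oL.toContinuousBilinearMap
  have hn : ∀ a b, n a b = o0 a b := fun a b => rfl
  let e1 : E 8 := EuclideanSpace.single 0 1
  let c : E 8 →L[ℝ] E 8 := ContinuousLinearMap.id ℝ _ - (2:ℝ) • (innerSL ℝ e1).smulRight e1
  have hc : ∀ s : E 8, c s = !₂[-s 0, s 1, s 2, s 3, s 4, s 5, s 6, s 7] := fun s => by
    ext i; fin_cases i <;> simp [c, e1, EuclideanSpace.inner_single_left] <;> ring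
  have nn : ∀ s x, ‖n s x‖ = ‖s‖ * ‖x‖ := fun s x => by
    rw [← sq_eq_sq₀ (norm_nonneg _) (by positivity), mul_pow]
    simp only [EuclideanSpace.real_norm_sq_eq, Fin.sum_univ_eight, hn, o0]
    simp
    ring
  refine ⟨n, n ∘L c, -e1, by simp [e1], fun x => ?_, nn, fun s x => ?_, fun s x hs => ?_⟩
  · rw [neg_neg, hn]
    ext i; fin_cases i <;> simp [o0, e1]
  · rw [ContinuousLinearMap.comp_apply, nn, hc]
    congr 1
    rw [← sq_eq_sq₀ (norm_nonneg _) (norm_nonneg _)]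
    simp [EuclideanSpace.real_norm_sq_eq, Fin.sum_univ_eight]
  · have h : s 0 ^ 2 + s 1 ^ 2 + s 2 ^ 2 + s 3 ^ 2 + s 4 ^ 2 + s 5 ^ 2 + s 6 ^ 2 + s 7 ^ 2 = 1 := by
      have := EuclideanSpace.real_norm_sq_eq s
      rw [hs, Fin.sum_univ_eight] at this
      linarith
    rw [ContinuousLinearMap.comp_apply, hc, hn, hn]
    ext i
    fin_cases i <;> simp [o0]
    · linear_combination (-x 0) * h
    · linear_combination (-x 1) * h
    · linear_combination (-x 2) * h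
    · linear_combination (-x 3) * h
    · linear_combination (-x 4) * h
    · linear_combination (-x 5) * h
    · linear_combination (-x 6) * h
    · linear_combination (-x 7) * h

abbrev Y := E 8
abbrev X := E 8 × E 3
abbrev B := (ℝ × E 3) × E 8

/-- normalisation -/
noncomputable def nr (y : Y) : Y := ‖y‖⁻¹ • y

theorem nr_norm {y : Y} (h : y ≠ 0) : ‖nr y‖ = 1 := by
  simp [nr, norm_smul, h]

theorem nr_unit {y : Y} (h : ‖y‖ = 1) : nr y = y := by simp [nr, h]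

theorem nr_smooth : ContDiffOn ℝ ∞ nr {y | y ≠ 0} := fun y hy =>
  (((contDiffAt_norm ℝ hy).inv (norm_ne_zero_iff.2 hy)).smul contDiffAt_id).contDiffWithinAt

theorem ne0 {y : Y} (h : ‖y‖ = 1) : y ≠ 0 := fun e => by simp [e] at h

noncomputable def Ln (σ : Y) (u : X) (ρ : ℝ) : B :=
  ((inner ℝ σ u.1, u.2), ρ • σ - (u.1 - inner ℝ σ u.1 • σ))

theorem Ln_zero {σ : Y} (h : ‖σ‖ = 1) {u : X} {ρ : ℝ} (h0 : Ln σ u ρ = 0) : u = 0 ∧ ρ = 0 := by
  simp only [Ln, Prod.mk_eq_zero] at h0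
  obtain ⟨⟨h1, h2⟩, h3⟩ := h0
  rw [h1, zero_smul, sub_zero, sub_eq_zero] at h3
  have : ρ = 0 := by
    rw [← h3, inner_smul_right, real_inner_self_eq_norm_sq, h] at h1
    simpa using h1
  exact ⟨Prod.ext (by rw [← h3, this]; simp) h2, this⟩

/-- the model problem of a formal immersion -/
noncomputable def Pb (f : Y → X) (M : Y → X →L[ℝ] X) : Set (X × Y) × (X × Y → B) :=
  ({z | z.2 ≠ 0}, fun z => Ln (nr z.2) (Ring.inverse (M (nr z.2)) (z.1 - f (nr z.2))) (‖z.2‖ - 1))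

theorem hb0 {h0 h1 : X × Y → B} (h : ℝ × (X × Y) → B) (F : ℝ × Y → X)
    (hF : ContinuousOn F (Icc 0 1 ×ˢ Metric.sphere 0 1))
    (hc : ContinuousOn h {z | z.2.2 ≠ 0})
    (hz : ∀ s ∈ Icc (0:ℝ) 1, ∀ z : X × Y, z.2 ≠ 0 → h (s, z) = 0 → ‖z.2‖ = 1 ∧ z.1 = F (s, z.2))
    (e0 : ∀ z : X × Y, z.2 ≠ 0 → h (0, z) = h0 z) (e1 : ∀ z : X × Y, z.2 ≠ 0 → h (1, z) = h1 z) :
    Hb ({z | z.2 ≠ 0}, h0) ({z | z.2 ≠ 0}, h1) := by
  refine ⟨{z | z.2.2 ≠ 0}, h, isOpen_ne_fun (by fun_prop) continuous_const, hc, ?_,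
    fun a ha => ⟨ha, e0 a ha⟩, fun a ha _ => ha, fun a ha => ⟨ha, e1 a ha⟩, fun a ha _ => ha⟩
  have c1 : IsCompact ((fun w : ℝ × Y => (w.1, (F w, w.2))) '' (Icc 0 1 ×ˢ Metric.sphere 0 1)) :=
    (isCompact_Icc.prod (isCompact_sphere _ _)).image_of_continuousOn
      (continuousOn_fst.prodMk (hF.prodMk continuousOn_snd))
  have sub : ((fun w : ℝ × Y => (w.1, (F w, w.2))) '' (Icc 0 1 ×ˢ Metric.sphere 0 1))
      ⊆ {z : ℝ × (X × Y) | z.2.2 ≠ 0} := by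
    rintro _ ⟨w, hw, rfl⟩
    exact ne0 (by simpa using hw.2)
  have c2 := c1.of_isClosed_subset
    ((hc.mono sub).preimage_isClosed_of_isClosed c1.isClosed (isClosed_singleton (x := (0 : B))))
    inter_subset_left
  convert c2 using 1
  ext ⟨s, z⟩
  constructor
  · rintro ⟨h1, h2, h3⟩
    obtain ⟨h4, h5⟩ := hz s h2 z h1 h3
    exact ⟨⟨(s, z.2), ⟨h2, by simpa using h4⟩, by simp [← h5]⟩, h3⟩
  · rintro ⟨⟨w, hw, e⟩, h3⟩
    refine ⟨sub ⟨w, hw, e⟩, ?_, h3⟩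
    have : w.1 = s := congrArg Prod.fst e
    exact this ▸ hw.1

theorem unit_of_inj {A : X →L[ℝ] X} (h : Injective A) : IsUnit A :=
  ContinuousLinearMap.isUnit_iff_bijective.2
    ⟨h, (LinearMap.injective_iff_surjective (f := A.toLinearMap)).1 h⟩

theorem inv_app {A : X →L[ℝ] X} (h : Injective A) (x : X) : Ring.inverse A (A x) = x := by
  have := Ring.inverse_mul_cancel A (unit_of_inj h)
  exact congrArg (fun T : X →L[ℝ] X => T x) this

theorem app_inv {A : X →L[ℝ] X} (h : Injective A) (x : X) : A (Ring.inverse A x) = x := by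
  have := Ring.mul_inverse_cancel A (unit_of_inj h)
  exact congrArg (fun T : X →L[ℝ] X => T x) this

theorem hbM (F : ℝ × Y → X) (M : ℝ × Y → X →L[ℝ] X)
    (hF : ContinuousOn F (Icc 0 1 ×ˢ Metric.sphere 0 1))
    (hM : ContinuousOn M (Icc 0 1 ×ˢ Metric.sphere 0 1))
    (hi : ∀ s ∈ Icc (0:ℝ) 1, ∀ σ, ‖σ‖ = 1 → Injective (M (s, σ)))
    {f0 f1 : Y → X} {M0 M1 : Y → X →L[ℝ] X}
    (e0 : ∀ σ, ‖σ‖ = 1 → F (0, σ) = f0 σ ∧ M (0, σ) = M0 σ)
    (e1 : ∀ σ, ‖σ‖ = 1 → F (1, σ) = f1 σ ∧ M (1, σ) = M1 σ) : Hb (Pb f0 M0) (Pb f1 M1) := by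
  let k : ℝ × (X × Y) → ℝ × Y := fun z => (projIcc (0:ℝ) 1 zero_le_one z.1, nr z.2.2)
  have n1 : ContinuousOn (fun z : ℝ × (X × Y) => nr z.2.2) {z | z.2.2 ≠ 0} :=
    nr_smooth.continuousOn.comp (by fun_prop) (fun z hz => hz)
  have kc : ContinuousOn k {z | z.2.2 ≠ 0} :=
    (continuous_subtype_val.comp (continuous_projIcc.comp continuous_fst)).continuousOn.prodMk n1
  have km : MapsTo k {z | z.2.2 ≠ 0} (Icc 0 1 ×ˢ Metric.sphere 0 1) := fun z hz =>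
    ⟨(projIcc (0:ℝ) 1 zero_le_one z.1).2, by simpa using nr_norm hz⟩
  have ks : ∀ s ∈ Icc (0:ℝ) 1, ∀ z, k (s, z) = (s, nr z.2) := fun s hs z => by
    simp [k, projIcc_of_mem _ hs]
  refine hb0 (fun z => Ln (nr z.2.2) (Ring.inverse (M (k z)) (z.2.1 - F (k z))) (‖z.2.2‖ - 1))
    F hF ?_ ?_ ?_ ?_
  · have c1 : ContinuousOn (fun z => Ring.inverse (M (k z))) {z | z.2.2 ≠ 0} := by
      intro z hz
      obtain ⟨u, hu⟩ := unit_of_inj (hi _ (km hz).1 _ (by simpa using (km hz).2))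
      have := NormedRing.inverse_continuousAt u
      rw [hu] at this
      exact ContinuousAt.comp_continuousWithinAt (f := fun z => M (k z)) this
        ((hM.comp kc km) z hz)
    have c2 : ContinuousOn (fun z : ℝ × (X × Y) => Ring.inverse (M (k z)) (z.2.1 - F (k z)))
        {z | z.2.2 ≠ 0} := c1.clm_apply ((by fun_prop : Continuous
          fun z : ℝ × (X × Y) => z.2.1).continuousOn.sub (hF.comp kc km))
    have c3 : ContinuousOn (fun z : ℝ × (X × Y) => ‖z.2.2‖ - 1) {z | z.2.2 ≠ 0} := by fun_prop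
    have c4 := ContinuousOn.inner (𝕜 := ℝ) n1 c2.fst
    exact (c4.prodMk c2.snd).prodMk ((c3.smul n1).sub (c2.fst.sub (c4.smul n1)))
  · intro s hs z hz h0
    rw [ks s hs] at h0
    obtain ⟨h1, h2⟩ := Ln_zero (nr_norm hz) h0
    have h3 : ‖z.2‖ = 1 := by linarith
    have := app_inv (hi s hs _ (nr_norm hz)) (z.1 - F (s, nr z.2))
    rw [h1, map_zero, nr_unit h3] at this
    exact ⟨h3, (sub_eq_zero.1 this.symm)⟩
  · intro z hz
    simp only [ks 0 ⟨le_rfl, zero_le_one⟩, e0 _ (nr_norm hz)]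
  · intro z hz
    simp only [ks 1 ⟨zero_le_one, le_rfl⟩, e1 _ (nr_norm hz)]

/-- the last rotation -/
theorem hb_hopf {n m : Y →L[ℝ] Y →L[ℝ] Y} (hn : ∀ s x, ‖n s x‖ = ‖s‖ * ‖x‖)
    (hm : ∀ s x, ‖s‖ = 1 → n s (m s x) = -x) :
    Hb (Pb (fun _ => 0) (fun σ => (n σ).prodMap (ContinuousLinearMap.id ℝ (E 3)))) (hopf m) := by
  let u : ℝ × (X × Y) → Y := fun z => -(((1 - z.1) + z.1 * ‖z.2.2‖) • m (nr z.2.2) z.2.1.1)
  let a : ℝ × (X × Y) → ℝ := fun z => inner ℝ (nr z.2.2) (u z)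
  have n1 : ContinuousOn (fun z : ℝ × (X × Y) => nr z.2.2) {z | z.2.2 ≠ 0} :=
    nr_smooth.continuousOn.comp (by fun_prop) (fun z hz => hz)
  have cu : ContinuousOn u {z | z.2.2 ≠ 0} :=
    ((by fun_prop : Continuous fun z : ℝ × (X × Y) => (1 - z.1) + z.1 * ‖z.2.2‖).continuousOn.smul
      ((m.continuous.comp_continuousOn n1).clm_apply (by fun_prop))).neg
  have ca : ContinuousOn a {z | z.2.2 ≠ 0} := ContinuousOn.inner (𝕜 := ℝ) n1 cu
  refine hb0 (fun z => (((1 - z.1) * a z + z.1 * (‖z.2.2‖ - 1), z.2.1.2),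
    ((1 - z.1) * (‖z.2.2‖ - 1) - z.1 * a z) • nr z.2.2 - (u z - a z • nr z.2.2)))
    (fun _ => 0) continuousOn_const ?_ ?_ ?_ ?_
  · have c1 : ContinuousOn (fun z : ℝ × (X × Y) => 1 - z.1) {z | z.2.2 ≠ 0} := by fun_prop
    have c2 : ContinuousOn (fun z : ℝ × (X × Y) => ‖z.2.2‖ - 1) {z | z.2.2 ≠ 0} := by fun_prop
    exact (((c1.mul ca).add (continuousOn_fst.mul c2)).prodMk (by fun_prop)).prodMk
      ((((c1.mul c2).sub (continuousOn_fst.mul ca)).smul n1).sub (cu.sub (ca.smul n1)))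
  · intro s hs z hz h0
    simp only [Prod.mk_eq_zero] at h0
    obtain ⟨⟨h1, h2⟩, h3⟩ := h0
    have h4 := congrArg (inner ℝ (nr z.2)) h3
    simp only [inner_sub_right, inner_smul_right, real_inner_self_eq_norm_sq, nr_norm hz,
      inner_zero_right] at h4
    have h5 : inner ℝ (nr z.2) (u (s, z)) = a (s, z) := rfl
    rw [h5] at h4
    have hd : 0 < (1 - s) ^ 2 + s ^ 2 := by nlinarith [sq_nonneg (1 - 2 * s)]
    have a0 : a (s, z) = 0 := by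
      apply (mul_eq_zero.1 _).resolve_left hd.ne'
      linear_combination (1 - s) * h1 - s * h4
    have r0 : ‖z.2‖ - 1 = 0 := by
      apply (mul_eq_zero.1 _).resolve_left hd.ne'
      linear_combination s * h1 + (1 - s) * h4
    have r1 : ‖z.2‖ = 1 := by linarith
    refine ⟨r1, Prod.ext ?_ h2⟩
    simp only [a0, r0, mul_zero, sub_zero, zero_smul, zero_sub, neg_eq_zero, u, r1, nr_unit r1,
      sub_self, mul_one, sub_add_cancel, one_smul] at h3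
    have := hm _ z.1.1 r1
    rw [h3, map_zero] at this
    simpa using this.symm
  · intro z hz
    have i1 : Injective ((n (nr z.2)).prodMap (ContinuousLinearMap.id ℝ (E 3))) := by
      refine (injective_iff_map_eq_zero _).2 fun x hx => ?_
      have e1 : n (nr z.2) x.1 = 0 := congrArg Prod.fst hx
      have e2 := hn (nr z.2) x.1
      rw [e1, nr_norm hz, norm_zero, one_mul] at e2
      exact Prod.ext (norm_eq_zero.1 e2.symm) (by simpa using congrArg Prod.snd hx)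
    have i2 : Ring.inverse ((n (nr z.2)).prodMap (ContinuousLinearMap.id ℝ (E 3))) z.1
        = (-(m (nr z.2) z.1.1), z.1.2) := by
      rw [← inv_app i1 (-(m (nr z.2) z.1.1), z.1.2)]
      congr 1
      simp [hm _ _ (nr_norm hz)]
    simp [Ln, i2, a, u]
  · intro z hz
    have : ‖z.2‖ • m (nr z.2) z.1.1 = m z.2 z.1.1 := by
      simp [nr, smul_smul, norm_ne_zero_iff.2 hz]
    simp [u, this]
    abel

end Crest.Agent.N218.Sh.Sg
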