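import Crest.Agent.N218.A.Sg1
import Crest.Agent.N218.A.Mk

/-! The sheet of a framed immersion of `S^7` and its model problem (helper3). -/

set_option autoImplicit false
open Set Function
open scoped ContDiff Topology

namespace Crest.Agent.N218.Sh

theorem tub {Z T : Type} [NormedAddCommGroup Z] [NormedSpace ℝ Z] [FiniteDimensional ℝ Z]
    [NormedAddCommGroup T] [NormedSpace ℝ T] [FiniteDimensional ℝ T]
    (hd : Module.finrank ℝ Z = Module.finrank ℝ T) {U K : Set Z} (hU : IsOpen U)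
    (hK : IsCompact K) (hKU : K ⊆ U) {F : Z → T} (hs : ContDiffOn ℝ ∞ F U) (hi : InjOn F K)
    (hb : ∀ d ∈ K, Injective (fderiv ℝ F d)) :
    ∃ D, IsOpen D ∧ K ⊆ D ∧ D ⊆ U ∧ InjOn F D ∧ ∀ d ∈ D, Bijective (fderiv ℝ F d) := by
  have : CompleteSpace Z := FiniteDimensional.complete ℝ Z
  have bij : ∀ A : Z →L[ℝ] T, Injective A → Bijective A := fun A h =>
    ⟨h, (LinearMap.injective_iff_surjective_of_finrank_eq_finrank hd (f := A.toLinearMap)).1 h⟩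
  obtain ⟨t, ht, hti⟩ := hi.exists_mem_nhdsSet hK
    (fun d hd => (hs.contDiffAt (hU.mem_nhds (hKU hd))).continuousAt) (fun d hd => by
      have hc : ContDiffAt ℝ ∞ F d := hs.contDiffAt (hU.mem_nhds (hKU hd))
      let e : Z ≃L[ℝ] T := (LinearEquiv.ofBijective (fderiv ℝ F d : Z →ₗ[ℝ] T)
        (bij _ (hb d hd))).toContinuousLinearEquiv
      have hf : HasFDerivAt F (e : Z →L[ℝ] T) d := (hc.differentiableAt (by simp)).hasFDerivAt
      have hst := hc.hasStrictFDerivAt' hf (by simp)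
      exact ⟨_, hst.eventually_left_inverse, fun x hx y hy e => by
        rw [← show _ = x from hx, ← show _ = y from hy, e]⟩)
  obtain ⟨V, hV, hKV, hVt⟩ := mem_nhdsSet_iff_exists.1 ht
  have c1 : ContinuousOn (fderiv ℝ F) U := hs.continuousOn_fderiv_of_isOpen hU (by simp)
  have o1 := c1.isOpen_inter_preimage hU (ContinuousLinearMap.isOpen_injective (𝕜 := ℝ))
  exact ⟨V ∩ (U ∩ fderiv ℝ F ⁻¹' {L | Injective L}), hV.inter o1,
    fun d hd => ⟨hKV hd, hKU hd, hb d hd⟩, fun d hd => hd.2.1,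
    hti.mono fun d hd => hVt hd.1, fun d hd => bij _ hd.2.2⟩

namespace Sg

theorem dnorm {σ : Y} (h : ‖σ‖ = 1) : HasFDerivAt (fun u : Y => ‖u‖) (innerSL ℝ σ) σ := by
  have h1 := ((hasStrictFDerivAt_norm_sq σ).hasFDerivAt).sqrt (by simp [h])
  simp only [Real.sqrt_sq (norm_nonneg _)] at h1
  refine h1.congr_fderiv ?_
  ext v
  simp [h]

noncomputable def tgL (σ : Y) : Y →L[ℝ] Y :=
  ContinuousLinearMap.id ℝ Y - (innerSL ℝ σ).smulRight σ

theorem tgL_apply (σ v : Y) : tgL σ v = v - inner ℝ σ v • σ := by simp [tgL]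

theorem dnr {σ : Y} (h : ‖σ‖ = 1) : HasFDerivAt nr (tgL σ) σ := by
  have h1 := ((hasDerivAt_inv (x := ‖σ‖) (by simp [h])).comp_hasFDerivAt σ (dnorm h)).smul
    (hasFDerivAt_id σ)
  refine h1.congr_fderiv ?_
  ext1 v
  simp [h, tgL_apply, sub_eq_add_neg]

theorem inner_tg {σ : Y} (h : ‖σ‖ = 1) (v : Y) : inner ℝ σ (v - inner ℝ σ v • σ) = 0 := by
  simp [inner_sub_right, inner_smul_right, h]

abbrev Z := Y × E 3 × Y

noncomputable def Xi (f : Y → X) (M : Y → X →L[ℝ] X) (z : ℝ × Z) : ℝ × (X × Y) :=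
  (z.1, (f (nr z.2.1) + M (nr z.2.1) ((‖z.2.1‖ - 1) • nr z.2.1
    - z.1 • (z.2.2.2 - inner ℝ (nr z.2.1) z.2.2.2 • nr z.2.1), z.2.2.1),
    nr z.2.1 + z.2.2.2 - z.1 • (z.2.2.2 - inner ℝ (nr z.2.1) z.2.2.2 • nr z.2.1)))

variable {f : Y → X} {M : Y → X →L[ℝ] X}

theorem Xi_smooth (hf : ContDiffOn ℝ ∞ f {y | y ≠ 0}) (hM : ContDiffOn ℝ ∞ M {y | y ≠ 0}) :
    ContDiffOn ℝ ∞ (Xi f M) {z | z.2.1 ≠ 0} := by
  have n1 : ContDiffOn ℝ ∞ (fun z : ℝ × Z => nr z.2.1) {z | z.2.1 ≠ 0} :=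
    nr_smooth.comp (by fun_prop) (fun z hz => hz)
  have mp : MapsTo (fun z : ℝ × Z => nr z.2.1) {z | z.2.1 ≠ 0} {y | y ≠ 0} :=
    fun z hz => ne0 (nr_norm hz)
  have n2 : ContDiffOn ℝ ∞ (fun z : ℝ × Z => ‖z.2.1‖) {z | z.2.1 ≠ 0} := fun z hz =>
    ((contDiffAt_norm ℝ hz).comp z (by fun_prop : ContDiffAt ℝ ∞
      (fun z : ℝ × Z => z.2.1) z)).contDiffWithinAt
  have n3 : ContDiffOn ℝ ∞ (fun z : ℝ × Z => z.2.2.2) {z | z.2.1 ≠ 0} := by fun_prop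
  have n4 : ContDiffOn ℝ ∞ (fun z : ℝ × Z => z.2.2.1) {z | z.2.1 ≠ 0} := by fun_prop
  have n5 := contDiffOn_fst.smul (n3.sub ((n1.inner ℝ n3).smul n1))
  exact contDiffOn_fst.prodMk (((hf.comp n1 mp).add ((hM.comp n1 mp).clm_apply
    ((((n2.sub contDiffOn_const).smul n1).sub n5).prodMk n4))).prodMk ((n1.add n3).sub n5))

theorem Xi_inj (hf : ContDiffOn ℝ ∞ f {y | y ≠ 0}) (hM : ContDiffOn ℝ ∞ M {y | y ≠ 0})
    {σ : Y} (h : ‖σ‖ = 1) (hi : Injective (M σ))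
    (hol : ∀ v, inner ℝ σ v = 0 → fderiv ℝ f σ v = M σ (v, 0)) (μ : ℝ) :
    Injective (fderiv ℝ (Xi f M) (μ, σ, 0, 0)) := by
  let z0 : ℝ × Z := (μ, σ, 0, 0)
  have o : {y : Y | y ≠ 0} ∈ 𝓝 σ := isOpen_ne.mem_nhds (ne0 h)
  have hμ : HasFDerivAt (𝕜 := ℝ) (fun z : ℝ × Z => z.1) _ z0 := hasFDerivAt_fst
  have hu : HasFDerivAt (𝕜 := ℝ) (fun z : ℝ × Z => z.2.1) _ z0 := hasFDerivAt_snd.fst
  have hw : HasFDerivAt (𝕜 := ℝ) (fun z : ℝ × Z => z.2.2.1) _ z0 := hasFDerivAt_snd.snd.fst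
  have hη : HasFDerivAt (𝕜 := ℝ) (fun z : ℝ × Z => z.2.2.2) _ z0 := hasFDerivAt_snd.snd.snd
  have hN : HasFDerivAt (𝕜 := ℝ) (fun z : ℝ × Z => nr z.2.1) _ z0 :=
    HasFDerivAt.comp (g := nr) (f := fun z : ℝ × Z => z.2.1) z0 (dnr h) hu
  have hn : HasFDerivAt (𝕜 := ℝ) (fun z : ℝ × Z => ‖z.2.1‖ - 1) _ z0 :=
    (HasFDerivAt.comp (g := fun u : Y => ‖u‖) (f := fun z : ℝ × Z => z.2.1) z0
      (dnorm h) hu).sub_const 1
  have htg := hμ.smul (hη.sub ((hN.inner ℝ hη).smul hN))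
  have d1 : HasFDerivAt f (fderiv ℝ f σ) (nr z0.2.1) := by
    rw [show nr z0.2.1 = σ from nr_unit h]
    exact ((hf.contDiffAt o).differentiableAt (by simp)).hasFDerivAt
  have d2 : HasFDerivAt M (fderiv ℝ M σ) (nr z0.2.1) := by
    rw [show nr z0.2.1 = σ from nr_unit h]
    exact ((hM.contDiffAt o).differentiableAt (by simp)).hasFDerivAt
  have tot := hμ.prodMk (((d1.comp z0 hN).add ((d2.comp z0 hN).clm_apply
    (((hn.smul hN).sub htg).prodMk hw))).prodMk ((hN.add hη).sub htg))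
  rw [show fderiv ℝ (Xi f M) (μ, σ, 0, 0) = _ from tot.fderiv]
  refine (injective_iff_map_eq_zero _).2 fun δ hδ => ?_
  obtain ⟨a, v, w, η⟩ := δ
  simp [z0, nr_unit h, h, tgL_apply, fderivInnerCLM_apply] at hδ
  obtain ⟨h1, h2, h3⟩ := hδ
  have e1 := hol _ (inner_tg h v)
  rw [map_sub, map_smul] at e1
  rw [Prod.mk_zero_zero, map_zero, map_zero, smul_zero, sub_zero, add_zero, e1, ← map_add,
    ← map_zero (M σ)] at h2
  have e2 := hi h2
  simp only [Prod.mk_add_mk, Prod.mk_eq_zero, zero_add] at e2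
  have e3 : v = μ • (η - inner ℝ σ η • σ) := by
    rw [← sub_eq_zero, ← e2.1]; abel
  have e4 : inner ℝ σ v = 0 := by rw [e3, inner_smul_right, inner_tg h, mul_zero]
  rw [e4, zero_smul, sub_zero, ← e3, add_sub_cancel_left] at h3
  simp [h1, e2.2, e3, h3]

theorem core (hf : ContDiffOn ℝ ∞ f {y | y ≠ 0}) (hM : ContDiffOn ℝ ∞ M {y | y ≠ 0})
    (hi : ∀ σ, ‖σ‖ = 1 → Injective (M σ))
    (hol : ∀ σ, ‖σ‖ = 1 → ∀ v, inner ℝ σ v = 0 → fderiv ℝ f σ v = M σ (v, 0)) :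
    ∃ S : Sheet X Y (ℝ × E 3) norm, Hb (S.O, fun z => (S.W z, S.H z)) (Pb f M) := by
  let K1 : Set Z := Metric.sphere 0 1 ×ˢ {0} ×ˢ {0}
  have cK1 : IsCompact K1 :=
    (isCompact_sphere _ _).prod (isCompact_singleton.prod isCompact_singleton)
  have mK : ∀ {d : Z}, d ∈ K1 ↔ ‖d.1‖ = 1 ∧ d.2.1 = 0 ∧ d.2.2 = 0 := by simp [K1]
  have cK : IsCompact (Icc (0:ℝ) 1 ×ˢ K1) := isCompact_Icc.prod cK1
  have XK : ∀ μ σ, ‖σ‖ = 1 → Xi f M (μ, σ, 0, 0) = (μ, f σ, σ) := fun μ σ h => by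
    simp [Xi, nr_unit h, h, Prod.mk_zero_zero]
  have oU : IsOpen {z : ℝ × Z | z.2.1 ≠ 0} := isOpen_ne_fun (by fun_prop) continuous_const
  obtain ⟨D, oD, hKD, hDU, iD, bD⟩ := tub (by simp) oU cK
    (fun z hz => ne0 (mK.1 hz.2).1) (Xi_smooth hf hM) (by
      rintro ⟨μ, σ, w, η⟩ h ⟨μ', σ', w', η'⟩ h' e
      obtain ⟨h1, rfl, rfl⟩ := mK.1 h.2
      obtain ⟨h2, rfl, rfl⟩ := mK.1 h'.2
      rw [XK _ _ h1, XK _ _ h2] at e
      simp only [Prod.mk.injEq] at e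
      simp [e.1, e.2.2]) (by
      rintro ⟨μ, σ, w, η⟩ h
      obtain ⟨h1, rfl, rfl⟩ := mK.1 h.2
      exact Xi_inj hf hM h1 (hi σ h1) (hol σ h1) μ)
  obtain ⟨δ, hδ, hδV⟩ := cK1.exists_thickening_subset_open
    (oD.preimage (by fun_prop : Continuous fun d : Z => ((0:ℝ), d)))
    (fun d hd => hKD ⟨⟨le_rfl, zero_le_one⟩, hd⟩)
  obtain ⟨r, r0, rδ, r1⟩ : ∃ r : ℝ, 0 < r ∧ r ≤ δ ∧ r ≤ 1 / 2 :=
    ⟨min δ (1 / 2), by positivity, min_le_left _ _, min_le_right _ _⟩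
  let lab : Z → ℝ × E 3 := fun d => (‖d.1‖ - 1, d.2.1)
  have clab : Continuous lab := by fun_prop
  have cη : Continuous fun d : Z => ‖d.2.2‖ := by fun_prop
  let Dr : Set Z := {d | ‖lab d‖ < r ∧ ‖d.2.2‖ < r}
  have oDr : IsOpen Dr := (isOpen_lt clab.norm continuous_const).inter
    (isOpen_lt cη continuous_const)
  have n0 : ∀ d ∈ Dr, d.1 ≠ 0 := fun d hd e => by
    have := (norm_fst_le (lab d)).trans_lt hd.1
    simp [lab, e] at this
    linarith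
  have inD : ∀ d ∈ Dr, ((0:ℝ), d) ∈ D := fun d hd => hδV (Metric.mem_thickening_iff.2
    ⟨(nr d.1, 0, 0), mK.2 ⟨nr_norm (n0 d hd), rfl, rfl⟩, by
      have e1 : d.1 - nr d.1 = (‖d.1‖ - 1) • nr d.1 := by
        rw [sub_smul, one_smul, nr, smul_smul, mul_inv_cancel₀ (norm_ne_zero_iff.2 (n0 d hd)),
          one_smul]
      have e2 := (norm_fst_le (lab d)).trans_lt hd.1
      have e3 := (norm_snd_le (lab d)).trans_lt hd.1
      rw [Prod.dist_eq, Prod.dist_eq, max_lt_iff, max_lt_iff, dist_eq_norm, dist_zero_right,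
        dist_zero_right, e1, norm_smul, nr_norm (n0 d hd), mul_one]
      exact ⟨e2.trans_le rδ, e3.trans_le rδ, hd.2.trans_le rδ⟩⟩)
  let Ξ : Z → X × Y := fun d => (Xi f M (0, d)).2
  have sΞ : ContDiffOn ℝ ∞ Ξ Dr :=
    ((Xi_smooth hf hM).comp (contDiff_const.prodMk contDiff_id).contDiffOn n0).snd
  have Ξ2 : ∀ d, (Ξ d).2 = nr d.1 + d.2.2 := fun d => by simp [Ξ, Xi]
  have slab : ContDiffOn ℝ ∞ lab Dr := fun d hd =>
    ((((contDiffAt_norm ℝ (n0 d hd)).comp d contDiffAt_fst).sub contDiffAt_const).prodMk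
      contDiffAt_snd.fst).contDiffWithinAt
  obtain ⟨S, Sr, SO, SW⟩ := mk (Ξ := Ξ) (lab := lab) (η := fun d : Z => d.2.2) norm oDr sΞ
    (fun d hd d' hd' e => (Prod.mk.inj (iD (inD d hd) (inD d' hd') (Prod.ext rfl e))).2)
    (fun d hd => by
      have dX : HasFDerivAt (Xi f M) (fderiv ℝ (Xi f M) (0, d)) (0, d) :=
        (((Xi_smooth hf hM).contDiffAt (oU.mem_nhds (n0 d hd))).differentiableAt
          (by simp)).hasFDerivAt
      have d0 := HasFDerivAt.comp (f := fun d : Z => ((0:ℝ), d)) d dX (hasFDerivAt_prodMk_right 0 d)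
      have d1 := d0.fst.unique (hasFDerivAt_const (0:ℝ) d)
      have d2 : fderiv ℝ Ξ d = _ := d0.snd.fderiv
      have : Injective (fderiv ℝ Ξ d) := (injective_iff_map_eq_zero _).2 fun v hv => by
        rw [d2] at hv
        have e : fderiv ℝ (Xi f M) (0, d) (0, v) = fderiv ℝ (Xi f M) (0, d) 0 := by
          rw [map_zero]
          exact Prod.ext (congrArg (fun L : Z →L[ℝ] ℝ => L v) d1) hv
        exact (Prod.mk.inj ((bD _ (inD d hd)).1 e)).2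
      exact ⟨this, (LinearMap.injective_iff_surjective_of_finrank_eq_finrank (by simp)
        (f := (fderiv ℝ Ξ d).toLinearMap)).1 this⟩)
    slab (by fun_prop) r0 (fun d hd => hd)
    (fun d hd => by simp [Ξ2, nr_norm (n0 d hd)])
    (fun d hd e he => ⟨(d.1, d.2.1, e), ⟨hd.1, he⟩, rfl, rfl, by simp [Ξ, Xi]⟩)
    (fun a ha b hb => by
      have : {d | d ∈ Dr ∧ ‖lab d‖ ≤ a ∧ ‖d.2.2‖ ≤ b} = {d | ‖lab d‖ ≤ a ∧ ‖d.2.2‖ ≤ b} :=
        Set.ext fun d => ⟨fun h => h.2, fun h => ⟨⟨h.1.trans_lt ha, h.2.trans_lt hb⟩, h⟩⟩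
      rw [this]
      refine Metric.isCompact_of_isClosed_isBounded ((isClosed_le clab.norm continuous_const).inter
        (isClosed_le cη continuous_const)) ?_
      refine (Metric.isBounded_closedBall (x := (0 : Z)) (r := 2)).subset fun d hd => ?_
      have e2 := (le_abs_self _).trans ((norm_fst_le (lab d)).trans hd.1)
      have e3 := (norm_snd_le (lab d)).trans hd.1
      have e4 := hd.2
      simp only [lab] at e2 e3
      simp only [mem_closedBall_zero_iff, Prod.norm_def, max_le_iff]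
      refine ⟨by linarith, by linarith, by linarith⟩)
  let D' := D ∩ Prod.snd ⁻¹' Dr
  have oD' : IsOpen D' := oD.inter (oDr.preimage continuous_snd)
  have iD' : InjOn (Xi f M) D' := iD.mono inter_subset_left
  obtain ⟨oI, sI⟩ := inv_smooth oD' ((Xi_smooth hf hM).mono fun z hz => hDU hz.1) iD'
    (fun z hz => bD z hz.1)
  have li : ∀ z ∈ D', invFunOn (Xi f M) D' (Xi f M z) = z := fun z hz => iD'.leftInvOn_invFunOn hz
  have K1r : K1 ⊆ Dr := fun d hd => by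
    obtain ⟨h1, h2, h3⟩ := mK.1 hd
    simp [Dr, lab, h1, h2, h3, r0, Prod.mk_zero_zero]
  have KD' : Icc (0:ℝ) 1 ×ˢ K1 ⊆ D' := fun z hz => ⟨hKD hz, K1r hz.2⟩
  have z0 : ∀ d : Z, (lab d, d.2.2) = 0 → d ∈ K1 := fun d h => by
    simp only [lab, Prod.mk_eq_zero] at h
    exact mK.2 ⟨by linarith [h.1.1], h.1.2, h.2⟩
  let g : ℝ × (X × Y) → Z := fun z => (invFunOn (Xi f M) D' z).2
  have cg : ContinuousOn g (Xi f M '' D') := sI.continuousOn.snd
  refine ⟨S, Xi f M '' D', fun z => (lab (g z), (g z).2.2), oI,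
    (clab.comp_continuousOn cg).prodMk cg.snd.snd, ?_, ?_, ?_, ?_, ?_⟩
  · refine (congrArg IsCompact (Set.ext fun z => ?_)).mpr (cK.image_of_continuousOn
      ((Xi_smooth hf hM).continuousOn.mono fun z hz => hDU (hKD hz)))
    constructor
    · rintro ⟨⟨d, hd, rfl⟩, h1, h2⟩
      simp only [g, li d hd] at h2
      exact ⟨d, ⟨h1, z0 _ h2⟩, rfl⟩
    · rintro ⟨d, hd, rfl⟩
      refine ⟨⟨d, KD' hd, rfl⟩, hd.1, ?_⟩
      obtain ⟨h1, h2, h3⟩ := mK.1 hd.2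
      simp [g, li d (KD' hd), lab, h1, h2, h3]
  · rintro a ⟨⟨μ, d⟩, hd, e⟩
    obtain rfl : μ = 0 := congrArg Prod.fst e
    obtain rfl : Ξ d = a := congrArg Prod.snd e
    refine ⟨SO ▸ ⟨d, hd.2, rfl⟩, ?_⟩
    have : g (0, Ξ d) = d := congrArg Prod.snd (li _ hd)
    simp only [this, SW d hd.2]
  · intro a ha h0
    simp only [SO] at ha
    obtain ⟨d, hd, rfl⟩ := ha
    exact ⟨(0, d), ⟨inD d hd, hd⟩, rfl⟩
  · rintro a ⟨⟨μ, u, w, η⟩, hd, e⟩
    obtain rfl : μ = 1 := congrArg Prod.fst e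
    have hg : g (1, a) = (u, w, η) := by rw [← e]; exact congrArg Prod.snd (li _ hd)
    have h1 : ‖nr u‖ = 1 := nr_norm (n0 _ hd.2)
    have h2 : |inner ℝ (nr u) η| ≤ 1 / 2 := by
      have := abs_real_inner_le_norm (nr u) η
      have e4 : ‖η‖ < r := hd.2.2
      rw [h1] at this
      linarith
    have h3 : 0 < 1 + inner ℝ (nr u) η := by linarith [(abs_le.1 h2).1]
    have a2 : a.2 = (1 + inner ℝ (nr u) η) • nr u := by
      rw [← show _ = a.2 from congrArg (fun z => z.2.2) e]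
      simp only [Xi]
      module
    have a3 : ‖a.2‖ = 1 + inner ℝ (nr u) η := by
      rw [a2, norm_smul, h1, mul_one, Real.norm_eq_abs, abs_of_pos h3]
    have a4 : nr a.2 = nr u := by
      rw [nr, a3, a2, smul_smul, inv_mul_cancel₀ h3.ne', one_smul]
    have a1 : a.1 - f (nr u) = M (nr u) ((‖u‖ - 1) • nr u - (η - inner ℝ (nr u) η • nr u), w) := by
      rw [← show _ = a.1 from congrArg (fun z => z.2.1) e]
      simp [Xi]
    refine ⟨fun h => by simp [show a.2 = 0 from h] at a3; linarith, ?_⟩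
    have a5 : inner ℝ (nr u) ((‖u‖ - 1) • nr u - (η - inner ℝ (nr u) η • nr u)) = ‖u‖ - 1 := by
      rw [inner_sub_right, inner_tg h1, inner_smul_right, real_inner_self_eq_norm_sq, h1]
      ring
    simp only [Pb, hg, a4, a1, inv_app (hi _ h1), a3, Ln, a5, lab]
    congr 1
    module
  · intro a ha h0
    obtain ⟨h1, h2⟩ := Ln_zero (nr_norm ha) h0
    have h3 : ‖a.2‖ = 1 := by linarith
    have := app_inv (hi _ (nr_norm ha)) (a.1 - f (nr a.2))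
    rw [h1, map_zero, nr_unit h3] at this
    refine ⟨(1, a.2, 0, 0), KD' ⟨⟨zero_le_one, le_rfl⟩, mK.2 ⟨h3, rfl, rfl⟩⟩, ?_⟩
    rw [XK _ _ h3, ← sub_eq_zero.1 this.symm]

end Sg

end Crest.Agent.N218.Sh
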