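import Crest.Agent.N218.A.Sg2
import Crest.Agent.N218.A.Cor

/-! The gnomonic chart and the proof of `SIG` (helper3). -/

set_option autoImplicit false
open Set Function
open scoped ContDiff Topology

namespace Crest.Agent.N218.Sh
namespace Sg

abbrev P (e : Y) : Type := (ℝ ∙ e)ᗮ

variable {e : Y}

noncomputable def pr (e : Y) (he : ‖e‖ = 1) : Y →L[ℝ] P e :=
  (tgL e).codRestrict _ fun v =>
    Submodule.mem_orthogonal_singleton_iff_inner_right.2 (by rw [tgL_apply, inner_tg he])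

theorem pr_coe (he : ‖e‖ = 1) (v : Y) : (pr e he v : Y) = v - inner ℝ e v • e := tgL_apply e v

theorem ip (p : P e) : inner ℝ e (p : Y) = 0 :=
  Submodule.mem_orthogonal_singleton_iff_inner_right.1 p.2

theorem ipe (he : ‖e‖ = 1) (p : P e) : inner ℝ e ((p : Y) + e) = 1 := by
  simp [inner_add_right, ip, he]

theorem pe0 (he : ‖e‖ = 1) (p : P e) : (p : Y) + e ≠ 0 := fun h => by
  simpa [h] using ipe he p

noncomputable def sg (e : Y) (p : P e) : Y := nr (p + e)

noncomputable def ch (e : Y) (he : ‖e‖ = 1) (u : Y) : P e := (inner ℝ e u)⁻¹ • pr e he u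

theorem sg_smooth (he : ‖e‖ = 1) : ContDiff ℝ ∞ (sg e) :=
  nr_smooth.comp_contDiff ((ℝ ∙ e)ᗮ.subtypeL.contDiff.add contDiff_const) (pe0 he)

theorem sg_norm (he : ‖e‖ = 1) (p : P e) : ‖sg e p‖ = 1 := nr_norm (pe0 he p)

theorem sg_in (he : ‖e‖ = 1) (p : P e) : inner ℝ e (sg e p) = ‖(p : Y) + e‖⁻¹ := by
  rw [sg, nr, inner_smul_right, ipe he, mul_one]

theorem sg_pos (he : ‖e‖ = 1) (p : P e) : 0 < inner ℝ e (sg e p) := by
  rw [sg_in he]; exact inv_pos.2 (norm_pos_iff.2 (pe0 he p))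

theorem ch_smooth (he : ‖e‖ = 1) {n : WithTop ℕ∞} {u : Y} (hu : 0 < inner ℝ e u) :
    ContDiffAt ℝ n (ch e he) u :=
  ((contDiffAt_const.inner ℝ contDiffAt_id).inv hu.ne').smul (pr e he).contDiff.contDiffAt

theorem sg_ch (he : ‖e‖ = 1) {u : Y} (hu : 0 < inner ℝ e u) : sg e (ch e he u) = nr u := by
  have : ((ch e he u : P e) : Y) + e = (inner ℝ e u)⁻¹ • u := by
    rw [ch, Submodule.coe_smul, pr_coe, smul_sub, smul_smul, inv_mul_cancel₀ hu.ne', one_smul,
      sub_add_cancel]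
  rw [sg, this, nr, nr, norm_smul, smul_smul, norm_inv, Real.norm_eq_abs, abs_of_pos hu]
  congr 1
  field_simp

theorem ch_sg (he : ‖e‖ = 1) (p : P e) : ch e he (sg e p) = p := by
  apply Subtype.ext
  rw [ch, Submodule.coe_smul, pr_coe, sg_in he, sg, nr, inv_inv, ← smul_sub, smul_smul,
    mul_inv_cancel₀ (norm_ne_zero_iff.2 (pe0 he p)), one_smul, add_sub_cancel_right]

abbrev W (e : Y) : Type := P e × ℝ × E 3

noncomputable def Sm (e : Y) (p : P e) : W e →L[ℝ] X :=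
  (fderiv ℝ (sg e) p ∘L ContinuousLinearMap.fst ℝ _ _ + (ContinuousLinearMap.fst ℝ _ _ ∘L
    ContinuousLinearMap.snd ℝ _ _).smulRight (sg e p)).prod
    (ContinuousLinearMap.snd ℝ _ _ ∘L ContinuousLinearMap.snd ℝ _ _)

noncomputable def Tm (e : Y) (he : ‖e‖ = 1) (u : Y) : X →L[ℝ] W e :=
  (fderiv ℝ (ch e he) u ∘L ContinuousLinearMap.fst ℝ _ _).prod
    ((innerSL ℝ u ∘L ContinuousLinearMap.fst ℝ _ _).prod (ContinuousLinearMap.snd ℝ _ _))

theorem prod_smooth {A U V V' : Type} [NormedAddCommGroup A] [NormedSpace ℝ A]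
    [NormedAddCommGroup U] [NormedSpace ℝ U] [NormedAddCommGroup V] [NormedSpace ℝ V]
    [NormedAddCommGroup V'] [NormedSpace ℝ V'] {a : A → U →L[ℝ] V} {b : A → U →L[ℝ] V'}
    (ha : ContDiff ℝ ∞ a) (hb : ContDiff ℝ ∞ b) : ContDiff ℝ ∞ fun x => (a x).prod (b x) :=
  (ContinuousLinearMap.prodL ℝ : ((U →L[ℝ] V) × (U →L[ℝ] V')) ≃L[ℝ] _).contDiff.comp
    (ha.prodMk hb)

theorem Sm_smooth (he : ‖e‖ = 1) : ContDiff ℝ ∞ (Sm e) :=
  prod_smooth ((((sg_smooth he).fderiv_right (m := ∞) (by simp)).clm_comp contDiff_const).add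
    (contDiff_const.smulRight (sg_smooth he))) contDiff_const

theorem Tm_smooth (he : ‖e‖ = 1) : ContDiff ℝ ∞ fun p => Tm e he (sg e p) := by
  have h1 : ContDiff ℝ ∞ fun p => fderiv ℝ (ch e he) (sg e p) := contDiff_iff_contDiffAt.2 fun p =>
    ((ch_smooth he (n := ∞) (sg_pos he p)).fderiv_right (m := ∞) (by simp)).comp p
      (sg_smooth he).contDiffAt
  exact prod_smooth (h1.clm_comp contDiff_const) (prod_smooth
    (((innerSL ℝ).contDiff.comp (sg_smooth he)).clm_comp contDiff_const) contDiff_const)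

theorem hs_nhds {u : Y} (hu : 0 < inner ℝ e u) : {v : Y | 0 < inner ℝ e v} ∈ 𝓝 u :=
  (isOpen_lt continuous_const (by fun_prop)).mem_nhds hu

theorem dsg_ch (he : ‖e‖ = 1) {u : Y} (h : ‖u‖ = 1) (hu : 0 < inner ℝ e u) (v : Y) :
    fderiv ℝ (sg e) (ch e he u) (fderiv ℝ (ch e he) u v) = v - inner ℝ u v • u := by
  have h1 := HasFDerivAt.comp u ((sg_smooth he).differentiable (by simp) (ch e he u)).hasFDerivAt
    ((ch_smooth he (n := 1) hu).differentiableAt (by simp)).hasFDerivAt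
  have h2 : HasFDerivAt (sg e ∘ ch e he) (tgL u) u :=
    (dnr h).congr_of_eventuallyEq (Filter.mem_of_superset (hs_nhds hu) fun v hv => sg_ch he hv)
  rw [← tgL_apply, ← h1.unique h2]
  rfl

theorem ST (he : ‖e‖ = 1) {u : Y} (h : ‖u‖ = 1) (hu : 0 < inner ℝ e u) (x : X) :
    Sm e (ch e he u) (Tm e he u x) = x := by
  simp [Sm, Tm, dsg_ch he h hu, sg_ch he hu, nr_unit h]

theorem rank (he : ‖e‖ = 1) : Module.finrank ℝ (W e) = Module.finrank ℝ X := by
  have : Fact (Module.finrank ℝ Y = 7 + 1) := ⟨by simp⟩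
  simp [Submodule.finrank_orthogonal_span_singleton (n := 7) (ne0 he)]

theorem Sm_inj (he : ‖e‖ = 1) (p : P e) : Injective (Sm e p) :=
  (LinearMap.injective_iff_surjective_of_finrank_eq_finrank (rank he)
    (f := (Sm e p).toLinearMap)).2 fun x => ⟨Tm e he (sg e p) x, by
      have := ST he (sg_norm he p) (sg_pos he p) x
      rwa [ch_sg] at this⟩

open Classical in
/-- extension by zero from the chart -/
noncomputable def ex {V : Type} [Zero V] (e : Y) (he : ‖e‖ = 1) (h : P e → V) (u : Y) : V :=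
  if 0 < inner ℝ e u then h (ch e he u) else 0

theorem ex_ev {V : Type} [Zero V] (he : ‖e‖ = 1) {K : Set (P e)} (hK : IsCompact K) {u : Y}
    (h0 : u ≠ 0) (hu : ¬ 0 < inner ℝ e u) :
    ∀ᶠ v in 𝓝 u, ∀ h : P e → V, (∀ p ∉ K, h p = 0) → ex e he h v = 0 := by
  obtain ⟨R, hR0, hR⟩ := hK.isBounded.subset_closedBall_lt 0 0
  have o : IsOpen {v : Y | R * inner ℝ e v < ‖pr e he v‖} := isOpen_lt (by fun_prop) (by fun_prop)
  refine Filter.mem_of_superset (o.mem_nhds ?_) fun v hv h hh => ?_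
  · rcases (not_lt.1 hu).eq_or_lt with h1 | h1
    · have : (pr e he u : Y) ≠ 0 := by rw [pr_coe, h1]; simpa using h0
      simp only [mem_ofPred_eq, h1, mul_zero, norm_pos_iff]
      exact fun h => this (by simp [h])
    · exact (mul_neg_of_pos_of_neg hR0 h1).trans_le (norm_nonneg _)
  · unfold ex
    split_ifs with h1
    · refine hh _ fun hm => ?_
      have := mem_closedBall_zero_iff.1 (hR hm)
      rw [ch, norm_smul, norm_inv, Real.norm_eq_abs, abs_of_pos h1, inv_mul_le_iff₀ h1] at this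
      have h2 : R * inner ℝ e v < ‖pr e he v‖ := hv
      linarith
    · rfl

theorem ex_smooth {V : Type} [NormedAddCommGroup V] [NormedSpace ℝ V] (he : ‖e‖ = 1)
    {n : WithTop ℕ∞} {K : Set (P e)} (hK : IsCompact K) {h : ℝ × P e → V} (hs : ContDiff ℝ n h)
    (h0 : ∀ s, ∀ p ∉ K, h (s, p) = 0) :
    ContDiffOn ℝ n (fun z : ℝ × Y => ex e he (fun p => h (z.1, p)) z.2) {z | z.2 ≠ 0} := by
  intro z hz
  refine ContDiffAt.contDiffWithinAt ?_
  by_cases hu : 0 < inner ℝ e z.2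
  · refine (hs.contDiffAt.comp z (contDiffAt_fst.prodMk
      ((ch_smooth he hu).comp z contDiffAt_snd))).congr_of_eventuallyEq ?_
    filter_upwards [continuous_snd.continuousAt (hs_nhds hu)] with w hw
    exact if_pos hw
  · refine (contDiffAt_const (c := (0 : V))).congr_of_eventuallyEq ?_
    filter_upwards [continuous_snd.continuousAt (ex_ev (V := V) he hK hz hu)] with w hw
    exact hw _ (h0 w.1)

theorem ex_smooth' {V : Type} [NormedAddCommGroup V] [NormedSpace ℝ V] (he : ‖e‖ = 1)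
    {K : Set (P e)} (hK : IsCompact K) {h : P e → V} (hs : ContDiff ℝ ∞ h)
    (h0 : ∀ p ∉ K, h p = 0) : ContDiffOn ℝ ∞ (ex e he h) {u | u ≠ 0} :=
  (ex_smooth he hK (h := fun z => h z.2) (hs.comp contDiff_snd) (fun _ => h0)).comp
    (contDiff_const (c := (0:ℝ)).prodMk contDiff_id).contDiffOn (fun _ hu => hu)

/-- a frame in the chart as a family of endomorphisms over the sphere -/
noncomputable def Mh (e : Y) (he : ‖e‖ = 1) (G : P e → W e →L[ℝ] X) (u : Y) : X →L[ℝ] X :=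
  ContinuousLinearMap.id ℝ X + ex e he (fun p => (G p - Sm e p) ∘L Tm e he (sg e p)) u

theorem Mh_pos (he : ‖e‖ = 1) (G : P e → W e →L[ℝ] X) {u : Y} (h : ‖u‖ = 1)
    (hu : 0 < inner ℝ e u) (x : X) : Mh e he G u x = G (ch e he u) (Tm e he u x) := by
  simp [Mh, ex, hu, sg_ch he hu, nr_unit h, ST he h hu]

theorem Mh_neg (he : ‖e‖ = 1) (G : P e → W e →L[ℝ] X) {u : Y} (hu : ¬ 0 < inner ℝ e u) (x : X) :
    Mh e he G u x = x := by
  simp [Mh, ex, hu]

theorem Mh_inj (he : ‖e‖ = 1) {G : P e → W e →L[ℝ] X} (hG : ∀ p, Injective (G p)) {u : Y}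
    (h : ‖u‖ = 1) : Injective (Mh e he G u) := by
  intro x y hxy
  by_cases hu : 0 < inner ℝ e u
  · rw [Mh_pos he G h hu, Mh_pos he G h hu] at hxy
    rw [← ST he h hu x, hG _ hxy, ST he h hu]
  · rwa [Mh_neg he G hu, Mh_neg he G hu] at hxy

/-- equal to the standard frame outside a compact set -/
def Std (e : Y) (G : P e → W e →L[ℝ] X) : Prop := ∃ K, IsCompact K ∧ ∀ p ∉ K, G p = Sm e p

theorem hb_Hm (he : ‖e‖ = 1) {G G' : P e → W e →L[ℝ] X} (h : Cr.Hm G G') (hG : Std e G) :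
    Std e G' ∧ Hb (Pb (fun _ => 0) (Mh e he G')) (Pb (fun _ => 0) (Mh e he G)) := by
  obtain ⟨K, hK, Γ, cΓ, h0, h1, hi, ho⟩ := h
  obtain ⟨K', hK', ho'⟩ := hG
  have key : ∀ s, ∀ p ∉ K ∪ K', Γ (s, p) = Sm e p := fun s p hp => by
    rw [ho s p fun h => hp (Or.inl h), ho' p fun h => hp (Or.inr h)]
  refine ⟨⟨_, hK.union hK', fun p hp => by rw [← h1, key 1 p hp]⟩,
    hbM (fun _ => 0) (fun z => Mh e he (fun p => Γ (1 - z.1, p)) z.2) continuousOn_const ?_
      (fun s hs σ hσ => Mh_inj he (hi _ ⟨by linarith [hs.2], by linarith [hs.1]⟩) hσ)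
      (fun σ _ => by simp [h1]) (fun σ _ => by simp [h0])⟩
  have c1 : Continuous fun z : ℝ × P e => (Γ (1 - z.1, z.2) - Sm e z.2) ∘L Tm e he (sg e z.2) :=
    ((cΓ.comp (by fun_prop)).sub ((Sm_smooth he).continuous.comp continuous_snd)).clm_comp
      ((Tm_smooth he).continuous.comp continuous_snd)
  exact continuousOn_const.add ((ex_smooth he (hK.union hK') (contDiff_zero.2 c1)
    (fun s p hp => by simp [key _ p hp])).continuousOn.mono fun z hz => ne0 (by simpa using hz.2))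

end Sg

open Sg in
theorem sig : SIG := by
  obtain ⟨n, m, e, he, hne, hn, hm, hnm⟩ := oct
  let ψ : Y → ℝ := fun σ => Real.smoothTransition (2 - 2 * inner ℝ e σ)
  have sψ : ContDiff ℝ ∞ ψ := Real.smoothTransition.contDiff.comp
    (contDiff_const.sub (contDiff_const.mul (contDiff_const.inner ℝ contDiff_id)))
  let κ : ℝ × Y → Y := fun z => z.2 - (z.1 * ψ z.2) • (z.2 + e)
  have sκ : ContDiff ℝ ∞ κ := contDiff_snd.sub ((contDiff_fst.mul (sψ.comp contDiff_snd)).smul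
    (contDiff_snd.add contDiff_const))
  have κ0 : ∀ s ∈ Icc (0:ℝ) 1, ∀ σ, ‖σ‖ = 1 → κ (s, σ) ≠ 0 := by
    intro s hs σ hσ h
    have t0 : 0 ≤ s * ψ σ := mul_nonneg hs.1 (Real.smoothTransition.nonneg _)
    have t1 : s * ψ σ ≤ 1 := mul_le_one₀ hs.2 (Real.smoothTransition.nonneg _)
      (Real.smoothTransition.le_one _)
    have h1 : (1 - s * ψ σ) • σ = (s * ψ σ) • e := by
      rw [← sub_eq_zero, ← h]; simp only [κ]; module
    have h2 := congrArg norm h1
    rw [norm_smul, norm_smul, hσ, he, Real.norm_eq_abs, Real.norm_eq_abs, abs_of_nonneg t0,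
      abs_of_nonneg (by linarith)] at h2
    have h3 : s * ψ σ = 1 / 2 := by linarith
    rw [h3, show (1:ℝ) - 1 / 2 = 1 / 2 by norm_num] at h1
    have h4 : σ = e := smul_right_injective _ (by norm_num) h1
    have : ψ σ = 0 := Real.smoothTransition.zero_of_nonpos (by simp [h4, he])
    simp [this] at h3
  let γ : ℝ × Y → X →L[ℝ] X := fun z => (n (κ z)).prodMap (ContinuousLinearMap.id ℝ (E 3))
  have sγ : ContDiff ℝ ∞ γ :=
    prod_smooth ((n.contDiff.comp sκ).clm_comp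
      (contDiff_const (c := ContinuousLinearMap.fst ℝ Y (E 3))))
      (contDiff_const (c := ContinuousLinearMap.snd ℝ Y (E 3)))
  have iγ : ∀ s ∈ Icc (0:ℝ) 1, ∀ σ, ‖σ‖ = 1 → Injective (γ (s, σ)) := fun s hs σ hσ =>
    (injective_iff_map_eq_zero _).2 fun x hx => by
      have e1 : n (κ (s, σ)) x.1 = 0 := congrArg Prod.fst hx
      have e2 := hn (κ (s, σ)) x.1
      rw [e1, norm_zero] at e2
      exact Prod.ext (norm_eq_zero.1 ((mul_eq_zero.1 e2.symm).resolve_left
        (norm_ne_zero_iff.2 (κ0 s hs σ hσ)))) (by simpa [γ] using congrArg Prod.snd hx)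
  have γ1 : ∀ σ, inner ℝ e σ ≤ 1 / 2 → ∀ x, γ (1, σ) x = x := fun σ hσ x => by
    have : ψ σ = 1 := Real.smoothTransition.one_of_one_le (by linarith)
    have : κ (1, σ) = -e := by simp [κ, this]
    exact Prod.ext (by simp only [γ, this]; exact hne _) rfl
  let f0 : P e → X := fun p => (sg e p, 0)
  let G0 : P e → W e →L[ℝ] X := fun p => γ (1, sg e p) ∘L Sm e p
  have sf0 : ContDiff ℝ ∞ f0 := (sg_smooth he).prodMk contDiff_const
  have std0 : ∀ p ∉ Metric.closedBall (0 : P e) 3, G0 p = Sm e p := fun p hp => by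
    refine ContinuousLinearMap.ext fun x => γ1 _ ?_ _
    rw [sg_in he, one_div]
    refine inv_anti₀ (by norm_num) ?_
    have h1 : 3 < ‖(p : Y)‖ := by simpa using hp
    have h2 := norm_sub_le ((p : Y) + e) e
    rw [add_sub_cancel_right, he] at h2
    linarith
  obtain ⟨f, G, sf, sG, iG, hol, ⟨K, hK, ho⟩, ch0⟩ := Cr.corr (rank he) sf0 (G0 := G0)
    ((sγ.comp (contDiff_const.prodMk (sg_smooth he))).clm_comp (Sm_smooth he))
    (fun p => (iγ 1 ⟨zero_le_one, le_rfl⟩ _ (sg_norm he p)).comp (Sm_inj he p))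
    ⟨_, isCompact_closedBall 0 3, fun p hp v => by
      have := (((sg_smooth he).differentiable (by simp) p).hasFDerivAt.prodMk
        (hasFDerivAt_const (0 : E 3) p)).fderiv
      rw [std0 p hp, show fderiv ℝ f0 p = _ from this]
      simp [Sm]⟩
  have chn : Std e G ∧ Relation.ReflTransGen Hb (Pb (fun _ => 0) (Mh e he G))
      (Pb (fun _ => 0) (Mh e he G0)) := by
    clear sG iG hol ho
    induction ch0 with
    | refl => exact ⟨⟨_, isCompact_closedBall 0 3, std0⟩, .refl⟩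
    | tail _ h ih => exact ⟨(hb_Hm he h ih.1).1, ih.2.head (hb_Hm he h ih.1).2⟩
  obtain ⟨K', hK', ho'⟩ := chn.1
  let fh : Y → X := fun u => (nr u, 0) + ex e he (fun p => f p - f0 p) u
  have g0 : ∀ p ∉ K ∪ K', f p - f0 p = 0 := fun p hp => sub_eq_zero.2 (ho p fun h => hp (.inl h)).1
  have sfh : ContDiffOn ℝ ∞ fh {y | y ≠ 0} := (nr_smooth.prodMk contDiffOn_const).add
    (ex_smooth' he (hK.union hK') (sf.sub sf0) g0)
  have sM : ContDiffOn ℝ ∞ (Mh e he G) {y | y ≠ 0} := contDiffOn_const.add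
    (ex_smooth' he hK' ((sG.sub (Sm_smooth he)).clm_comp (Tm_smooth he))
      (fun p hp => by simp [ho' p hp]))
  obtain ⟨S, hS⟩ := core sfh sM (fun σ hσ => Mh_inj he iG hσ) (fun σ hσ v hv => by
    by_cases hu : 0 < inner ℝ e σ
    · have h1 := HasFDerivAt.comp σ (sf.differentiable (by simp) (ch e he σ)).hasFDerivAt
        ((ch_smooth he (n := 1) hu).differentiableAt (by simp)).hasFDerivAt
      have h2 : fh =ᶠ[𝓝 σ] f ∘ ch e he := Filter.mem_of_superset (hs_nhds hu) fun w hw => by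
        simp [fh, ex, show 0 < inner ℝ e w from hw, f0, sg_ch he hw]
      rw [h2.fderiv_eq, h1.fderiv, Mh_pos he G hσ hu]
      simp [Tm, hv, ← hol, Prod.mk_zero_zero]
    · have h2 : fh =ᶠ[𝓝 σ] fun u => (nr u, 0) := by
        filter_upwards [ex_ev (V := X) he (hK.union hK') (ne0 hσ) hu] with w hw
        simp [fh, hw _ g0]
      rw [h2.fderiv_eq, ((dnr hσ).prodMk (hasFDerivAt_const (0 : E 3) σ)).fderiv, Mh_neg he G hu]
      simp [tgL_apply, hv])
  have sp : Icc (0:ℝ) 1 ×ˢ Metric.sphere (0 : Y) 1 ⊆ {z | z.2 ≠ 0} :=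
    fun z hz => ne0 (by simpa using hz.2)
  refine ⟨m, S, hm, .head hS (.head (b := Pb (fun _ => 0) (Mh e he G)) ?_
    (chn.2.trans (.head ?_ (.single (hb_hopf hn hnm)))))⟩
  · exact hbM (fun z => (1 - z.1) • fh z.2) (fun z => Mh e he G z.2)
      ((by fun_prop : Continuous fun z : ℝ × Y => 1 - z.1).continuousOn.smul
        (sfh.continuousOn.comp continuousOn_snd sp))
      (sM.continuousOn.comp continuousOn_snd sp) (fun _ _ σ hσ => Mh_inj he iG hσ)
      (fun σ _ => by simp) (fun σ _ => by simp)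
  · refine hbM (fun _ => 0) (fun z => γ (1 - z.1, z.2)) continuousOn_const
      (sγ.continuous.comp (by fun_prop)).continuousOn
      (fun s hs σ hσ => iγ _ ⟨by linarith [hs.2], by linarith [hs.1]⟩ σ hσ)
      (fun σ hσ => ⟨rfl, ContinuousLinearMap.ext fun x => ?_⟩)
      (fun σ _ => ⟨rfl, by simp only [γ, κ, sub_self, zero_mul, zero_smul, sub_zero]⟩)
    by_cases hu : 0 < inner ℝ e σ
    · simp [Mh_pos he G0 hσ hu, G0, ST he hσ hu, sg_ch he hu, nr_unit hσ]
    · rw [Mh_neg he G0 hu, sub_zero, γ1 _ (by linarith [not_lt.1 hu])]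

end Crest.Agent.N218.Sh
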