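import Mathlib

/-! Sheets: multi-valued label maps over a base, separated by positions (helper3). -/

set_option autoImplicit false
open Set Function
open scoped ContDiff

namespace Crest.Agent.N218.Sh

abbrev E (n : ℕ) := EuclideanSpace ℝ (Fin n)

/-- `O` = points `(x,y)` near a sheet; `W` = label of the sheet, `y - H` = its position;
`ν` = size of a label. -/
structure Sheet (X Y Lb : Type) [NormedAddCommGroup X] [NormedSpace ℝ X] [NormedAddCommGroup Y]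
    [NormedSpace ℝ Y] [NormedAddCommGroup Lb] [NormedSpace ℝ Lb] (ν : Lb → ℝ) where
  O : Set (X × Y)
  W : X × Y → Lb
  H : X × Y → Y
  r : ℝ
  r0 : 0 < r
  op : IsOpen O
  sW : ContDiffOn ℝ ∞ W O
  sH : ContDiffOn ℝ ∞ H O
  bd : ∀ z ∈ O, ν (W z) < r ∧ ‖H z‖ < r
  pos : ∀ z ∈ O, ‖z.2 - H z‖ ≤ 1
  tr : ∀ z ∈ O, ∀ η, ‖η‖ < r → (z.1, z.2 - H z + η) ∈ O ∧ W (z.1, z.2 - H z + η) = W z ∧
    H (z.1, z.2 - H z + η) = η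
  cpt : ∀ a < r, ∀ b < r, IsCompact {z | z ∈ O ∧ ν (W z) ≤ a ∧ ‖H z‖ ≤ b}

/-- one homotopy of "problems" (open set, map with compact zero set), with shrinking -/
def Hb {A B : Type} [TopologicalSpace A] [TopologicalSpace B] [Zero B]
    (p q : Set A × (A → B)) : Prop :=
  ∃ (U : Set (ℝ × A)) (h : ℝ × A → B), IsOpen U ∧ ContinuousOn h U ∧
    IsCompact {z | z ∈ U ∧ z.1 ∈ Icc (0:ℝ) 1 ∧ h z = 0} ∧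
    (∀ a, (0, a) ∈ U → a ∈ p.1 ∧ h (0, a) = p.2 a) ∧ (∀ a ∈ p.1, p.2 a = 0 → (0, a) ∈ U) ∧
    (∀ a, (1, a) ∈ U → a ∈ q.1 ∧ h (1, a) = q.2 a) ∧ (∀ a ∈ q.1, q.2 a = 0 → (1, a) ∈ U)

/-- the Hopf problem of a bilinear map -/
noncomputable def hopf (m : E 8 →L[ℝ] E 8 →L[ℝ] E 8) :
    Set ((E 8 × E 3) × E 8) × ((E 8 × E 3) × E 8 → (ℝ × E 3) × E 8) :=
  ({z | z.2 ≠ 0}, fun z => ((‖z.2‖ - 1, z.1.2), m z.2 z.1.1))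

/-- the sigma sheet -/
def SIG : Prop :=
  ∃ (m : E 8 →L[ℝ] E 8 →L[ℝ] E 8) (S : Sheet (E 8 × E 3) (E 8) (ℝ × E 3) norm),
    (∀ s x, ‖m s x‖ = ‖s‖ * ‖x‖) ∧
      Relation.ReflTransGen Hb (S.O, fun z => (S.W z, S.H z)) (hopf m)

/-- the disc bundle of `T S²` -/
def N0 : Set (E 3 × E 3) := {n | ‖n.1‖ = 1 ∧ inner ℝ n.1 n.2 = 0}

/-- the Whitney-sphere sheet: `(W,H)` is a homeomorphism of `O` onto `N0(<r) × (-r,r)`, and `O`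
lies over the ball of radius `ρ` -/
def WHI : Prop := ∀ ρ > 0, ∃ (S : Sheet (ℝ × E 3) ℝ (E 3 × E 3) (fun n => ‖n.2‖))
  (Ξ : (E 3 × E 3) × ℝ → (ℝ × E 3) × ℝ), Continuous Ξ ∧
    (∀ z ∈ S.O, ‖z.1‖ < ρ ∧ S.W z ∈ N0 ∧ Ξ (S.W z, S.H z) = z) ∧
    ∀ n ∈ N0, ‖n.2‖ < S.r → ∀ η, ‖η‖ < S.r →
      Ξ (n, η) ∈ S.O ∧ S.W (Ξ (n, η)) = n ∧ S.H (Ξ (n, η)) = η

/-- the composite sheet over `R^11`, positions in `E 8 × ℝ`, labels in `N0`; `S1`, `S2` its two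
factors -/
def TOT : Prop :=
  ∃ (m : E 8 →L[ℝ] E 8 →L[ℝ] E 8) (S1 : Sheet (E 8 × E 3) (E 8) (ℝ × E 3) norm)
    (S2 : Sheet (ℝ × E 3) ℝ (E 3 × E 3) (fun n => ‖n.2‖))
    (Ξ : (E 3 × E 3) × ℝ → (ℝ × E 3) × ℝ)
    (S : Sheet (E 8 × E 3) (E 8 × ℝ) (E 3 × E 3) (fun n => ‖n.2‖)) (ρ : ℝ),
    (∀ s x, ‖m s x‖ = ‖s‖ * ‖x‖) ∧
    Relation.ReflTransGen Hb (S1.O, fun z => (S1.W z, S1.H z)) (hopf m) ∧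
    ρ < S1.r ∧ Continuous Ξ ∧
    (∀ z ∈ S2.O, ‖z.1‖ < ρ ∧ S2.W z ∈ N0 ∧ Ξ (S2.W z, S2.H z) = z) ∧
    (∀ n ∈ N0, ‖n.2‖ < S2.r → ∀ η, ‖η‖ < S2.r →
      Ξ (n, η) ∈ S2.O ∧ S2.W (Ξ (n, η)) = n ∧ S2.H (Ξ (n, η)) = η) ∧
    S.r = S2.r ∧ S2.r ≤ S1.r ∧
    S.O = {z | (z.1, z.2.1) ∈ S1.O ∧ ‖S1.H (z.1, z.2.1)‖ < S2.r ∧
      (S1.W (z.1, z.2.1), z.2.2) ∈ S2.O} ∧
    (∀ z, S.W z = S2.W (S1.W (z.1, z.2.1), z.2.2)) ∧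
    ∀ z, S.H z = (S1.H (z.1, z.2.1), S2.H (S1.W (z.1, z.2.1), z.2.2))

end Crest.Agent.N218.Sh
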