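import Crest.Agent.N218.C.Gen
import Crest.Agent.N218.A.Defs

/-!
# Row 218 (helper86): normalisation calculus; tangential families give conical families
-/

set_option autoImplicit false
open Set Filter Topology ContinuousLinearMap
open scoped ContDiff RealInnerProductSpace
open Crest.GeometryTopology.CotangentSpheres

noncomputable section

namespace Crest.Agent.N218.A.Tc

open C

section
variable {Y : Type*} [NormedAddCommGroup Y] [InnerProductSpace ℝ Y]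

/-- the derivative of the normalisation -/
theorem has_nrm {y : Y} (hy : y ≠ 0) : HasFDerivAt (fun y : Y => ‖y‖⁻¹ • y)
    (‖y‖⁻¹ • (ContinuousLinearMap.id ℝ Y - (innerSL ℝ (‖y‖⁻¹ • y)).smulRight (‖y‖⁻¹ • y))) y := by
  have n0 : ‖y‖ ≠ 0 := norm_ne_zero_iff.2 hy
  have a : HasFDerivAt (fun y : Y => ‖y‖) (‖y‖⁻¹ • innerSL ℝ y) y := by
    have := (hasStrictFDerivAt_norm_sq y).hasFDerivAt.sqrt (pow_ne_zero 2 n0)
    simp only [Real.sqrt_sq (norm_nonneg _)] at this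
    refine this.congr_fderiv (ContinuousLinearMap.ext fun w => ?_)
    simp; field_simp
  have b := ((hasDerivAt_inv n0).comp_hasFDerivAt y a).smul (hasFDerivAt_id y)
  refine b.congr_fderiv (ContinuousLinearMap.ext fun w => ?_)
  simp only [add_apply, smul_apply, id_apply, smulRight_apply, sub_apply, innerSL_apply_apply,
    real_inner_smul_left, smul_eq_mul, Function.comp, id, smul_sub, smul_smul]
  rw [sub_eq_add_neg, ← neg_smul]
  congr 2
  field_simp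

theorem nrm_one {y : Y} (hy : y ≠ 0) : ‖‖y‖⁻¹ • y‖ = 1 := by
  rw [norm_smul, norm_inv, norm_norm, inv_mul_cancel₀ (norm_ne_zero_iff.2 hy)]
end

section
variable {V E : Type*} [NormedAddCommGroup V] [NormedSpace ℝ V] [NormedAddCommGroup E]
  [NormedSpace ℝ E] {G : V × E → ℝ} {n : V → V}

theorem cmp_d1 (hG : ContDiff ℝ ∞ G) (hn : ContDiff ℝ ∞ n) (x k : V × E) :
    fderiv ℝ (fun x : V × E => G (n x.1, x.2)) x k =
      fderiv ℝ G (n x.1, x.2) (fderiv ℝ n x.1 k.1, k.2) := by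
  have := (hG.differentiable (by simp) (n x.1, x.2)).hasFDerivAt.comp x
    (((hn.differentiable (by simp) x.1).hasFDerivAt.comp x hasFDerivAt_fst).prodMk hasFDerivAt_snd)
  exact ContinuousLinearMap.ext_iff.1 this.fderiv k

theorem cmp_d2 (hG : ContDiff ℝ ∞ G) (hn : ContDiff ℝ ∞ n) (x k : V × E) (ζ : E) :
    fderiv ℝ (fderiv ℝ (fun x : V × E => G (n x.1, x.2))) x (0, ζ) k =
      fderiv ℝ (fderiv ℝ G) (n x.1, x.2) (0, ζ) (fderiv ℝ n x.1 k.1, k.2) := by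
  have sm : ContDiff ℝ ∞ fun x : V × E => G (n x.1, x.2) :=
    hG.comp ((hn.comp contDiff_fst).prodMk contDiff_snd)
  have i := (has_d2a sm (x.1, x.2) k).comp x.2 (hasFDerivAt_prodMk_right x.1 x.2)
  have j := (has_d2a hG (n x.1, x.2) (fderiv ℝ n x.1 k.1, k.2)).comp x.2
    (hasFDerivAt_prodMk_right (n x.1) x.2)
  exact (ContinuousLinearMap.ext_iff.1 (j.unique (i.congr_of_eventuallyEq
    (Eventually.of_forall fun ξ => (cmp_d1 hG hn (x.1, ξ) k).symm))) ζ).symm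

/-- a map that is the projection on `{ρ ≤ 0}` has the projection as derivative there -/
theorem has_snd {ρ : V × E → ℝ} {r : V × E → E} (hρ : ContDiff ℝ ∞ ρ) (hr : ContDiff ℝ ∞ r)
    {U : Set V} (hU : IsOpen U) (h : ∀ z : V × E, z.1 ∈ U → ρ z ≤ 0 → r z = z.2) {z : V × E}
    (hz : z.1 ∈ U) (h0 : ρ z ≤ 0) (h1 : ρ z = 0 → ∃ v, fderiv ℝ ρ z (0, v) ≠ 0) :
    HasFDerivAt r (snd ℝ V E) z := by
  have a : ∀ z : V × E, z.1 ∈ U → ρ z < 0 → fderiv ℝ r z = snd ℝ V E := fun z i j => by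
    refine (hasFDerivAt_snd.congr_of_eventuallyEq ?_).fderiv
    filter_upwards [(hU.preimage continuous_fst).mem_nhds i,
      (isOpen_lt hρ.continuous continuous_const).mem_nhds j] with y k l using h y k l.le
  refine (hr.differentiable (by simp) z).hasFDerivAt.congr_fderiv ?_
  rcases h0.eq_or_lt with e | e
  swap
  · exact a z hz e
  obtain ⟨v, hv⟩ := h1 e
  refine (isClosed_eq (hr.continuous_fderiv (by simp)) continuous_const).closure_subset
    (mem_closure_iff_frequently.2 ?_)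
  have : ∃ᶠ y in 𝓝 z, ρ y < 0 := by
    by_contra c
    have m : IsLocalMin ρ z := (not_frequently.1 c).mono fun y hy => e.trans_le (not_lt.1 hy)
    exact hv (by rw [m.fderiv_eq_zero]; rfl)
  exact (this.and_eventually ((hU.preimage continuous_fst).mem_nhds hz)).mono fun y hy =>
    a y hy.2 hy.1
end

/-- `n` is the block normalisation near `q` -/
def Nr (n : VQ → VQ) (q : VQ) : Prop :=
  q.1 ≠ 0 ∧ q.2 ≠ 0 ∧ n =ᶠ[𝓝 q] fun q => (‖q.1‖⁻¹ • q.1, ‖q.2‖⁻¹ • q.2)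

variable {n : VQ → VQ} {q : VQ}

theorem Nr.eq (h : Nr n q) : n q = (‖q.1‖⁻¹ • q.1, ‖q.2‖⁻¹ • q.2) := h.2.2.self_of_nhds

theorem Nr.unit (h : Nr n q) : UnitQ (n q) := by
  rw [h.eq]; exact ⟨nrm_one h.1, nrm_one h.2.1⟩

theorem Nr.d (h : Nr n q) (w : VQ) : fderiv ℝ n q w =
    (‖q.1‖⁻¹ • (w.1 - ⟪(n q).1, w.1⟫ • (n q).1), ‖q.2‖⁻¹ • (w.2 - ⟪(n q).2, w.2⟫ • (n q).2)) := by
  rw [h.2.2.fderiv_eq, h.eq]
  exact ContinuousLinearMap.ext_iff.1 (((has_nrm h.1).comp q hasFDerivAt_fst).prodMk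
    ((has_nrm h.2.1).comp q hasFDerivAt_snd)).fderiv w

theorem Nr.tan (h : Nr n q) (w : VQ) : Tan (n q) (fderiv ℝ n q w) := by
  rw [h.d]
  constructor <;>
    simp [inner_smul_right, inner_sub_right, h.unit.1, h.unit.2]

theorem Nr.onto (h : Nr n q) {v : VQ} (hv : Tan (n q) v) :
    fderiv ℝ n q (‖q.1‖ • v.1, ‖q.2‖ • v.2) = v := by
  rw [h.d]
  simp [inner_smul_right, hv.1, hv.2, smul_smul, inv_mul_cancel₀ (norm_ne_zero_iff.2 h.1),
    inv_mul_cancel₀ (norm_ne_zero_iff.2 h.2.1)]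

theorem Nr.pair (h : Nr n q) {p : VQ} (hp : Tan (n q) p) (w : VQ) :
    ⟪p.1, (fderiv ℝ n q w).1⟫ + ⟪p.2, (fderiv ℝ n q w).2⟫ =
      ‖q.1‖⁻¹ * ⟪p.1, w.1⟫ + ‖q.2‖⁻¹ * ⟪p.2, w.2⟫ := by
  have a := hp.1
  have b := hp.2
  rw [real_inner_comm] at a b
  rw [h.d]
  simp [inner_smul_right, inner_sub_right, a, b]

/-- **tangential to conical** -/
theorem gen_of {G : VQ × Eu 9 → ℝ} {D : Set (VQ × Eu 9)} {L : Set (Amb 11)} (h : TGen G D L)
    (hG : ContDiff ℝ ∞ G) (hD : IsOpen D) (hn : ContDiff ℝ ∞ n) {U : Set VQ} (hU : ∀ q ∈ U, Nr n q)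
    {L' : Set (VQ × (VQ →L[ℝ] ℝ))} (hL : ∀ q ∈ U, ∀ P, (q, P) ∈ L' ↔ ∃ p, (n q, p) ∈ L ∧
      ∀ w, P w = ⟪p.1, (fderiv ℝ n q w).1⟫ + ⟪p.2, (fderiv ℝ n q w).2⟫) :
    Gen (fun x => G (n x.1, x.2)) {x | (n x.1, x.2) ∈ D} U L' := by
  have cr : ∀ x : VQ × Eu 9, Cr (fun x : VQ × Eu 9 => G (n x.1, x.2)) x ↔ Crit G (n x.1, x.2) :=
    fun x => by simp only [Cr, Crit, cmp_d1 hG hn, map_zero]
  refine ⟨hG.comp ((hn.comp contDiff_fst).prodMk contDiff_snd),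
    hD.preimage ((hn.continuous.comp continuous_fst).prodMk continuous_snd),
    fun x a b c => ?_, fun z a b => ?_, fun q a ξ ξ' b b' c c' e => ?_, fun x a b c ζ e => ?_⟩
  · obtain ⟨p, i, j⟩ := h.mem _ _ (hU _ b).unit a ((cr x).1 c)
    exact (hL _ b _).2 ⟨p, i, fun w => (cmp_d1 hG hn x (w, 0)).trans (j _ ((hU _ b).tan w))⟩
  · obtain ⟨p, i, j⟩ := (hL _ b _).1 a
    obtain ⟨y, k, l, m⟩ := h.ex _ _ i
    exact ⟨y, k, (cr _).2 l, ContinuousLinearMap.ext fun w =>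
      ((cmp_d1 hG hn (z.1, y) (w, 0)).trans (m _ ((hU _ b).tan w))).trans (j w).symm⟩
  · refine h.un _ _ _ (hU _ a).unit b b' ((cr _).1 c) ((cr _).1 c') fun v hv => ?_
    rw [← (hU _ a).onto hv]
    exact ((cmp_d1 hG hn (q, ξ) (_, 0)).symm.trans (ContinuousLinearMap.ext_iff.1 e _)).trans
      (cmp_d1 hG hn (q, ξ') (_, 0))
  · refine h.ndg _ _ _ (hU _ b).unit a ((cr x).1 c) fun v η hv => ?_
    rw [← (hU _ b).onto hv]
    exact (cmp_d2 hG hn x (_, η) ζ).symm.trans (ContinuousLinearMap.ext_iff.1 e _)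

/-- radial maps -/
def rad : Bool → VQ →L[ℝ] VQ
  | true => (inl ℝ _ _).comp (fst ℝ _ _)
  | false => (inr ℝ _ _).comp (snd ℝ _ _)

/-- the hypothesis `inj` of `Gen.cone` -/
theorem Nr.inj (h : Nr n q) (P : VQ →L[ℝ] ℝ) (h1 : ∀ i, P (rad i (n q)) = 0)
    (h2 : P.comp (fderiv ℝ n q) = 0) : P = 0 := by
  refine ContinuousLinearMap.ext fun w => ?_
  have t : Tan (n q) (w - ⟪(n q).1, w.1⟫ • rad true (n q) - ⟪(n q).2, w.2⟫ • rad false (n q)) := by
    constructor <;> simp [rad, inner_smul_right, inner_sub_right, h.unit.1, h.unit.2]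
  have := ContinuousLinearMap.ext_iff.1 h2 (_, _) |>.symm.trans (congrArg P (h.onto t))
  simpa [h1] using this.symm

end Crest.Agent.N218.A.Tc
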