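import Crest.Agent.N218.A.Sh

/-! Row 218, block A (helper69): composite sheets, shrinking, extension by zero. -/

set_option autoImplicit false
open Set Function Filter Topology
open scoped ContDiff

namespace Crest.Agent.N218.Sh

section
variable {X Y Lb : Type} [NormedAddCommGroup X] [NormedSpace ℝ X] [NormedAddCommGroup Y]
  [NormedSpace ℝ Y] [NormedAddCommGroup Lb] [NormedSpace ℝ Lb] {ν : Lb → ℝ}

/-- a sheet with a smaller radius -/
def Sheet.shrink (S : Sheet X Y Lb ν) (hν : Continuous ν) (r : ℝ) (h0 : 0 < r) (h1 : r ≤ S.r) :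
    Sheet X Y Lb ν where
  O := {z | z ∈ S.O ∧ ν (S.W z) < r ∧ ‖S.H z‖ < r}
  W := S.W
  H := S.H
  r := r
  r0 := h0
  op := by
    have a := (hν.comp_continuousOn S.sW.continuousOn).isOpen_inter_preimage S.op
      (isOpen_Iio (a := r))
    have b := S.sH.continuousOn.norm.isOpen_inter_preimage S.op (isOpen_Iio (a := r))
    refine (congrArg IsOpen (Set.ext fun z => ?_)).mp (a.inter b)
    exact ⟨fun h => ⟨h.1.1, h.1.2, h.2.2⟩, fun h => ⟨⟨h.1, h.2.1⟩, h.1, h.2.2⟩⟩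
  sW := S.sW.mono fun _ h => h.1
  sH := S.sH.mono fun _ h => h.1
  bd := fun _ h => h.2
  pos := fun z h => S.pos z h.1
  tr := fun z h η hη => by
    obtain ⟨a, b, c⟩ := S.tr z h.1 η (hη.trans_le h1)
    exact ⟨⟨a, by rw [b]; exact h.2.1, by rw [c]; exact hη⟩, b, c⟩
  cpt := fun a ha b hb => by
    refine (congrArg IsCompact (Set.ext fun z => ?_)).mp
      (S.cpt a (ha.trans_le h1) b (hb.trans_le h1))
    exact ⟨fun h => ⟨⟨h.1, h.2.1.trans_lt ha, h.2.2.trans_lt hb⟩, h.2⟩, fun h => ⟨h.1.1, h.2⟩⟩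

variable {U V : Type} [NormedAddCommGroup U] [NormedSpace ℝ U] [NormedAddCommGroup V]
  [NormedSpace ℝ V]

open Classical in
/-- extension by zero of a function of the sheet coordinates -/
noncomputable def Sheet.ex {U V : Type} [Zero V] (S : Sheet X Y Lb ν) (g : Lb × Y × U → V)
    (p : (X × Y) × U) : V := if p.1 ∈ S.O then g (S.W p.1, S.H p.1, p.2) else 0

theorem Sheet.ex_in {U V : Type} [Zero V] (S : Sheet X Y Lb ν) (g : Lb × Y × U → V) {z : X × Y}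
    (hz : z ∈ S.O) (u : U) : S.ex g (z, u) = g (S.W z, S.H z, u) := if_pos hz

theorem Sheet.ex_out {U V : Type} [Zero V] (S : Sheet X Y Lb ν) (g : Lb × Y × U → V) {z : X × Y}
    (hz : z ∉ S.O) (u : U) : S.ex g (z, u) = 0 := if_neg hz

theorem Sheet.ex_zero {U V : Type} [Zero V] (S : Sheet X Y Lb ν) {g : Lb × Y × U → V} {a b : ℝ}
    (h0 : ∀ l η u, ¬(ν l ≤ a ∧ ‖η‖ ≤ b) → g (l, η, u) = 0) {z : X × Y}
    (hz : z ∉ {z | z ∈ S.O ∧ ν (S.W z) ≤ a ∧ ‖S.H z‖ ≤ b}) (u : U) : S.ex g (z, u) = 0 := by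
  by_cases h : z ∈ S.O
  · rw [S.ex_in g h]; exact h0 _ _ _ fun h' => hz ⟨h, h'⟩
  · exact S.ex_out g h u

theorem Sheet.ex_cases {U V : Type} [TopologicalSpace U] [Zero V] (S : Sheet X Y Lb ν)
    {g : Lb × Y × U → V} {a b : ℝ} (ha : a < S.r) (hb : b < S.r)
    (h0 : ∀ l η u, ¬(ν l ≤ a ∧ ‖η‖ ≤ b) → g (l, η, u) = 0) (p : (X × Y) × U) :
    (p.1 ∈ S.O ∧ S.ex g =ᶠ[𝓝 p] fun p => g (S.W p.1, S.H p.1, p.2)) ∨
      S.ex g =ᶠ[𝓝 p] fun _ => 0 := by
  by_cases h : p.1 ∈ S.O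
  · refine Or.inl ⟨h, ?_⟩
    filter_upwards [continuous_fst.continuousAt.preimage_mem_nhds (S.op.mem_nhds h)] with q hq
    exact S.ex_in g hq q.2
  · right
    filter_upwards [continuous_fst.continuousAt.preimage_mem_nhds
      ((S.cpt a ha b hb).isClosed.isOpen_compl.mem_nhds fun h' => h h'.1)] with q hq
    exact S.ex_zero h0 hq q.2

theorem Sheet.ext (S : Sheet X Y Lb ν) {g : Lb × Y × U → V} (hg : ContDiff ℝ ∞ g) {a b : ℝ}
    (ha : a < S.r) (hb : b < S.r) (h0 : ∀ l η u, ¬(ν l ≤ a ∧ ‖η‖ ≤ b) → g (l, η, u) = 0) :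
    ContDiff ℝ ∞ (S.ex g) := by
  refine contDiff_iff_contDiffAt.2 fun p => ?_
  rcases S.ex_cases ha hb h0 p with ⟨h, e⟩ | e
  · refine ContDiffAt.congr_of_eventuallyEq (hg.contDiffAt.comp p ?_) e
    exact ((S.sW.contDiffAt (S.op.mem_nhds h)).comp p contDiffAt_fst).prodMk
      (((S.sH.contDiffAt (S.op.mem_nhds h)).comp p contDiffAt_fst).prodMk contDiffAt_snd)
  · exact contDiffAt_const.congr_of_eventuallyEq e

theorem Sheet.ext_cont {U V : Type} [TopologicalSpace U] [TopologicalSpace V] [Zero V]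
    (S : Sheet X Y Lb ν) {g : Lb × Y × U → V} (hg : Continuous g) {a b : ℝ}
    (ha : a < S.r) (hb : b < S.r) (h0 : ∀ l η u, ¬(ν l ≤ a ∧ ‖η‖ ≤ b) → g (l, η, u) = 0) :
    Continuous (S.ex g) := by
  refine continuous_iff_continuousAt.2 fun p => ?_
  rcases S.ex_cases ha hb h0 p with ⟨h, e⟩ | e
  · refine ContinuousAt.congr (hg.continuousAt.comp (x := p) ?_) e.symm
    exact ((S.sW.continuousOn.continuousAt (S.op.mem_nhds h)).comp continuousAt_fst).prodMk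
      (((S.sH.continuousOn.continuousAt (S.op.mem_nhds h)).comp continuousAt_fst).prodMk
        continuousAt_snd)
  · exact continuousAt_const.congr e.symm

end

section
variable {X Y1 Y2 L1 L2 : Type} [NormedAddCommGroup X] [NormedSpace ℝ X] [NormedAddCommGroup Y1]
  [NormedSpace ℝ Y1] [NormedAddCommGroup Y2] [NormedSpace ℝ Y2] [NormedAddCommGroup L1]
  [NormedSpace ℝ L1] [NormedAddCommGroup L2] [NormedSpace ℝ L2] {ν1 : L1 → ℝ} {ν2 : L2 → ℝ}

/-- the composite of two sheets -/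
def Sheet.comp (S1 : Sheet X Y1 L1 ν1) (S2 : Sheet L1 Y2 L2 ν2) {ρ : ℝ} (hρ : ρ < S1.r)
    (h2 : ∀ z ∈ S2.O, ν1 z.1 ≤ ρ) (hr : S2.r ≤ S1.r) : Sheet X (Y1 × Y2) L2 ν2 where
  O := {z | (z.1, z.2.1) ∈ S1.O ∧ ‖S1.H (z.1, z.2.1)‖ < S2.r ∧ (S1.W (z.1, z.2.1), z.2.2) ∈ S2.O}
  W := fun z => S2.W (S1.W (z.1, z.2.1), z.2.2)
  H := fun z => (S1.H (z.1, z.2.1), S2.H (S1.W (z.1, z.2.1), z.2.2))
  r := S2.r
  r0 := S2.r0
  op := by
    refine isOpen_iff_mem_nhds.2 fun z hz => ?_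
    have c : ContinuousAt (fun z : X × Y1 × Y2 => (z.1, z.2.1)) z := by fun_prop
    have n1 := S1.op.mem_nhds hz.1
    have cH := (S1.sH.continuousOn.continuousAt n1).comp (x := z) c
    have cW := ((S1.sW.continuousOn.continuousAt n1).comp (x := z) c).prodMk
      (continuousAt_snd.comp (continuousAt_snd (p := z)))
    filter_upwards [c.preimage_mem_nhds n1, cH.norm.eventually_lt continuousAt_const hz.2.1,
      cW.preimage_mem_nhds (S2.op.mem_nhds hz.2.2)] with y a b c using ⟨a, b, c⟩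
  sW := S2.sW.comp ((S1.sW.comp (by fun_prop) fun _ h => h.1).prodMk (by fun_prop))
    fun _ h => h.2.2
  sH := (S1.sH.comp (by fun_prop) fun _ h => h.1).prodMk
    (S2.sH.comp ((S1.sW.comp (by fun_prop) fun _ h => h.1).prodMk (by fun_prop)) fun _ h => h.2.2)
  bd := fun z h => ⟨(S2.bd _ h.2.2).1, by
    rw [Prod.norm_def]; exact max_lt h.2.1 (S2.bd _ h.2.2).2⟩
  pos := fun z h => by
    rw [Prod.norm_def]; exact max_le (S1.pos _ h.1) (S2.pos _ h.2.2)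
  tr := fun z h η hη => by
    have e1 : ‖η.1‖ < S2.r := (norm_fst_le η).trans_lt hη
    obtain ⟨a, b, c⟩ := S1.tr _ h.1 η.1 (e1.trans_le hr)
    obtain ⟨a', b', c'⟩ := S2.tr _ h.2.2 η.2 ((norm_snd_le η).trans_lt hη)
    simp only [mem_ofPred_eq, Prod.fst_add, Prod.fst_sub, Prod.snd_add, Prod.snd_sub] at *
    rw [b, c]
    exact ⟨⟨a, e1, a'⟩, b', Prod.ext rfl c'⟩
  cpt := fun a ha b hb => by
    have k1 := S1.cpt ρ hρ b (hb.trans_le hr)
    have k2 := S2.cpt a ha b hb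
    set K1 := {z | z ∈ S1.O ∧ ν1 (S1.W z) ≤ ρ ∧ ‖S1.H z‖ ≤ b}
    set K2 := {z | z ∈ S2.O ∧ ν2 (S2.W z) ≤ a ∧ ‖S2.H z‖ ≤ b}
    have k3 := k1.prod (k2.image continuous_snd)
    have c : ContinuousOn (fun p : (X × Y1) × Y2 => (S1.W p.1, p.2)) (K1 ×ˢ (Prod.snd '' K2)) :=
      (S1.sW.continuousOn.comp continuousOn_fst fun _ h => h.1.1).prodMk continuousOn_snd
    have k4 := k3.of_isClosed_subset (c.preimage_isClosed_of_isClosed k3.isClosed k2.isClosed)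
      inter_subset_left
    have k5 := k4.image (f := fun p : (X × Y1) × Y2 => (p.1.1, p.1.2, p.2)) (by fun_prop)
    refine (congrArg IsCompact (Set.ext fun z => ?_)).mp k5
    constructor
    · rintro ⟨p, ⟨⟨h1, -⟩, h3⟩, rfl⟩
      refine ⟨⟨h1.1, h1.2.2.trans_lt hb, h3.1⟩, h3.2.1, ?_⟩
      rw [Prod.norm_def]; exact max_le h1.2.2 h3.2.2
    · rintro ⟨h, h3, h4⟩
      rw [Prod.norm_def, max_le_iff] at h4
      have m2 : (S1.W (z.1, z.2.1), z.2.2) ∈ K2 := ⟨h.2.2, h3, h4.2⟩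
      exact ⟨((z.1, z.2.1), z.2.2), ⟨⟨⟨h.1, h2 _ h.2.2, h4.1⟩, _, m2, rfl⟩, m2⟩, rfl⟩

end

theorem tot (h1 : SIG) (h2 : WHI) : TOT := by
  obtain ⟨m, S1, hm, hH⟩ := h1
  have r0 := S1.r0
  obtain ⟨S, Ξ, hc, ha, hb⟩ := h2 (S1.r / 2) (by positivity)
  let S2 := S.shrink continuous_snd.norm (min S.r S1.r) (lt_min S.r0 r0) (min_le_left _ _)
  have hρ : S1.r / 2 < S1.r := by linarith
  refine ⟨m, S1, S2, Ξ, S1.comp S2 hρ (fun z hz => (ha z hz.1).1.le) (min_le_right _ _), S1.r / 2,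
    hm, hH, hρ, hc, fun z hz => ha z hz.1, fun n hn h η hη => ?_, rfl, min_le_right _ _, rfl,
    fun _ => rfl, fun _ => rfl⟩
  obtain ⟨a, b, c⟩ := hb n hn (h.trans_le (min_le_left _ _)) η (hη.trans_le (min_le_left _ _))
  exact ⟨⟨a, by rw [b]; exact h, by rw [c]; exact hη⟩, b, c⟩

end Crest.Agent.N218.Sh
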