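import Crest.Agent.N218.A.Mk

/-! Row 218, block A (helper28): the Whitney sphere sheet. -/

set_option autoImplicit false
open Set Function Filter Topology Metric
open scoped ContDiff

noncomputable section

namespace Crest.Agent.N218.Sh

namespace Wh

/-- the thickened Whitney sphere -/
def wm (n : E 3 × E 3) : ℝ × E 3 :=
  (n.1 1 - n.2 0 * n.1 1 - n.1 0 * n.2 1,
    !₂[n.1 2 - n.2 0 * n.1 2 - n.1 0 * n.2 2, n.1 0 * n.1 1 + n.2 1, n.1 0 * n.1 2 + n.2 2])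

theorem wm_smooth : ContDiff ℝ ∞ wm := by
  refine ContDiff.prodMk (by fun_prop) (contDiff_euclidean.2 fun i => ?_)
  fin_cases i <;> simp <;> fun_prop

/-- with the position -/
def Xi (k : ℝ) (p : (E 3 × E 3) × ℝ) : (ℝ × E 3) × ℝ := (k • wm p.1, p.1.1 0 + p.2)

theorem Xi_smooth (k : ℝ) : ContDiff ℝ ∞ (Xi k) :=
  ((wm_smooth.comp contDiff_fst).const_smul k).prodMk (by fun_prop)

/-- with the constraints -/
def Th (k : ℝ) (p : (E 3 × E 3) × ℝ) : ((ℝ × E 3) × ℝ) × ℝ × ℝ :=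
  (Xi k p, p.1.1 0 * p.1.1 0 + p.1.1 1 * p.1.1 1 + p.1.1 2 * p.1.1 2 - 1,
    p.1.1 0 * p.1.2 0 + p.1.1 1 * p.1.2 1 + p.1.1 2 * p.1.2 2)

theorem Th_smooth (k : ℝ) : ContDiff ℝ ∞ (Th k) :=
  (Xi_smooth k).prodMk (by fun_prop)

theorem nsq (a : E 3) : ‖a‖ = 1 ↔ a 0 * a 0 + a 1 * a 1 + a 2 * a 2 - 1 = 0 := by
  rw [← sq_eq_sq₀ (norm_nonneg a) zero_le_one, EuclideanSpace.real_norm_sq_eq, Fin.sum_univ_three]
  constructor <;> intro h <;> linarith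

theorem N0_iff (k : ℝ) (p : (E 3 × E 3) × ℝ) : p.1 ∈ N0 ↔ (Th k p).2 = 0 := by
  have : inner ℝ p.1.1 p.1.2 = p.1.1 0 * p.1.2 0 + p.1.1 1 * p.1.2 1 + p.1.1 2 * p.1.2 2 := by
    simp [PiLp.inner_apply, Fin.sum_univ_three, mul_comm]
  simp only [N0, mem_ofPred_eq, Th, Prod.mk_eq_zero, nsq, this]

theorem quad0 {g : ℝ → ℝ} {A B C : ℝ} (h : HasDerivAt g 0 0)
    (e : ∀ t, g t = A + B * t + C * (t * t)) : B = 0 := by
  have h1 : HasDerivAt (fun t : ℝ => A + B * t + C * (t * t)) (B * 1 + C * (1 * 0 + 0 * 1)) 0 :=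
    (((hasDerivAt_id (0 : ℝ)).const_mul B).const_add A).add
      (((hasDerivAt_id (0 : ℝ)).mul (hasDerivAt_id (0 : ℝ))).const_mul C)
  have := (h1.congr_of_eventuallyEq (.of_forall e)).unique h
  simpa using this

theorem Th_imm {k : ℝ} (hk : k ≠ 0) {a : E 3} (ha : ‖a‖ = 1) :
    Injective (fderiv ℝ (Th k) ((a, 0), 0)) := by
  rw [injective_iff_map_eq_zero]
  rintro ⟨⟨v, ζ⟩, e⟩ h
  have d0 : HasDerivAt (fun t : ℝ => (((a, 0), 0) : (E 3 × E 3) × ℝ) + t • ((v, ζ), e))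
      ((v, ζ), e) 0 := by
    simpa using ((hasDerivAt_id (0 : ℝ)).smul_const (((v, ζ), e) : (E 3 × E 3) × ℝ)).const_add
      ((a, 0), 0)
  have d1 := ((Th_smooth k).differentiable (by simp) ((a, 0), 0)).hasFDerivAt.comp_hasDerivAt_of_eq
    0 d0 (by simp)
  rw [h] at d1
  have key : ∀ (φ : (((ℝ × E 3) × ℝ) × ℝ × ℝ) →L[ℝ] ℝ) (A B C : ℝ),
      (∀ t : ℝ, φ (Th k (((a, 0), 0) + t • ((v, ζ), e))) = A + B * t + C * (t * t)) → B = 0 :=
    fun φ A B C h => quad0 ((φ.hasFDerivAt.comp_hasDerivAt 0 d1).congr_deriv (map_zero φ)) h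
  let p1 := ContinuousLinearMap.fst ℝ ((ℝ × E 3) × ℝ) (ℝ × ℝ)
  let p2 := ContinuousLinearMap.snd ℝ ((ℝ × E 3) × ℝ) (ℝ × ℝ)
  let p3 := (ContinuousLinearMap.fst ℝ (ℝ × E 3) ℝ).comp p1
  let p4 := fun i : Fin 3 => (EuclideanSpace.proj (𝕜 := ℝ) i).comp
    ((ContinuousLinearMap.snd ℝ ℝ (E 3)).comp p3)
  have x1 := key ((ContinuousLinearMap.fst ℝ ℝ (E 3)).comp p3) (k * a 1)
    (k * (v 1 - ζ 0 * a 1 - a 0 * ζ 1)) (k * (-(ζ 0 * v 1) - v 0 * ζ 1)) fun t => by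
      simp [p1, p3, Th, Xi, wm]; ring
  have x2 := key (p4 0) (k * a 2)
    (k * (v 2 - ζ 0 * a 2 - a 0 * ζ 2)) (k * (-(ζ 0 * v 2) - v 0 * ζ 2)) fun t => by
      simp [p1, p3, p4, Th, Xi, wm]; ring
  have y1 := key (p4 1) (k * (a 0 * a 1))
    (k * (v 0 * a 1 + a 0 * v 1 + ζ 1)) (k * (v 0 * v 1)) fun t => by
      simp [p1, p3, p4, Th, Xi, wm]; ring
  have y2 := key (p4 2) (k * (a 0 * a 2))
    (k * (v 0 * a 2 + a 0 * v 2 + ζ 2)) (k * (v 0 * v 2)) fun t => by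
      simp [p1, p3, p4, Th, Xi, wm]; ring
  have e0 := key ((ContinuousLinearMap.snd ℝ (ℝ × E 3) ℝ).comp p1) (a 0) (v 0 + e) 0 fun t => by
      simp [p1, Th, Xi]; ring
  have c1 := key ((ContinuousLinearMap.fst ℝ ℝ ℝ).comp p2)
    (a 0 * a 0 + a 1 * a 1 + a 2 * a 2 - 1) (2 * (a 0 * v 0 + a 1 * v 1 + a 2 * v 2))
    (v 0 * v 0 + v 1 * v 1 + v 2 * v 2) fun t => by
      simp [p2, Th]; ring
  have c2 := key ((ContinuousLinearMap.snd ℝ ℝ ℝ).comp p2) 0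
    (a 0 * ζ 0 + a 1 * ζ 1 + a 2 * ζ 2) (v 0 * ζ 0 + v 1 * ζ 1 + v 2 * ζ 2) fun t => by
      simp [p2, Th]; ring
  have n := (nsq a).1 ha
  replace x1 := (mul_eq_zero.1 x1).resolve_left hk
  replace x2 := (mul_eq_zero.1 x2).resolve_left hk
  replace y1 := (mul_eq_zero.1 y1).resolve_left hk
  replace y2 := (mul_eq_zero.1 y2).resolve_left hk
  have u1 : a 0 * v 0 + (1 - 2 * a 0 * a 0) * ζ 0 = 0 := by
    linear_combination (-(a 1)) * x1 - a 2 * x2 + (1 / 2) * c1 - a 0 * c2 - ζ 0 * n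
  have u2 : (1 - 2 * a 0 * a 0) * v 0 - a 0 * ζ 0 = 0 := by
    linear_combination a 1 * y1 + a 2 * y2 - (a 0 / 2) * c1 - c2 - v 0 * n
  have pos : 0 < a 0 * a 0 + (1 - 2 * a 0 * a 0) * (1 - 2 * a 0 * a 0) := by
    nlinarith [sq_nonneg (a 0 * a 0 - 3 / 8)]
  have v0 : v 0 = 0 := (mul_eq_zero.1 (show (a 0 * a 0 + (1 - 2 * a 0 * a 0) *
    (1 - 2 * a 0 * a 0)) * v 0 = 0 by
      linear_combination a 0 * u1 + (1 - 2 * a 0 * a 0) * u2)).resolve_left pos.ne'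
  have z0 : ζ 0 = 0 := (mul_eq_zero.1 (show (a 0 * a 0 + (1 - 2 * a 0 * a 0) *
    (1 - 2 * a 0 * a 0)) * ζ 0 = 0 by
      linear_combination (1 - 2 * a 0 * a 0) * u1 - a 0 * u2)).resolve_left pos.ne'
  have pos2 : (1 + a 0 * a 0) ≠ 0 := by nlinarith [mul_self_nonneg (a 0)]
  rw [v0] at y1 y2 e0
  rw [z0] at x1 x2
  have z1 : ζ 1 = 0 := (mul_eq_zero.1 (show (1 + a 0 * a 0) * ζ 1 = 0 by
    linear_combination y1 - a 0 * x1)).resolve_left pos2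
  have z2 : ζ 2 = 0 := (mul_eq_zero.1 (show (1 + a 0 * a 0) * ζ 2 = 0 by
    linear_combination y2 - a 0 * x2)).resolve_left pos2
  have v1 : v 1 = 0 := by rw [z1] at x1; linarith
  have v2 : v 2 = 0 := by rw [z2] at x2; linarith
  refine Prod.ext (Prod.ext ?_ ?_) (by simpa using e0)
  · ext i; fin_cases i <;> simpa
  · ext i; fin_cases i <;> simpa

theorem bij_of_inj {A : ((E 3 × E 3) × ℝ) →L[ℝ] ((ℝ × E 3) × ℝ) × ℝ × ℝ} (h : Injective A) :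
    Bijective A :=
  ⟨h, (LinearMap.injective_iff_surjective_of_finrank_eq_finrank
    (f := (A : ((E 3 × E 3) × ℝ) →ₗ[ℝ] ((ℝ × E 3) × ℝ) × ℝ × ℝ)) (by simp)).1 h⟩

/-- the zero section -/
def K0 : Set ((E 3 × E 3) × ℝ) := (fun a : E 3 => ((a, 0), 0)) '' sphere 0 1

theorem K0_cpt : IsCompact K0 := (isCompact_sphere _ _).image (by fun_prop)

theorem exists_nhd {k : ℝ} (hk : k ≠ 0) : ∃ T, IsOpen T ∧ K0 ⊆ T ∧ InjOn (Th k) T ∧
    ∀ p ∈ T, Bijective (fderiv ℝ (Th k) p) := by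
  have sm := Th_smooth k
  obtain ⟨t, ht, hi⟩ := InjOn.exists_mem_nhdsSet (f := Th k) (s := K0) (by
      rintro _ ⟨a, -, rfl⟩ _ ⟨b, -, rfl⟩ e
      have e0 : a 0 = b 0 := by simpa [Th, Xi] using congrArg (fun x => x.1.2) e
      have e1 : a 1 = b 1 := by simpa [Th, Xi, wm, hk] using congrArg (fun x => x.1.1.1) e
      have e2 : a 2 = b 2 := by simpa [Th, Xi, wm, hk] using congrArg (fun x => x.1.1.2 0) e
      have : a = b := by ext i; fin_cases i <;> simpa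
      rw [this]) K0_cpt (fun x _ => sm.continuous.continuousAt) (by
      rintro _ ⟨a, ha, rfl⟩
      let e := (LinearEquiv.ofBijective (fderiv ℝ (Th k) ((a, 0), 0)).toLinearMap
        (bij_of_inj (Th_imm hk (by simpa using ha)))).toContinuousLinearEquiv
      have hf : HasStrictFDerivAt (Th k) e.toContinuousLinearMap ((a, 0), 0) :=
        sm.contDiffAt.hasStrictFDerivAt (by simp)
      exact ⟨_, (hf.toOpenPartialHomeomorph _).open_source.mem_nhds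
        hf.mem_toOpenPartialHomeomorph_source, (hf.toOpenPartialHomeomorph _).injOn⟩)
  obtain ⟨U, hU, h1, h2⟩ := mem_nhdsSet_iff_exists.1 ht
  have op := ContinuousLinearMap.isOpen_injective.preimage (sm.continuous_fderiv (by simp))
  refine ⟨_, hU.inter op, fun p hp => ⟨h1 hp, ?_⟩, hi.mono fun p hp => h2 hp.1,
    fun p hp => bij_of_inj hp.2⟩
  obtain ⟨a, ha, rfl⟩ := hp
  exact Th_imm hk (by simpa using ha)

end Wh

open Wh in
theorem whi : WHI := by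
  intro ρ hρ
  obtain ⟨C, hC⟩ := K0_cpt.exists_bound_of_continuousOn
    (f := fun p => wm p.1) (wm_smooth.continuous.comp continuous_fst).continuousOn
  have C0 : 0 < |C| + 1 := by positivity
  set k := ρ / (|C| + 1) with hk
  have k0 : 0 < k := by positivity
  obtain ⟨T, hT, h1, hi, hb⟩ := exists_nhd k0.ne'
  have cX := (Xi_smooth k).continuous
  have hT' : IsOpen (T ∩ {p | ‖(Xi k p).1‖ < ρ}) :=
    hT.inter (isOpen_lt cX.fst.norm continuous_const)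
  obtain ⟨r, r0, hr⟩ := K0_cpt.exists_thickening_subset_open hT' fun p hp => ⟨h1 hp, by
    have := hC p hp
    change ‖k • wm p.1‖ < ρ
    rw [norm_smul, Real.norm_of_nonneg k0.le, hk, div_mul_eq_mul_div, div_lt_iff₀ C0]
    nlinarith [le_abs_self C]⟩
  have mem : ∀ n ∈ N0, ‖n.2‖ < r → ∀ η : ℝ, ‖η‖ < r → (n, η) ∈ T ∧ ‖(Xi k (n, η)).1‖ < ρ :=
    fun n hn h2 η h3 => hr (mem_thickening_iff.2 ⟨((n.1, 0), 0), ⟨n.1, by simpa using hn.1, rfl⟩, by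
      simp only [Prod.dist_eq, dist_self, dist_zero_right, max_lt_iff]
      exact ⟨⟨r0, h2⟩, h3⟩⟩)
  set D : Set ((E 3 × E 3) × ℝ) := T ∩ {p | ‖p.1.2‖ < r ∧ ‖p.2‖ < r}
  have c1 : Continuous fun p : (E 3 × E 3) × ℝ => ‖p.1.2‖ := by fun_prop
  have c2 : Continuous fun p : (E 3 × E 3) × ℝ => ‖p.2‖ := by fun_prop
  have c3 : Continuous fun p : (E 3 × E 3) × ℝ => ‖p.1.1‖ := by fun_prop
  have c4 : Continuous fun p : (E 3 × E 3) × ℝ => inner ℝ p.1.1 p.1.2 := by fun_prop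
  have hD : IsOpen D := hT.inter ((isOpen_lt c1 continuous_const).inter
    (isOpen_lt c2 continuous_const))
  have iD : InjOn (Th k) D := hi.mono inter_subset_left
  obtain ⟨ho, hm⟩ := inv_smooth hD (Th_smooth k).contDiffOn iD fun d hd => hb d hd.1
  set g := fun x : (ℝ × E 3) × ℝ => invFunOn (Th k) D (x, 0)
  set O := {x : (ℝ × E 3) × ℝ | (x, (0 : ℝ × ℝ)) ∈ Th k '' D}
  have sg : ContDiffOn ℝ ∞ g O := hm.comp (f := fun x => (x, 0)) (by fun_prop) fun x hx => hx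
  have a1 : ∀ n ∈ N0, ‖n.2‖ < r → ∀ η : ℝ, ‖η‖ < r → Xi k (n, η) ∈ O ∧ g (Xi k (n, η)) = (n, η) :=
    fun n hn h2 η h3 => by
      have e : (Xi k (n, η), (0 : ℝ × ℝ)) = Th k (n, η) :=
        Prod.ext rfl ((N0_iff k (n, η)).1 hn).symm
      have m : (n, η) ∈ D := ⟨(mem n hn h2 η h3).1, h2, h3⟩
      exact ⟨⟨_, m, e.symm⟩, by simp only [g, e, iD.leftInvOn_invFunOn m]⟩
  have a2 : ∀ x ∈ O, ∃ n ∈ N0, ‖n.2‖ < r ∧ ∃ η : ℝ, ‖η‖ < r ∧ x = Xi k (n, η) ∧ g x = (n, η) := by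
    rintro x ⟨⟨n, η⟩, m, e⟩
    have hn : n ∈ N0 := (N0_iff k (n, η)).2 (by rw [e])
    have e1 : x = Xi k (n, η) := (congrArg Prod.fst e).symm
    exact ⟨n, hn, m.2.1, η, m.2.2, e1, e1 ▸ (a1 n hn m.2.1 η m.2.2).2⟩
  refine ⟨⟨O, fun x => (g x).1, fun x => (g x).2, r, r0, ho.preimage (by fun_prop), sg.fst, sg.snd,
    fun x hx => ?_, fun x hx => ?_, fun x hx η' h' => ?_, fun a ha b hb => ?_⟩, Xi k, cX,
    fun x hx => ?_, fun n hn h2 η h3 => ?_⟩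
  · obtain ⟨n, -, h2, η, h3, -, e⟩ := a2 x hx
    rw [e]; exact ⟨h2, h3⟩
  · obtain ⟨n, hn, -, η, -, e1, e⟩ := a2 x hx
    rw [e, e1]
    simpa [Xi] using (PiLp.norm_apply_le n.1 0).trans hn.1.le
  · obtain ⟨n, hn, h2, η, h3, e1, e⟩ := a2 x hx
    have e2 : (x.1, x.2 - (g x).2 + η') = Xi k (n, η') := by rw [e, e1]; simp [Xi]
    rw [e2, (a1 n hn h2 η' h').2, e]
    exact ⟨(a1 n hn h2 η' h').1, rfl, rfl⟩
  · have cl : IsClosed {p : (E 3 × E 3) × ℝ | p.1 ∈ N0 ∧ ‖p.1.2‖ ≤ a ∧ ‖p.2‖ ≤ b} :=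
      ((isClosed_eq c3 continuous_const).inter (isClosed_eq c4 continuous_const)).inter
        ((isClosed_le c1 continuous_const).inter (isClosed_le c2 continuous_const))
    have cp := ((isCompact_closedBall (0 : (E 3 × E 3) × ℝ) (max (max 1 a) b)).of_isClosed_subset cl
      fun p hp => by
        rw [mem_closedBall_zero_iff, Prod.norm_def, Prod.norm_def, hp.1.1]
        exact max_le_max (max_le_max le_rfl hp.2.1) hp.2.2).image cX
    refine (congrArg IsCompact (Set.ext fun x => ?_)).mp cp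
    constructor
    · rintro ⟨⟨n, η⟩, ⟨hn, h2, h3⟩, rfl⟩
      obtain ⟨m, e⟩ := a1 n hn (h2.trans_lt ha) η (h3.trans_lt hb)
      refine ⟨m, ?_⟩
      rw [e]; exact ⟨h2, h3⟩
    · rintro ⟨hx, h⟩
      obtain ⟨n, hn, -, η, -, e1, e⟩ := a2 x hx
      rw [e] at h
      exact ⟨(n, η), ⟨hn, h⟩, e1.symm⟩
  · obtain ⟨n, hn, h2, η, h3, e1, e⟩ := a2 x hx
    simp only [e]
    exact ⟨e1 ▸ (mem n hn h2 η h3).2, hn, e1.symm⟩
  · obtain ⟨m, e⟩ := a1 n hn h2 η h3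
    simp only [e]
    exact ⟨m, trivial, trivial⟩

end Crest.Agent.N218.Sh
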