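import Crest.Agent.N218.A.Sg3
import Crest.Agent.N218.A.Whi
import Crest.Agent.N218.A.Tot

/-! The composite sheet exists (helper3). -/

namespace Crest.Agent.N218.Sh

theorem totI : TOT := tot sig whi

end Crest.Agent.N218.Sh
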